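import Vale.Agent.P231.S2N.Tra
import Vale.Agent.P231.XC.Groth

/-!
# P231, stage 3, S3-C: the bundle `ξ` over the unit tangent bundle as a field of matrices

`pX F D X δ ε v` is the matrix of the orthogonal projection `Pm v` of `ℝ^ι` to the negative space
of the index form along the closed geodesic of `v` (rank `l`, invariant under the geodesic flow).
-/

set_option maxSynthPendingDepth 3
set_option linter.unusedSectionVars false
set_option linter.unusedVariables false

open Bundle Manifold Set Filter Module Matrix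
open scoped ContDiff Manifold Topology

namespace Vale.Agent.P231.S3C

noncomputable section

open Vale.Agent.P234 Vale.Agent.P231 Vale.Agent.P231.Fm Vale.Agent.P231.W Vale.Agent.P231.WR
  Vale.Agent.P231.H775 Vale.Agent.P231.S2N Vale.Agent.P231.ChW Vale.Agent.P231.X3

variable {E : Type*} [NormedAddCommGroup E] [NormedSpace ℝ E]
  {M : Type*} [MetricSpace M] [ChartedSpace E M]
  [RiemannianBundle (fun x : M => TangentSpace 𝓘(ℝ, E) x)]
  {e : ∀ x : M, TangentSpace 𝓘(ℝ, E) x → M}
  [FiniteDimensional ℝ E] [IsManifold 𝓘(ℝ, E) ∞ M]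
  [IsContMDiffRiemannianBundle 𝓘(ℝ, E) ∞ E (fun x : M => TangentSpace 𝓘(ℝ, E) x)]
  [CompactSpace M] [ConnectedSpace M] [IsRiemannianManifold 𝓘(ℝ, E) M]

variable {D : ℝ} {ι : Type} [Fintype ι] [DecidableEq ι]

/-- the matrix of the projection `Pm v` -/
def pX (F : Facts e) (D : ℝ) (X δ : ι → UT E M → E) (ε : ℝ) (v : UT E M) : Matrix ι ι ℝ :=
  Matrix.of fun i j => Pm F D X δ ε v (EuclideanSpace.single j (1 : ℝ)) i

theorem pX_apply (F : Facts e) (D : ℝ) (X δ : ι → UT E M → E) (ε : ℝ) (v : UT E M) (i j : ι) :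
    pX F D X δ ε v i j = Pm F D X δ ε v (EuclideanSpace.single j (1 : ℝ)) i := rfl

theorem clm_apply_eq {κ : Type} [Fintype κ] [DecidableEq κ] {V : Type*} [NormedAddCommGroup V]
    [NormedSpace ℝ V] (L : EuclideanSpace ℝ κ →L[ℝ] V) (x : EuclideanSpace ℝ κ) :
    L x = ∑ j, x j • L (EuclideanSpace.single j (1 : ℝ)) := by
  have h : x = ∑ j, x j • EuclideanSpace.single j (1 : ℝ) := by
    ext i
    simp [Pi.single_apply]
  conv_lhs => rw [h]
  rw [map_sum]
  exact Finset.sum_congr rfl fun j _ => map_smul L _ _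

/-- the matrix acts as the projection -/
theorem pX_mulVec (F : Facts e) (D : ℝ) (X δ : ι → UT E M → E) (ε : ℝ) (v : UT E M)
    (x : EuclideanSpace ℝ ι) (i : ι) :
    (pX F D X δ ε v *ᵥ fun j => x j) i = Pm F D X δ ε v x i := by
  rw [clm_apply_eq (Pm F D X δ ε v) x]
  simp only [Matrix.mulVec, dotProduct, pX_apply, WithLp.ofLp_sum, Finset.sum_apply,
    PiLp.smul_apply, smul_eq_mul]
  exact Finset.sum_congr rfl fun j _ => mul_comm _ _

theorem pX_phi (F : Facts e) (hD : 0 < D) (hB : InjGE e D) (hdiam : ∀ p q : M, dist p q ≤ D)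
    (X δ : ι → UT E M → E) (ε : ℝ) (v : UT E M) (t : ℝ) :
    pX F D X δ ε (phi F (v, t)) = pX F D X δ ε v := by
  ext i j
  rw [pX_apply, pX_apply, Fam.Pm_phi F hD hB hdiam]

variable {F : Facts e} {hD : 0 < D} {hB : InjGE e D} {hdiam : ∀ p q : M, dist p q ≤ D}
  {l : ℕ} {X δ : ι → UT E M → E} {ε : ℝ}

theorem pX_idem (h : Fam F hD hB hdiam l X δ ε) (v : UT E M) :
    pX F D X δ ε v * pX F D X δ ε v = pX F D X δ ε v := by
  ext i j
  have h1 := pX_mulVec F D X δ ε v (Pm F D X δ ε v (EuclideanSpace.single j (1 : ℝ))) i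
  rw [h.Pm_Pm v] at h1
  rw [Matrix.mul_apply]
  exact h1

theorem pX_symm (h : Fam F hD hB hdiam l X δ ε) (v : UT E M) :
    (pX F D X δ ε v)ᵀ = pX F D X δ ε v := by
  ext i j
  have h1 := h.Pm_symm v (EuclideanSpace.single i (1 : ℝ)) (EuclideanSpace.single j (1 : ℝ))
  rw [EuclideanSpace.inner_single_left, EuclideanSpace.inner_single_right] at h1
  simp only [map_one, one_mul, conj_trivial] at h1
  rw [Matrix.transpose_apply, pX_apply, pX_apply]
  exact h1

theorem pX_smooth (h : Fam F hD hB hdiam l X δ ε) : SmM (dUT E M) (pX F D X δ ε) :=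
  fun i j => SmF.of fun {E'} _ _ _ {u x} hu => by
    have h1 := h.sm_Pm hu
    have h2 : Sm (fun s => Pm F D X δ ε (u s) (EuclideanSpace.single j (1 : ℝ))) x := by
      filter_upwards [h1] with s hs
      exact hs.clm_apply contDiffAt_const
    exact sm_coord h2 i

theorem pX_trace (h : Fam F hD hB hdiam l X δ ε) (v : UT E M) :
    trace (pX F D X δ ε v) = l := by
  set P : EuclideanSpace ℝ ι →ₗ[ℝ] EuclideanSpace ℝ ι :=
    ((Pm F D X δ ε v : EuclideanSpace ℝ ι →L[ℝ] EuclideanSpace ℝ ι) :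
      EuclideanSpace ℝ ι →ₗ[ℝ] EuclideanSpace ℝ ι) with hP
  have h1 : LinearMap.IsProj (LinearMap.range P) P :=
    ⟨fun x => LinearMap.mem_range_self _ _, by
      rintro _ ⟨y, rfl⟩
      exact h.Pm_Pm v y⟩
  have h2 := h1.trace
  rw [h.finrank_range v] at h2
  have h3 := LinearMap.trace_eq_matrix_trace ℝ (EuclideanSpace.basisFun ι ℝ).toBasis P
  rw [h2] at h3
  rw [h3]
  congr 1

/-- **the bundle `ξ`** -/
theorem pj (h : Fam F hD hB hdiam l X δ ε) : XC.Pj (dUT E M) (pX F D X δ ε) l where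
  sm := pX_smooth h
  idem := pX_idem h
  symm := pX_symm h
  tr := pX_trace h

end

end Vale.Agent.P231.S3C
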