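import Vale.Agent.P231.S3C.Euler
import Vale.Agent.P231.S3F.Ring
import Vale.Agent.P231.H584.Asm
import Vale.Agent.P231.XC.Seg

/-!
# P231, stage 3, S3-C: the Euler form of `E'` in the normalisation of the end of stage 3; the
coefficient of `e~⁷` is rational
-/

set_option linter.unusedSectionVars false
set_option linter.unusedVariables false

open Set Module Filter Topology
open scoped ContDiff

namespace Vale.Agent.P231.S3C

open Fm W H584 ChW S3F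
open Fm.Form (IsDeg)

noncomputable section

variable {B U M : Type*} {dB : Dif B} {dU : Dif U} {dM : Dif M} {D c : ℝ}
  {S : Sys dB dU dM 1 D c}

/-- the value of the class `u` on a box which lifts to the space of pairs -/
theorem L_u {u : Form dU} (hu : UC S u) {B4 : Bt dU} {BL : Bt dB} (g : BL.Good S.hφ)
    (hBL : ∀ w : Form dU, B4.L w = BL.L (Form.pull S.pi S.hpi w)) {κ : ℝ} {n1 n2 : ℤ}
    (h1 : BL.L S.G1 = κ * n1) (h2 : BL.L S.G2 = κ * n2) :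
    B4.L u = κ * (n1 + n2) / 2 := by
  obtain ⟨m, hm, hu'⟩ := hu.rel
  rw [hBL, hu', map_add, map_smul, map_add, h1, h2, g.tf.bas m hm, smul_eq_mul]
  ring

/-- **the coefficient of `e~⁷` in the Euler form of `E'` is rational** -/
theorem exists_rat {κ a μ a₁ q γ : ℝ} (hκ : 0 < κ) (hγ : γ = 6 ∨ γ = -6) {p2 u : Form dU}
    (hu : UC S u) {B4 : Bt dU} (g4 : B4.Good S.hφU) {BL : Bt dB} (g : BL.Good S.hφ)
    (hBL : ∀ w : Form dU, B4.L w = BL.L (Form.pull S.pi S.hpi w))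
    (h1 : ∃ n : ℤ, BL.L S.G1 = κ * n) (h2 : ∃ n : ℤ, BL.L S.G2 = κ * n)
    (e4 : B4.L (S.eU ^ 4) = 1) (ha₁ : ∃ n : ℤ, a₁ = n) (hp2 : ∃ n : ℤ, B4.L p2 = n)
    (hp : Eqv S.hφU.map p2 (q • S.eU ^ 4 + (2 * γ / κ) • u))
    (hM : ∃ n : ℤ, 2 * μ / κ = n) (hPm : ∃ n m : ℤ, a / κ ^ 2 = n + μ / κ * m) :
    ∃ a7 : ℚ, (a7 : ℝ) = 1 - 4 * a₁ + 16 * q - 64 * (a / κ ^ 2) := by
  obtain ⟨n1, h1⟩ := h1
  obtain ⟨n2, h2⟩ := h2
  obtain ⟨A1, rfl⟩ := ha₁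
  obtain ⟨n, hp2⟩ := hp2
  obtain ⟨Mu, hM⟩ := hM
  obtain ⟨N, m, hPm⟩ := hPm
  obtain ⟨w, hw, hp⟩ := hp
  have h3 : (n : ℝ) = q + γ * (n1 + n2) := by
    rw [← hp2, hp, map_add, map_add, map_smul, map_smul, g4.tf.bas w hw, e4,
      L_u hu g hBL h1 h2, smul_eq_mul, smul_eq_mul]
    field_simp
    ring
  have h4 : μ / κ = Mu / 2 := by
    rw [← hM]
    ring
  rw [h4] at hPm
  rcases hγ with rfl | rfl
  · refine ⟨1 - 4 * A1 + 16 * (n - 6 * (n1 + n2)) - 64 * (N + Mu / 2 * m), ?_⟩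
    have h5 : q = n - 6 * (n1 + n2) := by linarith
    rw [hPm, h5]
    push_cast
    ring
  · refine ⟨1 - 4 * A1 + 16 * (n + 6 * (n1 + n2)) - 64 * (N + Mu / 2 * m), ?_⟩
    have h5 : q = n + 6 * (n1 + n2) := by linarith
    rw [hPm, h5]
    push_cast
    ring

/-! ### the Euler form -/

section Euler

variable {ι : Type} [Fintype ι] [DecidableEq ι] {P : U → Matrix ι ι ℝ}

theorem eE_seven (h : XC.Pj dU P 7) (θ : Form dU) : XC.eE h θ =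
    θ.d * XC.cF h 6 + θ.d ^ 3 * XC.cF h 4 + θ.d ^ 5 * XC.cF h 2 + θ.d ^ 7 := by
  have h1 : XC.cF h 1 = 0 := XC.cF_odd h (by decide)
  have h3 : XC.cF h 3 = 0 := XC.cF_odd h (by decide)
  have h5 : XC.cF h 5 = 0 := XC.cF_odd h (by decide)
  have h7 : XC.cF h 7 = 0 := XC.cF_odd h (by decide)
  simp only [XC.eE, Finset.sum_range_succ, Finset.sum_range_zero, Nat.reduceSub, h1, h3, h5, h7,
    XC.cF_zero, mul_zero, add_zero, zero_add, mul_one, pow_one]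

theorem CE.gd {w : Form dU} (h : S.CE w) : Gd S.φU S.hφU.map w := ⟨h.sg, h.d, h.bas⟩

theorem CE_cF (h : XC.Pj dU P 7) (hP : ∀ b t, P (S.φU (b, t)) = P b) (k : ℕ) :
    S.CE (XC.cF h k) :=
  ⟨XC.cF_even h hP S.hφU.map k, XC.cF_closed h hP S.hφU.map k, XC.cF_basic h hP S.hφU.map k⟩

theorem CE_eE (h : XC.Pj dU P 7) (hP : ∀ b t, P (S.φU (b, t)) = P b) {θ : Form dU}
    (hθ : θ.d = (1 / 2 : ℝ) • S.eU) : S.CE (XC.eE h θ) := by
  have hadd : ∀ {v w : Form dU}, S.CE v → S.CE w → S.CE (v + w) := fun hv hw =>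
    ⟨by rw [Form.sg_add, hv.sg, hw.sg], by rw [Form.d_add, hv.d, hw.d, add_zero],
      Basic.add hv.bas hw.bas⟩
  have ht : S.CE θ.d := by
    rw [hθ]
    exact ⟨by rw [Form.sg_smul, S.eU_sg], by rw [Form.d_smul, S.eU_d, smul_zero],
      Basic.smul _ S.eU_basic⟩
  rw [eE_seven]
  exact hadd (hadd (hadd (ht.mul (CE_cF h hP 6)) ((ht.pow 3).mul (CE_cF h hP 4)))
    ((ht.pow 5).mul (CE_cF h hP 2))) (ht.pow 7)

/-- **the Euler form of `E'`, in the normalisation of the end of stage 3** -/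
theorem c_eq {κ a μ a₁ q γ : ℝ} (h : XC.Pj dU P 7)
    (hP : ∀ b t, P (S.φU (b, t)) = P b) {θ : Form dU} (hθ : θ.d = (1 / 2 : ℝ) • S.eU)
    {u : Form dU} (hu : UC S u)
    (h2 : ∃ ρ : Form dU, Basic S.φU S.hφU.map ρ ∧ XC.cF h 2 = -a₁ • S.eU ^ 2 + ρ.d)
    (h4 : ∃ ρ : Form dU, Basic S.φU S.hφU.map ρ ∧
      XC.cF h 4 = (2 * γ / κ) • u + q • S.eU ^ 4 + ρ.d)
    (h6 : ∃ ρ : Form dU, Basic S.φU S.hφU.map ρ ∧
      XC.cF h 6 = -(κ⁻¹ ^ 2) • (a • S.eU ^ 6 + (2 * μ) • (S.eU ^ 2 * u)) + ρ.d) {a7 : ℚ}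
    (ha7 : (a7 : ℝ) = 1 - 4 * a₁ + 16 * q - 64 * (a / κ ^ 2)) :
    Eqv S.hφU.map (XC.eE h θ) (((a7 : ℝ) / 128) • S.eU ^ 7 +
      ((2 * γ - 4 * (2 * μ / κ)) / κ / 8) • (S.eU ^ 3 * u)) := by
  obtain ⟨ρ, h7, h8⟩ := euler_form (Φ := S.φU) (hΦ := S.hφU.map) (CE.gd Sys.CE.eU)
    (CE.gd (CE_cF h hP 2)) (CE.gd (CE_cF h hP 4)) (CE.gd (CE_cF h hP 6)) ⟨hu.sg, hu.d, hu.bas⟩
    h2 h4 h6
  refine ⟨ρ, h7, ?_⟩
  rw [eE_seven, hθ, h8, ha7]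
  congr 1
  rw [_root_.smul_pow, _root_.smul_pow, smul_mul_assoc, smul_smul, smul_smul]
  congr 2
  · ring
  · ring

end Euler

end

end Vale.Agent.P231.S3C
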