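import Vale.Agent.P231.S3C.Coh

/-!
# P231, stage 3, S3-C: basic forms of degree four and eight on the unit tangent bundle, pulled back
to the space of pairs, formal part
-/

set_option linter.unusedSectionVars false
set_option linter.unusedVariables false

open Set Module Filter Topology
open scoped ContDiff

namespace Vale.Agent.P231.S3C

open Fm W H584 A3

variable {B U M : Type*} {dB : Dif B} {dU : Dif U} {dM : Dif M}

/-- pull back along an equivariant map -/
theorem basic_pull_pi {φU : U × ℝ → U} {mU : (dU.prod (Dif.lin ℝ)).Map dU φU}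
    {φ : B × ℝ → B} {mB : (dB.prod (Dif.lin ℝ)).Map dB φ}
    {pi : B → U} (hpi : dB.Map dU pi) (hpφ : ∀ b t, pi (φ (b, t)) = φU (pi b, t))
    {w : Form dU} (hw : Basic φU mU w) : Basic φ mB (Form.pull pi hpi w) := by
  rw [basic_def] at hw ⊢
  have hm : (dB.prod (Dif.lin ℝ)).Map dU (fun p => pi (φ p)) :=
    Dif.Map.comp (f := φ) (g := pi) hpi mB
  have h1 : Form.pull φ mB (Form.pull pi hpi w) =
      Form.pull (fun p : B × ℝ => (pi p.1, p.2)) (map_cyl hpi) (Form.pull φU mU w) := by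
    rw [pull_pull mB hpi hm (fun p => rfl),
      pull_pull (map_cyl hpi) mU hm (fun p => (hpφ p.1 p.2).symm)]
  rw [h1, hw]
  exact pull_pr hpi w

/-- basic forms are invariant -/
theorem pull_phi_basic {φU : U × ℝ → U} {mU : (dU.prod (Dif.lin ℝ)).Map dU φU}
    {w : Form dU} (hw : Basic φU mU w) (t : ℝ) :
    Form.pull (fun v => φU (v, t)) (map_at mU t) w = w := by
  have h3 := congrArg (at_ t) hw
  have h4 : at_ t (Form.pull φU mU w) = Form.pull (fun v => φU (v, t)) (map_at mU t) w :=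
    at_pull_of mU t w
  rw [h4, at_pr] at h3
  exact h3

section Main

variable {D : ℝ} (hD : 0 < D)
    {φU : U × ℝ → U} (hφU : IsFlow dU (2 * D) φU)
    {φ : B × ℝ → B} (hφ : IsFlow dB (2 * D) φ)
    {pi : B → U} (hpi : dB.Map dU pi) (hpφ : ∀ b t, pi (φ (b, t)) = φU (pi b, t))
    {α : Form dU} (hαo : α.sg = -α) (hα : Form.pull φU hφU.map α = pr α + dt)

include hpφ hα in
theorem contact_B : Form.pull φ hφ.map (Form.pull pi hpi α) = pr (Form.pull pi hpi α) + dt := by
  have hm : (dB.prod (Dif.lin ℝ)).Map dU (fun p => pi (φ p)) :=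
    Dif.Map.comp (f := φ) (g := pi) hpi hφ.map
  have h1 : Form.pull φ hφ.map (Form.pull pi hpi α) =
      Form.pull (fun p : B × ℝ => (pi p.1, p.2)) (map_cyl hpi) (Form.pull φU hφU.map α) := by
    rw [pull_pull hφ.map hpi hm (fun p => rfl),
      pull_pull (map_cyl hpi) hφU.map hm (fun p => (hpφ p.1 p.2).symm)]
  rw [h1, hα]
  refine (map_add (Form.pullA _ (map_cyl hpi)) _ _).trans ?_
  congr 1
  · exact pull_pr hpi α
  · exact pull_dt hpi

include hαo in
theorem contact_B_odd : (Form.pull pi hpi α).sg = -Form.pull pi hpi α := by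
  rw [← Form.pull_sg, hαo]
  exact map_neg (Form.pullA pi hpi) α

include hD hφ hpφ hαo hα in
/-- basic forms of degree four -/
theorem four_abs
    (H0 : ∀ w : Form dB, Form.IsDeg 0 w → w.d = 0 → ∃ c : ℝ, w = c • 1)
    (H2 : ∀ w : Form dB, Form.IsDeg 2 w → w.d = 0 → ∃ η : Form dB, w = η.d)
    (H4 : ∀ w : Form dB, Form.IsDeg 4 w → w.d = 0 → ∃ η : Form dB, w = η.d)
    {w : Form dU} (hw : Basic φU hφU.map w) (hwd : w.d = 0) (hdeg : Form.IsDeg 4 w) :
    ∃ (c : ℝ) (ρ : Form dB), Basic φ hφ.map ρ ∧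
      Form.pull pi hpi w = c • ((2 * D)⁻¹ • Form.pull pi hpi α.d) ^ 2 + ρ.d := by
  have hT : 2 * D ≠ 0 := by positivity
  obtain ⟨c, ρ, h1, h2⟩ := pow_e hφ hT (contact_B hφU hφ hpi hpφ hα) (contact_B_odd hpi hαo) 2
    H0 (fun i hi => by
      interval_cases i
      · exact H2
      · exact H4) (w := Form.pull pi hpi w) (basic_pull_pi hpi hpφ hw)
    (by
      rw [← Form.pull_d, hwd]
      exact map_zero (Form.pullA pi hpi)) (hdeg.pull _ _)
  exact ⟨c, ρ, h1, by rw [h2, ← Form.pull_d]⟩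

variable {foot : U → M} (hfoot : dU.Map dM foot)
    {σ : B → B} (hσ : dB.Map dB σ) (hσσ : ∀ b, σ (σ b) = b)
    (hσφ : ∀ b t, σ (φ (b, t)) = φ (σ b, t)) (hσπ : ∀ b, pi (σ b) = φU (pi b, D))
    {g : B × ℝ → M} (hg : (dB.prod (Dif.lin ℝ)).Map dM g)
    (hg0 : ∀ b, g (b, 0) = foot (pi b)) (hg1 : ∀ b t, g (φ (b, t), 1) = g (b, 1))
    {F : Form dM} (hF : F.d = 0) (hFdeg : Form.IsDeg 8 F)

include hσσ in
theorem sym_b1 {b1 : Form dB} (hb1 : b1 = J φ hφ.map (2 * D) (Form.K (Form.pull g hg F) -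
      Form.pull σ hσ (Form.K (Form.pull g hg F))))
    (hσφ : ∀ b t, σ (φ (b, t)) = φ (σ b, t)) : Form.pull σ hσ b1 = -b1 := by
  set S : Form dB →ₐ[ℝ] Form dB := Form.pullA σ hσ with hS
  have h1 : Form.pull σ hσ (J φ hφ.map (2 * D) (Form.K (Form.pull g hg F) -
      S (Form.K (Form.pull g hg F)))) =
      J φ hφ.map (2 * D) (S (Form.K (Form.pull g hg F) - S (Form.K (Form.pull g hg F)))) :=
    pull_J hφ.map hφ.map hσ hσφ (2 * D) _
  have hSS : ∀ w, S (S w) = w := fun w =>
    (pull_pull (k := fun b : B => b) hσ hσ (fun h => h) hσσ w).trans (Form.pull_id _ w)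
  have h2 : b1 = J φ hφ.map (2 * D) (Form.K (Form.pull g hg F) -
    S (Form.K (Form.pull g hg F))) := hb1
  rw [h2, h1, ← J_neg]
  congr 1
  rw [map_sub, hSS]
  abel

include hφU hF hg0 hg1 hσφ hσπ hpφ hFdeg hfoot hpi in
/-- the form `b₁` is basic, closed and homogeneous -/
theorem b1_abs
    {b1 : Form dB} (hb1 : b1 = J φ hφ.map (2 * D) (Form.K (Form.pull g hg F) -
      Form.pull σ hσ (Form.K (Form.pull g hg F)))) :
    Basic φ hφ.map b1 ∧ b1.d = 0 ∧ Form.IsDeg 6 b1 := by
  have hpD : dU.Map dM (fun v => foot (φU (v, D))) :=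
    Dif.Map.comp (f := fun v => φU (v, D)) (g := foot) hfoot (map_at hφU.map D)
  have hgam : (dU.prod (Dif.lin ℝ)).Map dM (fun p => foot (φU p)) :=
    Dif.Map.comp (f := φU) (g := foot) hfoot hφU.map
  set B0 : Form dU := KT D (Form.pull (fun p => foot (φU p)) hgam F) with hB0
  set Fx := Form.pull foot hfoot F with hFx
  set Fb := Form.pull (fun v => foot (φU (v, D))) hpD F with hFb
  have hpx : dB.Map dM (fun b => foot (pi b)) := Dif.Map.comp (f := pi) (g := foot) hfoot hpi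
  have hpb : dB.Map dM (fun b => foot (φU (pi b, D))) :=
    Dif.Map.comp (f := pi) (g := fun v => foot (φU (v, D))) hpD hpi
  set Bx := Form.pull (fun b => foot (pi b)) hpx F with hBx
  set Bb := Form.pull (fun b => foot (φU (pi b, D))) hpb F with hBb
  set B1 := Form.pull pi hpi B0 with hB1
  set F1 := Form.pull g hg F with hF1
  set G1 := Form.pull (fun b => g (b, 1)) (map_at hg 1) F with hG1
  set S : Form dB →ₐ[ℝ] Form dB := Form.pullA σ hσ with hS
  have hF1d : F1.d = 0 := by rw [hF1, ← Form.pull_d, hF]; exact map_zero (Form.pullA g hg)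
  have hKd : (Form.K F1).d = G1 - Bx := by
    have h1 := homotopy' F1
    have h2 : Form.K (0 : Form (dB.prod (Dif.lin ℝ))) = 0 := WA.K_zero'
    rw [hF1d, h2, zero_add] at h1
    rw [← h1]
    have h3 : at_ 1 F1 = G1 := at_pull_of hg 1 F
    have h4 : at_ 0 F1 = Bx := pull_pull (Form.map_slice 0) hg hpx hg0 F
    rw [h3, h4]
  have hSx : S Bx = Bb := pull_pull hσ hpx hpb (fun b => by rw [hσπ]) F
  have hB0d : B0.d = Fb - Fx := by
    have h1 := KT_homotopy D (Form.pull (fun p => foot (φU p)) hgam F)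
    have h2 : (Form.pull (fun p => foot (φU p)) hgam F).d = 0 := by
      rw [← Form.pull_d, hF]; exact map_zero (Form.pullA _ hgam)
    rw [h2, KT_zero, zero_add] at h1
    rw [hB0, ← h1]
    have h3 : at_ D (Form.pull (fun p => foot (φU p)) hgam F) = Fb := at_pull_of hgam D F
    have h4 : at_ 0 (Form.pull (fun p => foot (φU p)) hgam F) = Fx :=
      pull_pull (Form.map_slice 0) hgam hfoot (fun v => by rw [hφU.zero]) F
    rw [h3, h4]
  have hB1d : B1.d = Bb - Bx := by
    rw [hB1, ← Form.pull_d, hB0d]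
    refine (map_sub (Form.pullA pi hpi) Fb Fx).trans ?_
    congr 1
    · exact pull_pull hpi hpD hpb (fun b => rfl) F
    · exact pull_pull hpi hfoot hpx (fun b => rfl) F
  set τ := Form.K F1 - S (Form.K F1) - B1 with hτ
  have hτd : τ.d = G1 - S G1 := by
    have h1 : (S (Form.K F1)).d = S G1 - Bb := by
      have h2 : (S (Form.K F1)).d = S (Form.K F1).d := (Form.pull_d σ hσ _).symm
      rw [h2, hKd, map_sub, hSx]
    rw [hτ, Form.d_sub, Form.d_sub, hKd, h1, hB1d]
    abel
  have hJB : J φ hφ.map (2 * D) B1 = 0 := by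
    rw [hB1, ← pull_J hφ.map hφU.map hpi hpφ, hB0]
    have h1 : Form.pull (fun p => foot (φU p)) hgam F = Form.pull φU hφU.map Fx :=
      (pull_pull hφU.map hfoot hgam (fun p => rfl) F).symm
    rw [h1, J_KT hφU]
    exact map_zero (Form.pullA pi hpi)
  have hJτ : J φ hφ.map (2 * D) τ = b1 := by
    rw [hτ, J_sub, hJB, sub_zero, hb1]
    rfl
  have hG1b : Basic φ hφ.map G1 := basic_pull (map_at hg 1) hg1 F
  have hG2b : Basic φ hφ.map (S G1) := basic_pull_sym hσ hσφ hφ.map hG1b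
  have hb1b : Basic φ hφ.map b1 := by rw [← hJτ]; exact J_basic hφ _
  have hτb : Basic φ hφ.map τ.d := by rw [hτd]; exact Basic.sub hG1b hG2b
  have hb1d : b1.d = 0 := by
    have h3 := J_d hφ τ
    rw [J_of_basic (2 * D) hτb] at h3
    rw [← hJτ]
    exact neg_eq_zero.1 h3.symm
  have hKdeg : Form.IsDeg (6 + 1) (Form.K F1) := by
    have h0 : Form.IsDeg (6 + 1 + 1) F1 := hFdeg.pull _ _
    exact h0.K
  have hJdeg : ∀ {k : ℕ} {w : Form dB}, Form.IsDeg (k + 1) w →
      Form.IsDeg k (J φ hφ.map (2 * D) w) := by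
    intro k w hw
    have h4 := WA.part_J hφ.map k (2 * D) w
    change Form.part k _ = _
    rw [h4, hw.part_eq]
  refine ⟨hb1b, hb1d, ?_⟩
  rw [hb1]
  exact hJdeg (hKdeg.sub (hKdeg.pull _ _))

include hF hg0 hg1 hσσ hσφ hσπ hD hpφ hαo hα hFdeg in
/-- **basic forms of degree eight** -/
theorem eight_abs
    {b1 : Form dB} (hb1 : b1 = J φ hφ.map (2 * D) (Form.K (Form.pull g hg F) -
      Form.pull σ hσ (Form.K (Form.pull g hg F))))
    (H0 : ∀ w : Form dB, Form.IsDeg 0 w → w.d = 0 → ∃ c : ℝ, w = c • 1)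
    (H2 : ∀ w : Form dB, Form.IsDeg 2 w → w.d = 0 → ∃ η : Form dB, w = η.d)
    (H4 : ∀ w : Form dB, Form.IsDeg 4 w → w.d = 0 → ∃ η : Form dB, w = η.d)
    (H6 : ∀ w : Form dB, Form.IsDeg 6 w → w.d = 0 → ∃ (c : ℝ) (η : Form dB), w = c • b1 + η.d)
    {w : Form dU} (hw : Basic φU hφU.map w) (hdeg : Form.IsDeg 8 w) {c : ℝ}
    (hc : ∃ η : Form dB, Form.pull pi hpi w = c • Form.pull (fun b => foot (pi b))
        (Dif.Map.comp (f := pi) (g := foot) hfoot hpi) F + η.d) :
    ∃ (c' : ℝ) (ρ : Form dB), Basic φ hφ.map ρ ∧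
      Form.pull pi hpi w = (c / 2) • (Form.pull (fun b => g (b, 1)) (map_at hg 1) F +
            Form.pull σ hσ (Form.pull (fun b => g (b, 1)) (map_at hg 1) F)) +
        c' • ((2 * D)⁻¹ • Form.pull pi hpi α.d) ^ 4 + ρ.d := by
  have hT : 2 * D ≠ 0 := by positivity
  obtain ⟨hb1b, hb1d, hb1deg⟩ := b1_abs hφU hφ hpi hpφ hfoot hσ hσφ hσπ hg hg0 hg1 hF hFdeg hb1
  have hpD : dU.Map dM (fun v => foot (φU (v, D))) :=
    Dif.Map.comp (f := fun v => φU (v, D)) (g := foot) hfoot (map_at hφU.map D)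
  have hgam : (dU.prod (Dif.lin ℝ)).Map dM (fun p => foot (φU p)) :=
    Dif.Map.comp (f := φU) (g := foot) hfoot hφU.map
  set B0 : Form dU := KT D (Form.pull (fun p => foot (φU p)) hgam F) with hB0
  set Fx := Form.pull foot hfoot F with hFx
  set Fb := Form.pull (fun v => foot (φU (v, D))) hpD F with hFb
  have hpx : dB.Map dM (fun b => foot (pi b)) := Dif.Map.comp (f := pi) (g := foot) hfoot hpi
  have hpb : dB.Map dM (fun b => foot (φU (pi b, D))) :=
    Dif.Map.comp (f := pi) (g := fun v => foot (φU (v, D))) hpD hpi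
  set Bx := Form.pull (fun b => foot (pi b)) hpx F with hBx
  set Bb := Form.pull (fun b => foot (φU (pi b, D))) hpb F with hBb
  set B1 := Form.pull pi hpi B0 with hB1
  set F1 := Form.pull g hg F with hF1
  set G1 := Form.pull (fun b => g (b, 1)) (map_at hg 1) F with hG1
  set S : Form dB →ₐ[ℝ] Form dB := Form.pullA σ hσ with hS
  have hSd : ∀ w, S w.d = (S w).d := fun w => Form.pull_d σ hσ w
  have hSS : ∀ w, S (S w) = w := fun w =>
    (pull_pull (k := fun b : B => b) hσ hσ (fun h => h) hσσ w).trans (Form.pull_id _ w)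
  have hF1d : F1.d = 0 := by rw [hF1, ← Form.pull_d, hF]; exact map_zero (Form.pullA g hg)
  have hKd : (Form.K F1).d = G1 - Bx := by
    have h1 := homotopy' F1
    have h2 : Form.K (0 : Form (dB.prod (Dif.lin ℝ))) = 0 := WA.K_zero'
    rw [hF1d, h2, zero_add] at h1
    rw [← h1]
    have h3 : at_ 1 F1 = G1 := at_pull_of hg 1 F
    have h4 : at_ 0 F1 = Bx := pull_pull (Form.map_slice 0) hg hpx hg0 F
    rw [h3, h4]
  have hSx : S Bx = Bb := pull_pull hσ hpx hpb (fun b => by rw [hσπ]) F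
  have hB0d : B0.d = Fb - Fx := by
    have h1 := KT_homotopy D (Form.pull (fun p => foot (φU p)) hgam F)
    have h2 : (Form.pull (fun p => foot (φU p)) hgam F).d = 0 := by
      rw [← Form.pull_d, hF]; exact map_zero (Form.pullA _ hgam)
    rw [h2, KT_zero, zero_add] at h1
    rw [hB0, ← h1]
    have h3 : at_ D (Form.pull (fun p => foot (φU p)) hgam F) = Fb := at_pull_of hgam D F
    have h4 : at_ 0 (Form.pull (fun p => foot (φU p)) hgam F) = Fx :=
      pull_pull (Form.map_slice 0) hgam hfoot (fun v => by rw [hφU.zero]) F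
    rw [h3, h4]
  have hB1d : B1.d = Bb - Bx := by
    rw [hB1, ← Form.pull_d, hB0d]
    refine (map_sub (Form.pullA pi hpi) Fb Fx).trans ?_
    congr 1
    · exact pull_pull hpi hpD hpb (fun b => rfl) F
    · exact pull_pull hpi hfoot hpx (fun b => rfl) F
  have hG1b : Basic φ hφ.map G1 := basic_pull (map_at hg 1) hg1 F
  have hG2b : Basic φ hφ.map (S G1) := basic_pull_sym hσ hσφ hφ.map hG1b
  have hG1deg : Form.IsDeg 8 G1 := hFdeg.pull _ _
  have hG2deg : Form.IsDeg 8 (S G1) := hG1deg.pull σ hσ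
  have hSα : Form.pull σ hσ (Form.pull pi hpi α) = Form.pull pi hpi α := by
    have hm : dB.Map dU (fun b => φU (pi b, D)) :=
      Dif.Map.comp (f := pi) (g := fun v => φU (v, D)) (map_at hφU.map D) hpi
    have h1 : Form.pull σ hσ (Form.pull pi hpi α) =
        Form.pull (fun b => φU (pi b, D)) hm α := pull_pull hσ hpi hm hσπ α
    have h2 : Form.pull (fun v => φU (v, D)) (map_at hφU.map D) α = α := by
      have h3 := congrArg (at_ D) hα
      have h4 : at_ D (Form.pull φU hφU.map α) = Form.pull (fun v => φU (v, D)) (map_at hφU.map D) α :=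
        at_pull_of hφU.map D α
      have h5 : at_ D (pr α + dt) = α := by
        rw [at_add, at_pr, WA.at_dt, add_zero]
      rw [h4, h5] at h3
      exact h3
    rw [h1]
    have h6 := pull_pull hpi (map_at hφU.map D) hm (fun b => rfl) α
    rw [← h6, h2]
  have hSw : S (Form.pull pi hpi w) = Form.pull pi hpi w := by
    have hm : dB.Map dU (fun b => φU (pi b, D)) :=
      Dif.Map.comp (f := pi) (g := fun v => φU (v, D)) (map_at hφU.map D) hpi
    have h1 : S (Form.pull pi hpi w) =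
        Form.pull (fun b => φU (pi b, D)) hm w := pull_pull hσ hpi hm hσπ w
    rw [h1]
    have h6 := pull_pull hpi (map_at hφU.map D) hm (fun b => rfl) w
    rw [← h6, pull_phi_basic hw D]
  obtain ⟨η, hη⟩ := hc
  have e1 : G1 = Bx + (Form.K F1).d := by rw [hKd]; abel
  have e2 : S G1 = Bx + (B1 + S (Form.K F1)).d := by
    have h1 : S G1 = Bb + (S (Form.K F1)).d := by
      rw [← hSd, hKd, map_sub, hSx]; abel
    rw [h1, Form.d_add, hB1d]
    abel
  obtain ⟨c', ρ, h1, h2⟩ := sym_eight hφ hT (contact_B hφU hφ hpi hpφ hα) (contact_B_odd hpi hαo)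
    hb1b hb1d hb1deg hσ hσφ hSα (sym_b1 hφ hσ hσσ hg hb1 hσφ) H0 H2 H4 H6
    (w := Form.pull pi hpi w - (c / 2) • (G1 + S G1))
    (η := η - (c / 2) • (Form.K F1 + (B1 + S (Form.K F1))))
    (Basic.sub (basic_pull_pi hpi hpφ hw) (Basic.smul _ (Basic.add hG1b hG2b)))
    (by
      have h3 : (η - (c / 2) • (Form.K F1 + (B1 + S (Form.K F1)))).d =
          η.d - (c / 2) • ((Form.K F1).d + (B1 + S (Form.K F1)).d) := by
        rw [Form.d_sub, Form.d_smul, Form.d_add]
      rw [h3]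
      nth_rewrite 1 [e2]
      nth_rewrite 1 [e1]
      rw [hη]
      module)
    ((hdeg.pull _ _).sub ((hG1deg.add hG2deg).smul _))
    (by
      change S (Form.pull pi hpi w - (c / 2) • (G1 + S G1)) = _
      rw [map_sub, map_smul, map_add, hSS, hSw, add_comm (S G1)])
  refine ⟨c', ρ, h1, ?_⟩
  have h4 : Form.pull pi hpi w = (Form.pull pi hpi w - (c / 2) • (G1 + S G1)) +
      (c / 2) • (G1 + S G1) := by abel
  rw [h4, h2, ← Form.pull_d]
  change _ = (c / 2) • (G1 + S G1) + _ + _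
  abel

end Main

end Vale.Agent.P231.S3C
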