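import Vale.Agent.P231.H584.Lev2
import Vale.Agent.P231.ChW.RankCF

/-!
# P231, stage 3, S3-C: the Euler form of `E' = ξ ⊗ (half line)`, formal part
-/

set_option linter.unusedSectionVars false
set_option linter.unusedVariables false
set_option linter.unusedSimpArgs false

open Set Module Filter Topology
open scoped ContDiff

namespace Vale.Agent.P231.S3C

open Fm W H584 ChW

/-! ### Newton's recursion when the odd power sums vanish -/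

section Newton

variable {R : Type*} [Ring R] [Algebra ℝ R] {s c : ℕ → R}

theorem newton_even (h : NewtonRec ℝ s c) (h1 : s 1 = 0) (h3 : s 3 = 0) (h5 : s 5 = 0)
    (h7 : s 7 = 0) : c 0 = 1 ∧ c 1 = 0 ∧ c 2 = -(1 / 2 : ℝ) • s 2 ∧ c 3 = 0 ∧
      c 4 = (1 / 8 : ℝ) • s 2 ^ 2 - (1 / 4 : ℝ) • s 4 ∧ c 5 = 0 ∧ c 7 = 0 := by
  have k0 : c 0 = 1 := h.1
  have hs : ∀ {r : ℝ} {x y : R}, r ≠ 0 → r • x = y → x = r⁻¹ • y := fun hr e => by
    rw [← e, smul_smul, inv_mul_cancel₀ hr, one_smul]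
  have k1 : c 1 = 0 := by
    have := h.2 0
    simp only [Finset.sum_range_succ, Finset.sum_range_zero, h1, zero_add, pow_zero, one_smul,
      zero_mul, Nat.cast_zero] at this
    exact this
  have k2 : c 2 = -(1 / 2 : ℝ) • s 2 := by
    have := h.2 1
    simp only [Finset.sum_range_succ, Finset.sum_range_zero, h1, zero_add, pow_zero, one_smul,
      zero_mul, Nat.reduceAdd, Nat.reduceSub, k0, mul_one, pow_one, Nat.cast_one, Nat.cast_ofNat,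
      neg_one_smul] at this
    rw [hs (by norm_num) this]
    module
  have k3 : c 3 = 0 := by
    have := h.2 2
    simp only [Finset.sum_range_succ, Finset.sum_range_zero, h1, h3, zero_add, pow_zero, one_smul,
      zero_mul, Nat.reduceAdd, Nat.reduceSub, k0, k1, mul_one, pow_one, mul_zero, smul_zero,
      add_zero] at this
    rw [hs (by norm_num) this, smul_zero]
  have k4 : c 4 = (1 / 8 : ℝ) • s 2 ^ 2 - (1 / 4 : ℝ) • s 4 := by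
    have := h.2 3
    simp only [Finset.sum_range_succ, Finset.sum_range_zero, h1, h3, zero_add, pow_zero, one_smul,
      zero_mul, Nat.reduceAdd, Nat.reduceSub, k0, k1, k2, mul_one, pow_one, mul_zero, smul_zero,
      add_zero, neg_one_smul] at this
    rw [hs (by norm_num) this, mul_smul_comm, ← pow_two]
    norm_num
    module
  have k5 : c 5 = 0 := by
    have := h.2 4
    simp only [Finset.sum_range_succ, Finset.sum_range_zero, h1, h3, h5, zero_add, pow_zero,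
      one_smul, zero_mul, Nat.reduceAdd, Nat.reduceSub, k0, k1, k3, mul_one, pow_one, mul_zero,
      smul_zero, add_zero] at this
    rw [hs (by norm_num) this, smul_zero]
  have k7 : c 7 = 0 := by
    have := h.2 6
    simp only [Finset.sum_range_succ, Finset.sum_range_zero, h1, h3, h5, h7, zero_add, pow_zero,
      one_smul, zero_mul, Nat.reduceAdd, Nat.reduceSub, k0, k1, k3, k5, mul_one, pow_one,
      mul_zero, smul_zero, add_zero] at this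
    rw [hs (by norm_num) this, smul_zero]
  exact ⟨k0, k1, k2, k3, k4, k5, k7⟩

/-- the Euler form as a polynomial -/
theorem euler_poly (h : NewtonRec ℝ s c) (h1 : s 1 = 0) (h3 : s 3 = 0) (h5 : s 5 = 0)
    (h7 : s 7 = 0) (t : R) : ∑ i ∈ Finset.range 8, t ^ i * c (7 - i) =
      t * c 6 + t ^ 3 * c 4 + t ^ 5 * c 2 + t ^ 7 := by
  obtain ⟨k0, k1, k2, k3, k4, k5, k7⟩ := newton_even h h1 h3 h5 h7
  simp only [Finset.sum_range_succ, Finset.sum_range_zero, Nat.reduceSub, k0, k1, k3, k5, k7,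
    mul_zero, add_zero, zero_add, mul_one, pow_one]

end Newton

/-! ### from the pairs to the unit tangent bundle -/

section Form

variable {X : Type*} {D : Dif X} (Φ : X × ℝ → X) (hΦ : (D.prod (Dif.lin ℝ)).Map D Φ)

/-- closed, even, basic forms -/
def Gd (w : Form D) : Prop := w.sg = w ∧ w.d = 0 ∧ Basic Φ hΦ w

end Form

section Sys

variable {B U M : Type*} {dB : Dif B} {dU : Dif U} {dM : Dif M} {D c : ℝ}
  {S : Sys dB dU dM 1 D c}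

/-- the pull back to the space of pairs is injective in basic cohomology -/
theorem inj_pi (hP : S.PP) (hFd : Form.IsDeg 8 S.F) {ε : ℝ} (hε : ε ≠ 0) {l : Form dB}
    (hl : S.b1 = ε • S.b0 + l.d) {w : Form dU} (hwd : w.d = 0) {ρ : Form dB}
    (hρ : Basic S.φ S.hφ.map ρ) (h : Form.pull S.pi S.hpi w = ρ.d) :
    ∃ ρ' : Form dU, Basic S.φU S.hφU.map ρ' ∧ w = ρ'.d := by
  have h1 : S.P (S.b1 * Form.pull S.pi S.hpi w) = (ε * S.k) • w := by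
    rw [S.hPm, Sys.P_b1 hP hFd hl, smul_mul_assoc, one_mul]
  have h2 : S.b1 * ρ.d = (S.b1 * ρ).d := by
    rw [Form.d_mul, S.b1_d, zero_mul, zero_add, S.b1_sg]
  rw [h, h2, S.hPd] at h1
  have hk : ε * S.k ≠ 0 := mul_ne_zero hε S.hk
  refine ⟨(ε * S.k)⁻¹ • S.P (S.b1 * ρ), Basic.smul _ (hP.bas _ (Basic.mul S.b1_basic hρ)), ?_⟩
  rw [Form.d_smul, h1, smul_smul, inv_mul_cancel₀ hk, one_smul]

/-- comparison of two forms on the unit tangent bundle -/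
theorem eqv_pi (hP : S.PP) (hFd : Form.IsDeg 8 S.F) {ε : ℝ} (hε : ε ≠ 0) {l : Form dB}
    (hl : S.b1 = ε • S.b0 + l.d) {w w' : Form dU} (hwd : w.d = 0) (hwd' : w'.d = 0)
    (h : ∃ ρ : Form dB, Basic S.φ S.hφ.map ρ ∧
      Form.pull S.pi S.hpi w = Form.pull S.pi S.hpi w' + ρ.d) :
    ∃ ρ' : Form dU, Basic S.φU S.hφU.map ρ' ∧ w = w' + ρ'.d := by
  obtain ⟨ρ, h1, h2⟩ := h
  have h3 : Form.pull S.pi S.hpi (w - w') = ρ.d :=
    (map_sub (Form.pullA S.pi S.hpi) w w').trans (sub_eq_of_eq_add' h2)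
  obtain ⟨ρ', h4, h5⟩ := inj_pi hP hFd hε hl (w := w - w') (by rw [Form.d_sub, hwd, hwd', sub_zero])
    h1 h3
  exact ⟨ρ', h4, eq_add_of_sub_eq' h5⟩

/-- **the Chern forms on the unit tangent bundle** -/
theorem chern_Sys (hP : S.PP) (hFd : Form.IsDeg 8 S.F) {ε : ℝ} (hε : ε ≠ 0) {l : Form dB}
    (hl : S.b1 = ε • S.b0 + l.d) {s2 s4 c6 u : Form dU} {c₂ c₄ c₈ k a' μ : ℝ}
    (g2 : s2.d = 0) (g4 : s4.d = 0) (g6 : c6.d = 0) (gu : u.d = 0) (gue : u.sg = u)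
    (gub : Basic S.φU S.hφU.map u)
    (r2 : ∃ ρ : Form dB, Basic S.φ S.hφ.map ρ ∧
      Form.pull S.pi S.hpi s2 = c₂ • S.e ^ 2 + ρ.d)
    (r4 : ∃ ρ : Form dB, Basic S.φ S.hφ.map ρ ∧
      Form.pull S.pi S.hpi s4 = c₈ • (S.G1 + S.G2) + c₄ • S.e ^ 4 + ρ.d)
    (r6 : ∃ ρ : Form dB, Basic S.φ S.hφ.map ρ ∧
      Form.pull S.pi S.hpi c6 = -(k ^ 2) • S.b1 ^ 2 + ρ.d)
    {σ : Form dB} (hσ : Basic S.φ S.hφ.map σ)
    (hrel : S.b1 ^ 2 = a' • S.e ^ 6 + μ • (S.e ^ 2 * (S.G1 + S.G2)) + σ.d)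
    (hu : Eqv S.hφ.map (Form.pull S.pi S.hpi u) ((1 / 2 : ℝ) • (S.G1 + S.G2))) :
    (∃ ρ : Form dU, Basic S.φU S.hφU.map ρ ∧ s2 = c₂ • S.eU ^ 2 + ρ.d) ∧
    (∃ ρ : Form dU, Basic S.φU S.hφU.map ρ ∧ s4 = (2 * c₈) • u + c₄ • S.eU ^ 4 + ρ.d) ∧
    ∃ ρ : Form dU, Basic S.φU S.hφU.map ρ ∧
      c6 = -(k ^ 2) • (a' • S.eU ^ 6 + (2 * μ) • (S.eU ^ 2 * u)) + ρ.d := by
  have p2 : ∀ j, Form.pull S.pi S.hpi (S.eU ^ j) = S.e ^ j := fun j => by
    rw [pull_pow, S.pi_eU]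
  obtain ⟨ρu, hρu, hu'⟩ := hu
  have hG : S.G1 + S.G2 = (2 : ℝ) • Form.pull S.pi S.hpi u + (-(2 : ℝ) • ρu).d := by
    rw [hu', Form.d_smul]
    module
  have he2 : (S.eU ^ 2 * u).d = 0 := mul_closed (H584.pow_closed S.eU_d 2) gu
  refine ⟨eqv_pi hP hFd hε hl g2 (by rw [Form.d_smul, H584.pow_closed S.eU_d, smul_zero]) ?_,
    eqv_pi hP hFd hε hl g4 (by
      rw [Form.d_add, Form.d_smul, Form.d_smul, H584.pow_closed S.eU_d, gu, smul_zero, smul_zero,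
        add_zero]) ?_,
    eqv_pi hP hFd hε hl g6 (by
      rw [Form.d_smul, Form.d_add, Form.d_smul, Form.d_smul, H584.pow_closed S.eU_d, he2,
        smul_zero, smul_zero, add_zero, smul_zero]) ?_⟩
  · obtain ⟨ρ, h1, h2⟩ := r2
    exact ⟨ρ, h1, by rw [h2, pull_smul, p2]⟩
  · obtain ⟨ρ, h1, h2⟩ := r4
    refine ⟨ρ + c₈ • (-(2 : ℝ) • ρu), Basic.add h1 (Basic.smul _ (Basic.smul _ hρu)), ?_⟩
    rw [h2, hG, pull_add, pull_smul, pull_smul, p2, Form.d_add, Form.d_smul c₈]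
    module
  · obtain ⟨ρ, h1, h2⟩ := r6
    refine ⟨ρ + -(k ^ 2) • (σ + μ • (S.e ^ 2 * (-(2 : ℝ) • ρu))), Basic.add h1
      (Basic.smul _ (Basic.add hσ (Basic.smul _ (Basic.mul (Basic.pow S.e_basic 2)
        (Basic.smul _ hρu))))), ?_⟩
    have h3 : S.e ^ 2 * (-(2 : ℝ) • ρu).d = (S.e ^ 2 * (-(2 : ℝ) • ρu)).d := by
      rw [Form.d_mul, H584.pow_closed S.e_d, zero_mul, zero_add, pow_even S.e_sg]
    rw [h2, hrel, hG, mul_add, h3, pull_smul, pull_add, pull_smul, pull_smul, pull_mul, p2, p2,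
      Form.d_add ρ, Form.d_smul (-(k ^ 2)), Form.d_add σ, Form.d_smul μ, mul_smul_comm]
    module

end Sys

/-! ### the Euler form modulo exact forms -/

section Ring

variable {R : Type*} [CommRing R] [Algebra ℝ R] {t e c2 c4 c6 u : R} {p g q k a' μ : ℝ}

theorem euler_ring (ht : t = (1 / 2 : ℝ) • e) (h2 : c2 = -p • e ^ 2)
    (h4 : c4 = g • u + q • e ^ 4) (h6 : c6 = -(k ^ 2) • (a' • e ^ 6 + (2 * μ) • (e ^ 2 * u))) :
    t * c6 + t ^ 3 * c4 + t ^ 5 * c2 + t ^ 7 =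
      (1 - 4 * p + 16 * q - 64 * k ^ 2 * a') • t ^ 7 + (g - 8 * k ^ 2 * μ) • (t ^ 3 * u) := by
  have he : e = 2 * t := by
    rw [ht, Algebra.smul_def, ← mul_assoc, ← map_ofNat (algebraMap ℝ R), ← map_mul]
    norm_num
  rw [h2, h4, h6, he]
  simp only [Algebra.smul_def, map_mul, map_sub, map_add, map_neg, map_pow, map_ofNat, map_one]
  ring

end Ring

section Form

variable {X : Type*} {D : Dif X} {Φ : X × ℝ → X} {hΦ : (D.prod (Dif.lin ℝ)).Map D Φ}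

/-- **the Euler form**, modulo exact forms -/
theorem euler_form {e c2 c4 c6 u : Form D} {p g q k a' μ : ℝ}
    (ge : Gd Φ hΦ e) (g2 : Gd Φ hΦ c2) (g4 : Gd Φ hΦ c4) (g6 : Gd Φ hΦ c6) (gu : Gd Φ hΦ u)
    (h2 : ∃ ρ : Form D, Basic Φ hΦ ρ ∧ c2 = -p • e ^ 2 + ρ.d)
    (h4 : ∃ ρ : Form D, Basic Φ hΦ ρ ∧ c4 = g • u + q • e ^ 4 + ρ.d)
    (h6 : ∃ ρ : Form D, Basic Φ hΦ ρ ∧
      c6 = -(k ^ 2) • (a' • e ^ 6 + (2 * μ) • (e ^ 2 * u)) + ρ.d) :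
    ∃ ρ : Form D, Basic Φ hΦ ρ ∧ ((1 / 2 : ℝ) • e) * c6 + ((1 / 2 : ℝ) • e) ^ 3 * c4 +
      ((1 / 2 : ℝ) • e) ^ 5 * c2 + ((1 / 2 : ℝ) • e) ^ 7 =
      (1 - 4 * p + 16 * q - 64 * k ^ 2 * a') • ((1 / 2 : ℝ) • e) ^ 7 +
        (g - 8 * k ^ 2 * μ) • (((1 / 2 : ℝ) • e) ^ 3 * u) + ρ.d := by
  obtain ⟨ρ₂, r2, h2⟩ := h2
  obtain ⟨ρ₄, r4, h4⟩ := h4
  obtain ⟨ρ₆, r6, h6⟩ := h6
  let e' : Bas Φ hΦ := ⟨e, ge⟩
  let c2' : Bas Φ hΦ := ⟨c2, g2⟩
  let c4' : Bas Φ hΦ := ⟨c4, g4⟩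
  let c6' : Bas Φ hΦ := ⟨c6, g6⟩
  let u' : Bas Φ hΦ := ⟨u, gu⟩
  set Q := Ideal.Quotient.mkₐ ℝ (Exa Φ hΦ) with hQ
  have e2 : Q c2' = -p • Q e' ^ 2 := by
    have h : Q c2' = Q (-p • e' ^ 2) := eq_quot Φ hΦ r2 h2
    rw [h, map_smul, map_pow]
  have e4 : Q c4' = g • Q u' + q • Q e' ^ 4 := by
    have h : Q c4' = Q (g • u' + q • e' ^ 4) := eq_quot Φ hΦ r4 h4
    rw [h, map_add, map_smul, map_smul, map_pow]
  have e6 : Q c6' = -(k ^ 2) • (a' • Q e' ^ 6 + (2 * μ) • (Q e' ^ 2 * Q u')) := by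
    have h : Q c6' = Q (-(k ^ 2) • (a' • e' ^ 6 + (2 * μ) • (e' ^ 2 * u'))) :=
      eq_quot Φ hΦ r6 h6
    rw [h, map_smul, map_add, map_smul, map_smul, map_mul, map_pow, map_pow]
  have h7 := euler_ring (t := Q ((1 / 2 : ℝ) • e')) (map_smul Q _ _) e2 e4 e6
  have h8 : Q (((1 / 2 : ℝ) • e') * c6' + ((1 / 2 : ℝ) • e') ^ 3 * c4' +
      ((1 / 2 : ℝ) • e') ^ 5 * c2' + ((1 / 2 : ℝ) • e') ^ 7) =
      Q ((1 - 4 * p + 16 * q - 64 * k ^ 2 * a') • ((1 / 2 : ℝ) • e') ^ 7 +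
        (g - 8 * k ^ 2 * μ) • (((1 / 2 : ℝ) • e') ^ 3 * u')) := by
    simp only [map_add, map_mul, map_pow]
    rw [map_smul Q (1 - 4 * p + 16 * q - 64 * k ^ 2 * a'), map_smul Q (g - 8 * k ^ 2 * μ),
      map_mul, map_pow, map_pow]
    exact h7
  obtain ⟨ρ, h9, h10⟩ := quot_eq Φ hΦ h8
  exact ⟨ρ, h9, h10⟩

end Form

end Vale.Agent.P231.S3C
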