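import Vale.Agent.P231.S3F.End
import Vale.Agent.P231.S3C.Coh2
import Vale.Agent.P231.S3C.Euler

/-!
# P231, stage 3, S3-C: the Chern forms and the Euler form of `ξ`, in the language of systems
-/

set_option linter.unusedSectionVars false
set_option linter.unusedVariables false

open Set Module Filter Topology
open scoped ContDiff

namespace Vale.Agent.P231.S3C

open Fm W H584 ChW S3F

theorem four_ring {R : Type*} [CommRing R] [Algebra ℝ R] {e s2 s4 u : R} {c₂ c₄ g₁ g₂ : ℝ}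
    (e2 : s2 = c₂ • e ^ 2) (e4 : s4 = (2 * ((g₁ + g₂) / 2)) • u + c₄ • e ^ 4) :
    (1 / 8 : ℝ) • s2 ^ 2 - (1 / 4 : ℝ) • s4 =
      (-(g₁ + g₂) / 4) • u + (c₂ ^ 2 / 8 - c₄ / 4) • e ^ 4 := by
  rw [e2, e4, smul_pow, ← pow_mul]
  module

section

variable {B U M : Type*} {dB : Dif B} {dU : Dif U} {dM : Dif M} {D c : ℝ}
  {S : Sys dB dU dM 1 D c}

/-- basic forms of degree four -/
theorem two_Sys (hC : Coh S) {w : Form dU} (hw : Basic S.φU S.hφU.map w) (hwd : w.d = 0)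
    (hdeg : Form.IsDeg 4 w) :
    ∃ c₂ : ℝ, Eqv S.hφ.map (Form.pull S.pi S.hpi w) (c₂ • S.e ^ 2) :=
  four_abs S.hD S.hφU S.hφ S.hpi S.hpφ S.hαo S.hα hC.H0 hC.H2 hC.H4 hw hwd hdeg

/-- basic forms of degree eight -/
theorem four_Sys (hC : Coh S) (hFd : Form.IsDeg 8 S.F) {ε : ℝ} (hε : ε ≠ 0) {l : Form dB}
    (hl : S.b1 = ε • S.b0 + l.d) {w : Form dU} (hw : Basic S.φU S.hφU.map w)
    (hdeg : Form.IsDeg 8 w) {g₁ g₂ : ℝ}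
    (hR : ∃ η : Form dU, w = g₁ • S.Fx + g₂ • S.Fb + η.d) :
    ∃ c₄ : ℝ, Eqv S.hφ.map (Form.pull S.pi S.hpi w)
      (((g₁ + g₂) / 2) • (S.G1 + S.G2) + c₄ • S.e ^ 4) := by
  obtain ⟨η, hη⟩ := hR
  refine eight_abs S.hD S.hφU S.hφ S.hpi S.hpφ S.hαo S.hα S.hfoot S.hσ S.hσσ S.hσφ S.hσπ S.hg
    S.hg0 S.hg1 S.hF hFd (b1 := S.b1) rfl hC.H0 hC.H2 hC.H4 ?_ hw hdeg
    ⟨g₂ • Form.pull S.pi S.hpi S.B0 + Form.pull S.pi S.hpi η, ?_⟩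
  · intro z hz hzd
    obtain ⟨r, κ, h1⟩ := hC.H6 z hz hzd
    refine ⟨r * ε⁻¹, κ - (r * ε⁻¹) • l, ?_⟩
    have h2 : S.b0 = ε⁻¹ • S.b1 - ε⁻¹ • l.d := by
      rw [hl, smul_add, smul_smul, inv_mul_cancel₀ hε, one_smul]
      abel
    rw [h1, h2, Form.d_sub, Form.d_smul]
    module
  · have h1 := Fb_eq S
    rw [hη, h1, pull_add, pull_add, pull_smul, pull_smul, pull_add, S.Bx_eq, Form.d_add,
      Form.d_smul, Form.pull_d, Form.pull_d]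
    module

/-- **the Chern forms and the Euler form** -/
theorem chern7 (hP : S.PP) (hC : Coh S) (hFd : Form.IsDeg 8 S.F) {ε : ℝ} (hε : ε ≠ 0)
    {l : Form dB} (hl : S.b1 = ε • S.b0 + l.d) {k a' μ : ℝ} {σ : Form dB}
    (hσ : Basic S.φ S.hφ.map σ)
    (hrel : S.b1 ^ 2 = a' • S.e ^ 6 + μ • (S.e ^ 2 * (S.G1 + S.G2)) + σ.d)
    {s c : ℕ → Form dU} (hN : NewtonRec ℝ s c) (h1 : s 1 = 0) (h3 : s 3 = 0) (h5 : s 5 = 0)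
    (h7 : s 7 = 0) (s2 : Gd S.φU S.hφU.map (s 2)) (s4 : Gd S.φU S.hφU.map (s 4))
    (c6 : Gd S.φU S.hφU.map (c 6)) (d2 : Form.IsDeg 4 (s 2)) (d4 : Form.IsDeg 8 (s 4))
    {g₁ g₂ : ℝ} (hR : ∃ η : Form dU, s 4 = g₁ • S.Fx + g₂ • S.Fb + η.d)
    (h6 : Eqv S.hφ.map (Form.pull S.pi S.hpi (c 6)) (-(k ^ 2) • S.b1 ^ 2)) :
    ∃ p q : ℝ, Eqv S.hφU.map (c 2) (-p • S.eU ^ 2) ∧ ∀ u, UC S u →
      Eqv S.hφU.map (c 4) ((-(g₁ + g₂) / 4) • u + q • S.eU ^ 4) ∧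
      Eqv S.hφU.map (c 6) (-(k ^ 2) • (a' • S.eU ^ 6 + (2 * μ) • (S.eU ^ 2 * u))) ∧
      Eqv S.hφU.map (∑ i ∈ Finset.range 8, ((1 / 2 : ℝ) • S.eU) ^ i * c (7 - i))
        ((1 - 4 * p + 16 * q - 64 * k ^ 2 * a') • ((1 / 2 : ℝ) • S.eU) ^ 7 +
          (-(g₁ + g₂) / 4 - 8 * k ^ 2 * μ) • (((1 / 2 : ℝ) • S.eU) ^ 3 * u)) := by
  obtain ⟨c₂, hc2⟩ := two_Sys hC s2.2.2 s2.2.1 d2
  obtain ⟨c₄, hc4⟩ := four_Sys hC hFd hε hl s4.2.2 d4 hR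
  obtain ⟨k0, k1, k2, k3, k4, k5, k7⟩ := newton_even hN h1 h3 h5 h7
  have t2 : ∃ ρ' : Form dU, Basic S.φU S.hφU.map ρ' ∧ s 2 = c₂ • S.eU ^ 2 + ρ'.d :=
    eqv_pi hP hFd hε hl s2.2.1
      (by rw [Form.d_smul, H584.pow_closed S.eU_d, smul_zero]) (by
      obtain ⟨ρ, r1, r2⟩ := hc2
      exact ⟨ρ, r1, by rw [r2, pull_smul, pull_pow, S.pi_eU]⟩)
  have u2 : Eqv S.hφU.map (c 2) (-(c₂ / 2) • S.eU ^ 2) := by
    obtain ⟨ρ, r1, r2⟩ := t2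
    refine ⟨-(1 / 2 : ℝ) • ρ, Basic.smul _ r1, ?_⟩
    rw [k2, r2, Form.d_smul]
    module
  refine ⟨c₂ / 2, c₂ ^ 2 / 8 - c₄ / 4, u2, fun u hu => ?_⟩
  obtain ⟨-, e4, e6⟩ := chern_Sys hP hFd hε hl s2.2.1 s4.2.1 c6.2.1 hu.d hu.sg hu.bas hc2 hc4 h6
    hσ hrel hu.rel
  have g2 : Gd S.φU S.hφU.map (c 2) := by
    rw [k2]
    exact ⟨by rw [Form.sg_smul, s2.1], by rw [Form.d_smul, s2.2.1, smul_zero],
      Basic.smul _ s2.2.2⟩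
  have g4 : Gd S.φU S.hφU.map (c 4) := by
    rw [k4]
    exact ⟨by rw [Form.sg_sub, Form.sg_smul, Form.sg_smul, pow_even s2.1, s4.1],
      by rw [Form.d_sub, Form.d_smul, Form.d_smul, H584.pow_closed s2.2.1, s4.2.1, smul_zero,
        smul_zero, sub_zero],
      Basic.sub (Basic.smul _ (Basic.pow s2.2.2 2)) (Basic.smul _ s4.2.2)⟩
  have ge : Gd S.φU S.hφU.map S.eU := ⟨S.eU_sg, S.eU_d, S.eU_basic⟩
  have u4 : Eqv S.hφU.map (c 4)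
      ((-(g₁ + g₂) / 4) • u + (c₂ ^ 2 / 8 - c₄ / 4) • S.eU ^ 4) := by
    obtain ⟨ρ₂, r2, r2'⟩ := t2
    obtain ⟨ρ₄, r4, r4'⟩ := e4
    let e' : Bas S.φU S.hφU.map := ⟨S.eU, ge⟩
    let s2' : Bas S.φU S.hφU.map := ⟨s 2, s2⟩
    let s4' : Bas S.φU S.hφU.map := ⟨s 4, s4⟩
    let u' : Bas S.φU S.hφU.map := ⟨u, hu.sg, hu.d, hu.bas⟩
    set Q := Ideal.Quotient.mkₐ ℝ (Exa S.φU S.hφU.map) with hQ
    have e2 : Q s2' = c₂ • Q e' ^ 2 := by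
      have h : Q s2' = Q (c₂ • e' ^ 2) := eq_quot S.φU S.hφU.map r2 r2'
      rw [h, map_smul, map_pow]
    have e4 : Q s4' = (2 * ((g₁ + g₂) / 2)) • Q u' + c₄ • Q e' ^ 4 := by
      have h : Q s4' = Q ((2 * ((g₁ + g₂) / 2)) • u' + c₄ • e' ^ 4) :=
        eq_quot S.φU S.hφU.map r4 r4'
      rw [h, map_add, map_smul, map_smul, map_pow]
    have h8 : Q ((1 / 8 : ℝ) • s2' ^ 2 - (1 / 4 : ℝ) • s4') =
        Q ((-(g₁ + g₂) / 4) • u' + (c₂ ^ 2 / 8 - c₄ / 4) • e' ^ 4) := by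
      rw [map_sub, map_add, map_smul Q (1 / 8 : ℝ), map_smul Q (1 / 4 : ℝ),
        map_smul Q (-(g₁ + g₂) / 4), map_smul Q (c₂ ^ 2 / 8 - c₄ / 4), map_pow, map_pow]
      exact four_ring e2 e4
    obtain ⟨ρ, h9, h10⟩ := quot_eq S.φU S.hφU.map h8
    refine ⟨ρ, h9, ?_⟩
    rw [k4]
    exact h10
  have u6 : Eqv S.hφU.map (c 6)
      (-(k ^ 2) • (a' • S.eU ^ 6 + (2 * μ) • (S.eU ^ 2 * u))) := e6
  refine ⟨u4, u6, ?_⟩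
  obtain ⟨ρ, r1, r2⟩ := euler_form ge g2 g4 c6 ⟨hu.sg, hu.d, hu.bas⟩ u2 u4 u6
  exact ⟨ρ, r1, by rw [euler_poly hN h1 h3 h5 h7]; exact r2⟩

end

end Vale.Agent.P231.S3C
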