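import Vale.Agent.P231.S3C.Xi
import Vale.Agent.P231.S3C.Coh2
import Vale.Agent.P231.L3.Inst7

/-!
# P231, stage 3, S3-C (F1): the Pontryagin forms of `ξ`, multiplicity seven
-/

set_option maxSynthPendingDepth 3
set_option linter.unusedSectionVars false
set_option linter.unusedVariables false

open Bundle Manifold Set Filter Module Matrix
open scoped ContDiff Manifold Topology

namespace Vale.Agent.P231.S3C

noncomputable section

open Vale.Agent.P234 Vale.Agent.P231 Vale.Agent.P231.Fm Vale.Agent.P231.W Vale.Agent.P231.WR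
  Vale.Agent.P231.H775 Vale.Agent.P231.S2N Vale.Agent.P231.ChW Vale.Agent.P231.X3
  Vale.Agent.P231.S2T Vale.Agent.P231.H766

variable {E : Type*} [NormedAddCommGroup E] [NormedSpace ℝ E]
  {M : Type*} [MetricSpace M] [ChartedSpace E M]
  [RiemannianBundle (fun x : M => TangentSpace 𝓘(ℝ, E) x)]
  {e : ∀ x : M, TangentSpace 𝓘(ℝ, E) x → M}
  [FiniteDimensional ℝ E] [IsManifold 𝓘(ℝ, E) ∞ M]
  [IsContMDiffRiemannianBundle 𝓘(ℝ, E) ∞ E (fun x : M => TangentSpace 𝓘(ℝ, E) x)]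
  [CompactSpace M] [ConnectedSpace M] [IsRiemannianManifold 𝓘(ℝ, E) M]

variable {D : ℝ} {ι : Type} [Fintype ι] [DecidableEq ι]

section Forms

variable {F : Facts e} {hD : 0 < D} {hB : InjGE e D} {hdiam : ∀ p q : M, dist p q ≤ D}
  {l : ℕ} {X δ : ι → UT E M → E} {ε : ℝ} (h : S2N.Fam F hD hB hdiam l X δ ε)

theorem xcl_basic (k : ℕ) : Basic (phi F) (isFlow_phi F hD hB hdiam).map (xcl h k) :=
  sF_basic (basicM_cM _ fun v t => by rw [pX_phi F hD hB hdiam]) k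

theorem xcl_idem : Idem (cR (pX F D X δ ε) (pX_smooth h)) :=
  ⟨ev_cR _, cR_mul _ _ _ (pX_idem h)⟩

theorem xcl_d (k : ℕ) : (xcl h k).d = 0 := sF_closed (xcl_idem h) k

theorem xcl_sg (k : ℕ) : (xcl h k).sg = xcl h k := sF_even (xcl_idem h) k

theorem isDeg_xcl (k : ℕ) : Form.IsDeg (2 * k) (xcl h k) := isDeg_sF_cR _ k

theorem xcl_odd {k : ℕ} (hk : Odd k) : xcl h k = 0 := by
  rw [xcl, cR_eq]
  exact sF_real_odd _ hk

/-- the Chern forms of `ξ ⊗ ℂ` are given by Newton's recursion -/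
theorem cF_eq (k : ℕ) : XC.cF (pj h) k = newtE ℝ (xcl h) k := rfl

end Forms

section seven

variable {F : Facts e} {hD : 0 < D} {hB : InjGE e D} {hdiam : ∀ p q : M, dist p q ≤ D}
  {X δ : ι → UT E M → E} {ε : ℝ} (h : S2N.Fam F hD hB hdiam (2 * 3 + 1) X δ ε)
  (hl : ∀ x y : M, dist x y = D → finrank ℝ (H775.Pl e D x y) = 2 * 3 + 2)
  (hN : finrank ℝ E = 15 + 1)
  {p : M}
  {Pi : TangentSpace 𝓘(ℝ, E) p → TangentSpace 𝓘(ℝ, E) p →L[ℝ] TangentSpace 𝓘(ℝ, E) p}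
  {o : TangentSpace 𝓘(ℝ, E) p → Fm.Lam (TangentSpace 𝓘(ℝ, E) p)}
  {ρ : TangentSpace 𝓘(ℝ, E) p → ℝ} {r₀ : ℝ}
  (hJ : FE.LineP e D p 3 Pi o) (hρ : WE.Rho e D p ρ r₀) {a : ℝ} (ha : a ≠ 0)
  {Lm : Pr e D × ℝ → Pr e D} {Y : Pr e D → E} {ε₀ : ℝ} (hL : PushL F hD hB hdiam Lm Y ε₀)
  (g : Pr e D × ℝ → M) (hg : ((dPr e D).prod (Dif.lin ℝ)).Map (dM E M) g)
  (hg0 : ∀ b, g (b, 0) = foot b.v) (hg1 : ∀ b t, g (Lm (b, t), 1) = g (b, 1))

/-- low degree cohomology -/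
structure Low {X : Type*} (DX : Dif X) (b : Form DX) : Prop where
  z0 : ∀ w : Form DX, Form.IsDeg 0 w → w.d = 0 → ∃ c : ℝ, w = c • 1
  z2 : ∀ w : Form DX, Form.IsDeg 2 w → w.d = 0 → ∃ η : Form DX, w = η.d
  z4 : ∀ w : Form DX, Form.IsDeg 4 w → w.d = 0 → ∃ η : Form DX, w = η.d
  z6 : ∀ w : Form DX, Form.IsDeg 6 w → w.d = 0 → ∃ (c : ℝ) (η : Form DX), w = c • b + η.d

include hN ha in
/-- the low degree cohomology of the space of pairs -/
theorem low_SL [MeasurableSpace M] [BorelSpace M] {b1 : Form (dPr e D)} {ℓ : Form (dPr e D)}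
    (hℓ : b1 = (-1 : ℝ) • L3.b0P F hD hB hdiam (FE.FF F hD hB hdiam hl hJ hρ a) + ℓ.d) :
    Low (dPr e D) b1 := by
  have hE : 15 + 1 = (2 * 3 + 2) * (1 + 1) := by norm_num
  have h2 : 2 ≤ finrank ℝ E := by omega
  have hn0 : finrank ℝ E - 1 = 15 := by omega
  have hG := CoC.gen_UT (CoZ.gen_FF F hD hB hdiam hl hJ hρ ha h2)
  rw [hn0] at hG
  have hA := L3.inst_ang F hD hB hdiam hl hN hE hJ hρ ha
  set Om := FE.FF F hD hB hdiam hl hJ hρ a with hOm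
  set ψ : Form (dPr e D) := (2 * FE.kap 3 a)⁻¹ • L3.b0P F hD hB hdiam Om with hψ
  have hψb : ψ = (-(2 * FE.kap 3 a)⁻¹) • b1 + ((2 * FE.kap 3 a)⁻¹ • ℓ).d := by
    rw [hψ, hℓ, Form.d_smul]
    module
  exact ⟨CoC.hs_zero hG _ _ (by norm_num) hA (by norm_num),
    CoC.hs_exact hG _ _ (by norm_num) hA (by norm_num) (by norm_num) (by norm_num),
    CoC.hs_exact hG _ _ (by norm_num) hA (by norm_num) (by norm_num) (by norm_num),
    CoC.hs_mid hG _ _ (by norm_num) hA (by norm_num) (by norm_num) hψb⟩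

/-- **`p_1(ξ)`** -/
theorem x_two {b1 : Form (dPr e D)} (hlow : Low (dPr e D) b1) :
    ∃ (c : ℝ) (ρ : Form (dPr e D)), Basic Lm hL.flow.map ρ ∧
      Form.pull Pr.v map_v (xcl h 2) =
        c • ((2 * D)⁻¹ • Form.pull Pr.v map_v (CV.alpha E M).d) ^ 2 + ρ.d :=
  four_abs hD (isFlow_phi F hD hB hdiam) hL.flow map_v hL.v
    (CV.isDeg_alpha.sg_of_odd (by norm_num)) (CV.pull_phi_alpha F) hlow.z0 hlow.z2 hlow.z4
    (xcl_basic h 2) (xcl_d h 2) (isDeg_xcl h 2)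

include hg0 hg1 in
/-- **`p_2(ξ)`** -/
theorem x_four {b1 : Form (dPr e D)} (hb1 : b1 = J Lm hL.flow.map (2 * D)
      (Form.K (Form.pull g hg (FE.FF F hD hB hdiam hl hJ hρ a)) -
      Form.pull (Th F hD hB hdiam) (map_Th F hD hB hdiam)
        (Form.K (Form.pull g hg (FE.FF F hD hB hdiam hl hJ hρ a)))))
    (hlow : Low (dPr e D) b1) {c : ℝ} {K : ℕ} (P : PF E M K) (G : Geo e D (2 * 3 + 1))
    (hc : ∃ η : Form (dPr e D), Form.pull Pr.v map_v (ucl G P 4) =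
      c • Form.pull (fun b : Pr e D => foot b.v) (fun hu => W.map_foot (map_v hu))
        (FE.FF F hD hB hdiam hl hJ hρ a) + η.d) :
    ∃ (c' : ℝ) (ρ' : Form (dPr e D)), Basic Lm hL.flow.map ρ' ∧
      Form.pull Pr.v map_v (xcl h 4) =
        (c / 2) • (Form.pull (fun b => g (b, 1)) (H584.map_at hg 1)
            (FE.FF F hD hB hdiam hl hJ hρ a) +
          Form.pull (Th F hD hB hdiam) (map_Th F hD hB hdiam)
            (Form.pull (fun b => g (b, 1)) (H584.map_at hg 1)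
              (FE.FF F hD hB hdiam hl hJ hρ a))) +
        c' • ((2 * D)⁻¹ • Form.pull Pr.v map_v (CV.alpha E M).d) ^ 4 + ρ'.d := by
  obtain ⟨η₁, h1⟩ := exact_ucl (l := 2 * 3 + 1) hl h P G (k := 4) (by norm_num)
  obtain ⟨η, hη⟩ := hc
  refine eight_abs hD (isFlow_phi F hD hB hdiam) hL.flow map_v hL.v
    (CV.isDeg_alpha.sg_of_odd (by norm_num)) (CV.pull_phi_alpha F) (fun hu => W.map_foot hu)
    (map_Th F hD hB hdiam) (WR.Th_Th F hD hB hdiam) (fun b t => L3.Th_Lam hL b t) (fun b => rfl) hg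
    hg0 hg1 (FE.FF_d F hD hB hdiam hl hJ hρ a) (S2II.isDeg_FF F hD hB hdiam hl hJ hρ a) hb1
    hlow.z0 hlow.z2 hlow.z4 hlow.z6 (xcl_basic h 4) (isDeg_xcl h 4)
    ⟨η - Form.pull Pr.v map_v η₁, ?_⟩
  have h2 : Form.pull Pr.v map_v (ucl G P 4) = Form.pull (Pr.v : Pr e D → UT E M) map_v
      (xcl h 4) + (Form.pull (Pr.v : Pr e D → UT E M) map_v η₁).d := by
    have h3 := map_add (Form.pullA (Pr.v : Pr e D → UT E M) map_v) (xcl h 4) η₁.d
    have h4 := Form.pull_d (Pr.v : Pr e D → UT E M) map_v η₁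
    rw [h1]
    exact h3.trans (congrArg (fun z => Form.pull (Pr.v : Pr e D → UT E M) map_v (xcl h 4) + z) h4)
  rw [Form.d_sub]
  rw [h2] at hη
  rw [eq_sub_of_add_eq hη]
  abel

end seven

end

end Vale.Agent.P231.S3C
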