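import Vale.Agent.P231.S3F.Fin7
import Vale.Agent.P231.S3C.Xi2
import Vale.Agent.P231.S3C.Chern
import Vale.Agent.P231.XC.PsiB

/-!
# P231, stage 3, S3-C: the Chern forms of `ξ` and the Euler form of `E'` for the concrete system
-/

set_option maxSynthPendingDepth 3
set_option linter.unusedSectionVars false
set_option linter.unusedVariables false

open Bundle Manifold Set Filter Module MeasureTheory
open scoped ContDiff Manifold Topology ENNReal Real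

namespace Vale.Agent.P231.S3C

noncomputable section

open Vale.Agent.P234 Vale.Agent.P231 Vale.Agent.P231.Fm Vale.Agent.P231.W Vale.Agent.P231.WR
  Vale.Agent.P231.H766 Vale.Agent.P231.WG Vale.Agent.P231.S2II Vale.Agent.P231.WQ
  Vale.Agent.P231.H584 Vale.Agent.P231.L3 Vale.Agent.P231.S3F Vale.Agent.P231.X3
  Vale.Agent.P231.ChW

variable {E : Type*} [NormedAddCommGroup E] [NormedSpace ℝ E]
  {M : Type*} [MetricSpace M] [ChartedSpace E M]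
  [RiemannianBundle (fun x : M => TangentSpace 𝓘(ℝ, E) x)]
  {e : ∀ x : M, TangentSpace 𝓘(ℝ, E) x → M}
  [FiniteDimensional ℝ E] [IsManifold 𝓘(ℝ, E) ∞ M]
  [IsContMDiffRiemannianBundle 𝓘(ℝ, E) ∞ E (fun x : M => TangentSpace 𝓘(ℝ, E) x)]
  [CompactSpace M] [ConnectedSpace M] [IsRiemannianManifold 𝓘(ℝ, E) M]

theorem half_aux {R : Type*} [Ring R] [Algebra ℝ R] (x u : R) (A B : ℝ) :
    A • ((1 / 2 : ℝ) • x) ^ 7 + B • (((1 / 2 : ℝ) • x) ^ 3 * u) =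
      (A / 128) • x ^ 7 + (B / 8) • (x ^ 3 * u) := by
  rw [smul_pow, smul_pow, smul_mul_assoc, smul_smul, smul_smul]
  congr 2
  · ring
  · ring

section one

variable (F : Facts e) {D : ℝ} (hD : 0 < D) (hB : InjGE e D) (hdiam : ∀ p q : M, dist p q ≤ D)
  [MeasurableSpace M] [BorelSpace M]
  (hl : ∀ x y : M, dist x y = D → finrank ℝ (H775.Pl e D x y) = 2 * 3 + 2)
  (hN : finrank ℝ E = 15 + 1) (hE : 15 + 1 = (2 * 3 + 2) * (1 + 1))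
  {p : M}
  {Pi : TangentSpace 𝓘(ℝ, E) p → TangentSpace 𝓘(ℝ, E) p →L[ℝ] TangentSpace 𝓘(ℝ, E) p}
  {o : TangentSpace 𝓘(ℝ, E) p → Fm.Lam (TangentSpace 𝓘(ℝ, E) p)}
  {ρ : TangentSpace 𝓘(ℝ, E) p → ℝ} {r₀ : ℝ}
  (hJ : FE.LineP e D p 3 Pi o) (hρ : WE.Rho e D p ρ r₀)
  {Lm : Pr e D × ℝ → Pr e D} {Y : Pr e D → E} {ε₀ : ℝ} (hL : PushL F hD hB hdiam Lm Y ε₀)
  (g : Pr e D × ℝ → M) (hg : ((dPr e D).prod (Dif.lin ℝ)).Map (dM E M) g)
  (hg0 : ∀ b, g (b, 0) = foot b.v) (hg1 : ∀ b t, g (Lm (b, t), 1) = g (b, 1))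
  {R : ℝ} (X : Fr e p R) (v0 : UT E M) {r : Eu E → ℝ} {K : Set (Eu E)} (hr : Q.Cut r K)
  (hDR : D < R) (b : OrthonormalBasis (Fin (15 + 1)) ℝ (Eu E))
  {ι : Type} [Fintype ι] [DecidableEq ι] {Z δ : ι → UT E M → E} {ε : ℝ}
  (h : S2N.Fam F hD hB hdiam (2 * 3 + 1) Z δ ε)

/-- **the Chern forms of `ξ` and the Euler form of `E'`** -/
theorem c_eq7
    (hP : (inst F hD hB hdiam hl hN hE hJ hρ one_ne_zero hL g hg hg0 hg1 X v0 hr hDR b).PP)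
    {ℓ : Form (dPr e D)} (hℓ : b1P F hD hB hdiam hL hg
      (FE.FF F hD hB hdiam hl hJ hρ 1) = (-1 : ℝ) • b0P F hD hB hdiam
      (FE.FF F hD hB hdiam hl hJ hρ 1) + ℓ.d)
    {a' μ : ℝ} {σ : Form (dPr e D)} (hσ : Basic Lm hL.flow.map σ)
    (hrel : b1P F hD hB hdiam hL hg (FE.FF F hD hB hdiam hl hJ hρ 1) ^ 2 = a' • eP e D ^ 6 +
        μ • (eP e D ^ 2 * GsP F hD hB hdiam hg (FE.FF F hD hB hdiam hl hJ hρ 1)) + σ.d)
    (ha' : a' ≠ 0) {K' : ℕ} (P : PF E M K') (G : Geo e D (2 * 3 + 1)) {γ : ℝ}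
    (hR : ∃ η : Form (dUT E M), ucl G P 4 = (-(4 * γ) / FE.kap 3 1) • Form.pull foot map_foot
        (FE.FF F hD hB hdiam hl hJ hρ 1) + (-(4 * γ) / FE.kap 3 1) • Form.pull
          (fun v => foot (phi F (v, D))) (Dif.Map.comp (f := fun v => phi F (v, D)) (g := foot)
            map_foot (map_at (isFlow_phi F hD hB hdiam).map D))
        (FE.FF F hD hB hdiam hl hJ hρ 1) + η.d)
    (h6 : ∃ ρ₆ : Form (dPr e D), Basic Lm hL.flow.map ρ₆ ∧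
      Form.pull Pr.v map_v (XC.cF (pj h) 6) = -((FE.kap 3 1)⁻¹ ^ 2) •
        b1P F hD hB hdiam hL hg (FE.FF F hD hB hdiam hl hJ hρ 1) ^ 2 + ρ₆.d) :
    ∃ s q : ℝ, Eqv (isFlow_phi F hD hB hdiam).map (XC.cF (pj h) 2)
        (-s • ((2 * D)⁻¹ • (CV.alpha E M).d) ^ 2) ∧
      ∀ u, UC (inst F hD hB hdiam hl hN hE hJ hρ one_ne_zero hL g hg hg0 hg1 X v0 hr hDR b) u →
      Eqv (isFlow_phi F hD hB hdiam).map (XC.cF (pj h) 4) ((2 * γ / FE.kap 3 1) • u +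
        q • ((2 * D)⁻¹ • (CV.alpha E M).d) ^ 4) ∧
      Eqv (isFlow_phi F hD hB hdiam).map (XC.cF (pj h) 6) (-((FE.kap 3 1)⁻¹ ^ 2) •
        (a' • ((2 * D)⁻¹ • (CV.alpha E M).d) ^ 6 +
          (2 * μ) • (((2 * D)⁻¹ • (CV.alpha E M).d) ^ 2 * u))) ∧
      Eqv (isFlow_phi F hD hB hdiam).map (XC.eE (pj h) ((2 * (2 * D))⁻¹ • CV.alpha E M))
        (((1 - 4 * s + 16 * q - 64 * (a' / FE.kap 3 1 ^ 2)) / 128) •
            ((2 * D)⁻¹ • (CV.alpha E M).d) ^ 7 +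
          ((2 * γ - 4 * (2 * μ / FE.kap 3 1)) / FE.kap 3 1 / 8) •
            (((2 * D)⁻¹ • (CV.alpha E M).d) ^ 3 * u)) := by
  set S := inst F hD hB hdiam hl hN hE hJ hρ one_ne_zero hL g hg hg0 hg1 X v0 hr hDR b with hS
  have hC : Coh S := coh7 F hD hB hdiam hl hN hE hJ hρ one_ne_zero hL g hg hg0 hg1 X v0 hr hDR b
    hP hℓ hσ hrel ha'
  have hFd : Form.IsDeg 8 S.F := S2II.isDeg_FF F hD hB hdiam hl hJ hρ 1
  have hk : FE.kap 3 1 ≠ 0 := (FE.kap_pos 3 one_ne_zero).ne'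
  have hR' : ∃ η : Form (dUT E M), xcl h 4 = (-(4 * γ) / FE.kap 3 1) • S.Fx +
      (-(4 * γ) / FE.kap 3 1) • S.Fb + η.d := by
    obtain ⟨η₁, h1⟩ := exact_ucl (l := 2 * 3 + 1) hl h P G (k := 4) (by norm_num)
    obtain ⟨η, hη⟩ := hR
    refine ⟨η - η₁, ?_⟩
    have h2 : xcl h 4 = ucl G P 4 - η₁.d := by rw [h1]; abel
    rw [h2, hη, Form.d_sub]
    change _ = (-(4 * γ) / FE.kap 3 1) • Form.pull foot map_foot
        (FE.FF F hD hB hdiam hl hJ hρ 1) + (-(4 * γ) / FE.kap 3 1) • Form.pull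
          (fun v => foot (phi F (v, D))) (Dif.Map.comp (f := fun v => phi F (v, D)) (g := foot)
            map_foot (map_at (isFlow_phi F hD hB hdiam).map D))
        (FE.FF F hD hB hdiam hl hJ hρ 1) + _
    abel
  have hgd : ∀ k, Gd S.φU S.hφU.map (xcl h k) := fun k =>
    ⟨xcl_sg h k, xcl_d h k, xcl_basic h k⟩
  have hmp : ((dUT E M).prod (Dif.lin ℝ)).Map (dUT E M) (phi F) := map_phi F
  have hN' : NewtonRec ℝ (xcl h) (XC.cF (pj h)) := newtE_spec _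
  have hc6 : Gd S.φU S.hφU.map (XC.cF (pj h) 6) :=
    ⟨XC.cF_even (pj h) (pX_phi F hD hB hdiam Z δ ε) hmp 6,
      XC.cF_closed (pj h) (pX_phi F hD hB hdiam Z δ ε) hmp 6,
      XC.cF_basic (pj h) (pX_phi F hD hB hdiam Z δ ε) hmp 6⟩
  obtain ⟨s, q, q1, q2⟩ := chern7 hP hC hFd (ε := -1) (by norm_num) (l := ℓ) hℓ
    (k := (FE.kap 3 1)⁻¹) hσ hrel hN' (xcl_odd h (by decide)) (xcl_odd h (by decide))
    (xcl_odd h (by decide)) (xcl_odd h (by decide)) (hgd 2) (hgd 4) hc6 (isDeg_xcl h 2)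
    (isDeg_xcl h 4) hR' h6
  refine ⟨s, q, q1, fun u hu => ?_⟩
  obtain ⟨r1, r2, r3⟩ := q2 u hu
  have e1 : -(-(4 * γ) / FE.kap 3 1 + -(4 * γ) / FE.kap 3 1) / 4 = 2 * γ / FE.kap 3 1 := by
    ring
  rw [e1] at r1 r3
  refine ⟨r1, r2, ?_⟩
  set eU : Form (dUT E M) := (2 * D)⁻¹ • (CV.alpha E M).d with heU
  have e2 : ((2 * (2 * D))⁻¹ • CV.alpha E M).d = (1 / 2 : ℝ) • eU := by
    rw [Form.d_smul, heU, smul_smul]
    congr 1
    rw [mul_inv]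
    ring
  have e3 : XC.eE (pj h) ((2 * (2 * D))⁻¹ • CV.alpha E M) =
      ∑ i ∈ Finset.range 8, ((1 / 2 : ℝ) • S.eU) ^ i * XC.cF (pj h) (7 - i) := by
    rw [XC.eE, e2]
    rfl
  have e4 : (1 - 4 * s + 16 * q - 64 * (FE.kap 3 1)⁻¹ ^ 2 * a') • ((1 / 2 : ℝ) • S.eU) ^ 7 +
      (2 * γ / FE.kap 3 1 - 8 * (FE.kap 3 1)⁻¹ ^ 2 * μ) • (((1 / 2 : ℝ) • S.eU) ^ 3 * u) =
      ((1 - 4 * s + 16 * q - 64 * (a' / FE.kap 3 1 ^ 2)) / 128) • eU ^ 7 +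
        ((2 * γ - 4 * (2 * μ / FE.kap 3 1)) / FE.kap 3 1 / 8) • (eU ^ 3 * u) := by
    refine (half_aux S.eU u _ _).trans ?_
    have e5 : 64 * (FE.kap 3 1)⁻¹ ^ 2 * a' = 64 * (a' / FE.kap 3 1 ^ 2) := by
      rw [inv_pow]
      ring
    have e6 : 2 * γ / FE.kap 3 1 - 8 * (FE.kap 3 1)⁻¹ ^ 2 * μ =
        (2 * γ - 4 * (2 * μ / FE.kap 3 1)) / FE.kap 3 1 := by
      field_simp
      ring
    rw [e5, e6]
    rfl
  rw [e3]
  rw [e4] at r3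
  exact r3

end one

end

end Vale.Agent.P231.S3C
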