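import Vale.Agent.P231.S3C.A7
import Vale.Agent.P231.S3C.CEq
import Vale.Agent.P231.S3I.Boxes7

/-!
# P231, stage 3, S3-C: the Euler form of `E'` for the concrete system, with rational leading
coefficient, and the integrality statements
-/

set_option maxSynthPendingDepth 3
set_option linter.unusedSectionVars false
set_option linter.unusedVariables false

open Bundle Manifold Set Filter Module MeasureTheory
open scoped ContDiff Manifold Topology ENNReal Real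

namespace Vale.Agent.P231.S3C

noncomputable section

open Vale.Agent.P234 Vale.Agent.P231 Vale.Agent.P231.Fm Vale.Agent.P231.W Vale.Agent.P231.WR
  Vale.Agent.P231.H766 Vale.Agent.P231.WG Vale.Agent.P231.S2II Vale.Agent.P231.WQ
  Vale.Agent.P231.H584 Vale.Agent.P231.L3 Vale.Agent.P231.S3F Vale.Agent.P231.X3
  Vale.Agent.P231.ChW

variable {E : Type*} [NormedAddCommGroup E] [NormedSpace ℝ E]
  {M : Type*} [MetricSpace M] [ChartedSpace E M]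
  [RiemannianBundle (fun x : M => TangentSpace 𝓘(ℝ, E) x)]
  {e : ∀ x : M, TangentSpace 𝓘(ℝ, E) x → M}
  [FiniteDimensional ℝ E] [IsManifold 𝓘(ℝ, E) ∞ M]
  [IsContMDiffRiemannianBundle 𝓘(ℝ, E) ∞ E (fun x : M => TangentSpace 𝓘(ℝ, E) x)]
  [CompactSpace M] [ConnectedSpace M] [IsRiemannianManifold 𝓘(ℝ, E) M]

section one

variable (F : Facts e) {D : ℝ} (hD : 0 < D) (hB : InjGE e D) (hdiam : ∀ p q : M, dist p q ≤ D)
  [MeasurableSpace M] [BorelSpace M]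
  (hl : ∀ x y : M, dist x y = D → finrank ℝ (H775.Pl e D x y) = 2 * 3 + 2)
  (hN : finrank ℝ E = 15 + 1) (hE : 15 + 1 = (2 * 3 + 2) * (1 + 1))
  {p : M}
  {Pi : TangentSpace 𝓘(ℝ, E) p → TangentSpace 𝓘(ℝ, E) p →L[ℝ] TangentSpace 𝓘(ℝ, E) p}
  {o : TangentSpace 𝓘(ℝ, E) p → Fm.Lam (TangentSpace 𝓘(ℝ, E) p)}
  {ρ : TangentSpace 𝓘(ℝ, E) p → ℝ} {r₀ : ℝ}
  (hJ : FE.LineP e D p 3 Pi o) (hρ : WE.Rho e D p ρ r₀)
  {Lm : Pr e D × ℝ → Pr e D} {Y : Pr e D → E} {ε₀ : ℝ} (hL : PushL F hD hB hdiam Lm Y ε₀)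
  (g : Pr e D × ℝ → M) (hg : ((dPr e D).prod (Dif.lin ℝ)).Map (dM E M) g)
  (hg0 : ∀ b, g (b, 0) = foot b.v) (hg1 : ∀ b t, g (Lm (b, t), 1) = g (b, 1))
  {R : ℝ} (X : Fr e p R) (v0 : UT E M) {r : Eu E → ℝ} {K : Set (Eu E)} (hr : Q.Cut r K)
  (hDR : D < R) (b : OrthonormalBasis (Fin (15 + 1)) ℝ (Eu E))
  {ι : Type} [Fintype ι] [DecidableEq ι] {Z δ : ι → UT E M → E} {ε : ℝ}
  (h : S2N.Fam F hD hB hdiam (2 * 3 + 1) Z δ ε)

/-- **the integrality statements and the Euler form of `E'` with rational leading coefficient** -/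
theorem c_eq_final (bx : S3I.Bxs F hD hB hdiam hL.flow) (hbad : p ∉ bx.bad g)
    (hP : (inst F hD hB hdiam hl hN hE hJ hρ one_ne_zero hL g hg hg0 hg1 X v0 hr hDR b).PP)
    {ℓ : Form (dPr e D)} (hℓ : b1P F hD hB hdiam hL hg
      (FE.FF F hD hB hdiam hl hJ hρ 1) = (-1 : ℝ) • b0P F hD hB hdiam
      (FE.FF F hD hB hdiam hl hJ hρ 1) + ℓ.d)
    {a' μ : ℝ} {σ : Form (dPr e D)} (hσ : Basic Lm hL.flow.map σ)
    (hrel : b1P F hD hB hdiam hL hg (FE.FF F hD hB hdiam hl hJ hρ 1) ^ 2 = a' • eP e D ^ 6 +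
        μ • (eP e D ^ 2 * GsP F hD hB hdiam hg (FE.FF F hD hB hdiam hl hJ hρ 1)) + σ.d)
    (ha' : a' ≠ 0) {K' : ℕ} (P : PF E M K') (G : Geo e D (2 * 3 + 1)) {γ : ℝ}
    (hγ : γ = 6 ∨ γ = -6)
    (hR : ∃ η : Form (dUT E M), ucl G P 4 = (-(4 * γ) / FE.kap 3 1) • Form.pull foot map_foot
        (FE.FF F hD hB hdiam hl hJ hρ 1) + (-(4 * γ) / FE.kap 3 1) • Form.pull
          (fun v => foot (phi F (v, D))) (Dif.Map.comp (f := fun v => phi F (v, D)) (g := foot)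
            map_foot (map_at (isFlow_phi F hD hB hdiam).map D))
        (FE.FF F hD hB hdiam hl hJ hρ 1) + η.d)
    (h6 : ∃ ρ₆ : Form (dPr e D), Basic Lm hL.flow.map ρ₆ ∧
      Form.pull Pr.v map_v (XC.cF (pj h) 6) = -((FE.kap 3 1)⁻¹ ^ 2) •
        b1P F hD hB hdiam hL hg (FE.FF F hD hB hdiam hl hJ hρ 1) ^ 2 + ρ₆.d)
    (seg : ∀ B : Bt (dUT E M), B.Good (isFlow_phi F hD hB hdiam) →
      (B.N = 4 → (inst F hD hB hdiam hl hN hE hJ hρ one_ne_zero hL g hg hg0 hg1 X v0 hr hDR b).Z2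
        B.L (-XC.cF (pj h) 2)) ∧
      (B.N = 8 → (inst F hD hB hdiam hl hN hE hJ hρ one_ne_zero hL g hg hg0 hg1 X v0 hr hDR b).Z4
        B.L (-XC.cF (pj h) 2) (XC.cF (pj h) 4)) ∧
      (B.N = 12 → (inst F hD hB hdiam hl hN hE hJ hρ one_ne_zero hL g hg hg0 hg1 X v0 hr hDR b).Z6
        B.L (-XC.cF (pj h) 2) (XC.cF (pj h) 4) (-XC.cF (pj h) 6))) :
    (∃ n : ℤ, 2 * μ / FE.kap 3 1 = n) ∧
      (∃ n m : ℤ, a' / FE.kap 3 1 ^ 2 = n + μ / FE.kap 3 1 * m) ∧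
      ∃ a7 : ℚ, ∀ u, UC (inst F hD hB hdiam hl hN hE hJ hρ one_ne_zero hL g hg hg0 hg1 X v0 hr hDR
          b) u →
        Eqv (isFlow_phi F hD hB hdiam).map (XC.eE (pj h) ((2 * (2 * D))⁻¹ • CV.alpha E M))
          (((a7 : ℝ) / 128) • ((2 * D)⁻¹ • (CV.alpha E M).d) ^ 7 +
            ((2 * γ - 4 * (2 * μ / FE.kap 3 1)) / FE.kap 3 1 / 8) •
              (((2 * D)⁻¹ • (CV.alpha E M).d) ^ 3 * u)) := by
  obtain ⟨s, q, q1, q2⟩ := c_eq7 F hD hB hdiam hl hN hE hJ hρ hL g hg hg0 hg1 X v0 hr hDR b h hP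
    hℓ hσ hrel ha' P G hR h6
  set S := inst F hD hB hdiam hl hN hE hJ hρ one_ne_zero hL g hg hg0 hg1 X v0 hr hDR b with hS
  have hC : Coh S := coh7 F hD hB hdiam hl hN hE hJ hρ one_ne_zero hL g hg hg0 hg1 X v0 hr hDR b
    hP hℓ hσ hrel ha'
  have hFd : Form.IsDeg 8 S.F := S2II.isDeg_FF F hD hB hdiam hl hJ hρ 1
  have hκ : 0 < FE.kap 3 1 := FE.kap_pos 3 one_ne_zero
  have hmp : ((dUT E M).prod (Dif.lin ℝ)).Map (dUT E M) (phi F) := map_phi F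
  have hPX := pX_phi F hD hB hdiam Z δ ε
  -- a representative of `u`
  obtain ⟨κU, -, -, -, -, hu1, hu2, hu3, hu4, -⟩ :=
    Sys.lev2 hP hFd (ε := -1) (l := ℓ) hℓ hσ hrel hC.H0 hC.H2 hC.H4 hC.H6 hC.HU1 hC.HU3 hC.HU5
      hC.HU7 (by norm_num)
      (inst_α F hD hB hdiam hl hN hE hJ hρ one_ne_zero hL g hg hg0 hg1 X v0 hr hDR b)
      (inst_vol_ne F hD hB hdiam hl hN hE hJ hρ one_ne_zero hL g hg hg0 hg1 X v0 hr hDR b)
  have hu : UC S (S.uU κU) := ⟨hu1, hu2, hu3, hu4⟩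
  obtain ⟨r1, -, -⟩ := q2 _ hu
  -- the Pontryagin forms
  have c2 : S.CE (XC.cF (pj h) 4) := CE_cF (S := S) (pj h) hPX 4
  have hneg : ∀ k, S.CE (-XC.cF (pj h) k) := fun k => by
    have h1 : S.CE (XC.cF (pj h) k) := CE_cF (S := S) (pj h) hPX k
    exact ⟨by rw [Form.sg_neg, h1.sg], by rw [Form.d_neg, h1.d, neg_zero], Basic.neg h1.bas⟩
  have h1 : Eqv (isFlow_phi F hD hB hdiam).map (-XC.cF (pj h) 2)
      (s • ((2 * D)⁻¹ • (CV.alpha E M).d) ^ 2) := by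
    obtain ⟨w, hw, hw'⟩ := q1
    exact ⟨-w, Basic.neg hw, by rw [hw', Form.d_neg, neg_add, neg_smul, neg_neg]⟩
  have h2 : Eqv (isFlow_phi F hD hB hdiam).map (XC.cF (pj h) 4)
      (q • ((2 * D)⁻¹ • (CV.alpha E M).d) ^ 4 + (2 * γ / FE.kap 3 1) • S.uU κU) := by
    obtain ⟨w, hw, hw'⟩ := r1
    exact ⟨w, hw, by rw [hw']; abel⟩
  have hp : Eqv S.hφ.map (S.b1 ^ 2)
      (((1 : ℝ) * FE.kap 3 1 ^ 2) • Form.pull S.pi S.hpi (-XC.cF (pj h) 6)) := by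
    obtain ⟨w, hw, hw'⟩ := h6
    have hw2 : Form.pull S.pi S.hpi (XC.cF (pj h) 6) = -((FE.kap 3 1)⁻¹ ^ 2) • S.b1 ^ 2 + w.d := hw'
    refine ⟨(FE.kap 3 1 ^ 2) • w, Basic.smul _ hw, ?_⟩
    rw [pull_neg, hw2, Form.d_smul]
    have h3 : FE.kap 3 1 ^ 2 * (FE.kap 3 1)⁻¹ ^ 2 = 1 := by
      rw [← mul_pow, mul_inv_cancel₀ hκ.ne', one_pow]
    have h4 : ((1 : ℝ) * FE.kap 3 1 ^ 2) • -(-((FE.kap 3 1)⁻¹ ^ 2) • S.b1 ^ 2 + w.d) +
        FE.kap 3 1 ^ 2 • w.d = (FE.kap 3 1 ^ 2 * (FE.kap 3 1)⁻¹ ^ 2) • S.b1 ^ 2 := by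
      module
    rw [h4, h3, one_smul]
  obtain ⟨hM, hPm⟩ := S3I.ints_bxs F hD hB hdiam hl hN hE hJ hρ one_ne_zero hL g hg hg0 hg1 X v0
    hr hDR b bx hbad hP (u := S.uU κU) hu4 hσ hrel (ε := -1) (by norm_num) hℓ (hneg 2) c2 (hneg 6)
    h1 (s := 1) (by norm_num) hp seg
  refine ⟨hM, hPm, ?_⟩
  obtain ⟨i1, i2, -⟩ := Sys.ints_one (S := S) (hneg 2) c2 (hneg 6) h1 bx.g2 bx.g4 bx.g6 bx.c24
    bx.c46 bx.e2 ((seg bx.B2 bx.g2).1 bx.n2) ((seg bx.B4 bx.g4).2.1 bx.n4)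
    ((seg bx.B6 bx.g6).2.2 bx.n6)
  -- the integrals of `G₁` and `G₂`
  have k1 : ∀ y, (fun b => g (b, 1)) (bx.BL.G y) ≠ p := fun y hy => hbad (Or.inl ⟨y, hy⟩)
  have k2 : ∀ y, (fun b => g (WR.Th F hD hB hdiam b, 1)) (bx.BL.G y) ≠ p := fun y hy =>
    hbad (Or.inr ⟨y, hy⟩)
  have hf2 : (dPr e D).Map (dM E M) (fun b => g (WR.Th F hD hB hdiam b, 1)) := fun h =>
    H584.map_at hg 1 (map_Th F hD hB hdiam h)
  have m1 : ∃ m : ℤ, bx.BL.L S.G1 = FE.kap 3 1 * m :=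
    S3M2.int_kap F hD hB hdiam (n := 3) hl (by rw [hN]) hJ hρ 1 hL.flow bx.BL bx.gL bx.nL
      (H584.map_at hg 1) (fun b t => hg1 b t) k1
  have m2 : ∃ m : ℤ, bx.BL.L S.G2 = FE.kap 3 1 * m := by
    obtain ⟨m, hm⟩ := S3M2.int_kap F hD hB hdiam (n := 3) hl (by rw [hN]) hJ hρ 1 hL.flow bx.BL
      bx.gL bx.nL hf2 (fun b t => by
        rw [L3.Th_Lam hL b t]
        exact hg1 _ t) k2
    refine ⟨m, ?_⟩
    rw [← hm]
    congr 1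
    exact H584.pull_pull (map_Th F hD hB hdiam) (H584.map_at hg 1) hf2 (fun b => rfl) _
  obtain ⟨a7, ha7⟩ := exists_rat (S := S) hκ hγ hu bx.g4 (BL := bx.BL) bx.gL bx.hL m1 m2 bx.e4 i1
    i2 h2 hM hPm
  refine ⟨a7, fun u hu' => ?_⟩
  obtain ⟨-, -, r3⟩ := q2 u hu'
  rw [ha7]
  exact r3

end one

end

end Vale.Agent.P231.S3C
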