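import Vale.Agent.P231.A3.Rel

/-!
# P231, stage 3, S3-C: basic forms of low degree, formal part
-/

set_option linter.unusedSectionVars false
set_option linter.unusedVariables false

open Set Module Filter Topology
open scoped ContDiff

namespace Vale.Agent.P231.S3C

open Fm W H584 A3

variable {X : Type*} {D : Dif X} {T : ℝ} {Φ : X × ℝ → X} (h : IsFlow D T Φ) {α : Form D}

/-- a closed basic form of degree `2 j`, when there is no cohomology in the even degrees between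
`2` and `2 j` -/
theorem pow_e (hT : T ≠ 0) (hα : Form.pull Φ h.map α = pr α + dt) (hαo : α.sg = -α) (j : ℕ)
    (H0 : ∀ w : Form D, Form.IsDeg 0 w → w.d = 0 → ∃ c : ℝ, w = c • 1)
    (H : ∀ i, i < j → ∀ w : Form D, Form.IsDeg (2 * i + 2) w → w.d = 0 → ∃ η : Form D, w = η.d)
    {w : Form D} (hw : Basic Φ h.map w) (hwd : w.d = 0) (hdeg : Form.IsDeg (2 * j) w) :
    ∃ (c : ℝ) (ρ : Form D), Basic Φ h.map ρ ∧ w = c • (T⁻¹ • α.d) ^ j + ρ.d := by
  obtain ⟨ζ, ρ, -, h2, h3, h4, h5⟩ := down (k := 0) h hT hα hαo j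
    (fun i hi w hw hd => H i hi w (by rwa [zero_add] at hw) hd) hw hwd (by rwa [zero_add])
  obtain ⟨c, hc⟩ := H0 ζ h3 h2
  exact ⟨c, ρ, h4, by rw [h5, hc, mul_smul_comm, mul_one]⟩

/-- pull back along an equivariant map preserves basic forms -/
theorem basic_pull_sym {σ : X → X} (hσ : D.Map D σ) (hσφ : ∀ b t, σ (Φ (b, t)) = Φ (σ b, t))
    (hΦ : (D.prod (Dif.lin ℝ)).Map D Φ) {w : Form D} (hw : Basic Φ hΦ w) :
    Basic Φ hΦ (Form.pull σ hσ w) := by
  rw [basic_def]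
  have h1 : Form.pull Φ hΦ (Form.pull σ hσ w) =
      Form.pull (fun p : X × ℝ => (σ p.1, p.2)) (map_cyl hσ) (Form.pull Φ hΦ w) := by
    have hm : (D.prod (Dif.lin ℝ)).Map D (fun p : X × ℝ => σ (Φ p)) :=
      Dif.Map.comp (f := Φ) (g := σ) hσ hΦ
    have h2 : Form.pull Φ hΦ (Form.pull σ hσ w) = Form.pull (fun p : X × ℝ => σ (Φ p)) hm w :=
      pull_pull hΦ hσ hm (fun p => rfl) w
    rw [h2]
    exact (pull_pull (map_cyl hσ) hΦ hm (fun p => (hσφ p.1 p.2).symm) w).symm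
  rw [h1, hw, pull_pr hσ]

/-- a symmetric exact basic form of degree eight, when the cohomology in degree six is spanned by
an antisymmetric class `b` -/
theorem sym_eight (hT : T ≠ 0) (hα : Form.pull Φ h.map α = pr α + dt) (hαo : α.sg = -α)
    {b : Form D} (hb : Basic Φ h.map b) (hbd : b.d = 0) (hbdeg : Form.IsDeg 6 b)
    {σ : X → X} (hσ : D.Map D σ) (hσφ : ∀ b t, σ (Φ (b, t)) = Φ (σ b, t))
    (hσα : Form.pull σ hσ α = α) (hσb : Form.pull σ hσ b = -b)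
    (H0 : ∀ w : Form D, Form.IsDeg 0 w → w.d = 0 → ∃ c : ℝ, w = c • 1)
    (H2 : ∀ w : Form D, Form.IsDeg 2 w → w.d = 0 → ∃ η : Form D, w = η.d)
    (H4 : ∀ w : Form D, Form.IsDeg 4 w → w.d = 0 → ∃ η : Form D, w = η.d)
    (H6 : ∀ w : Form D, Form.IsDeg 6 w → w.d = 0 → ∃ (c : ℝ) (η : Form D), w = c • b + η.d)
    {w η : Form D} (hw : Basic Φ h.map w) (hη : w = η.d) (hdeg : Form.IsDeg 8 w)
    (hσw : Form.pull σ hσ w = w) :
    ∃ (c : ℝ) (ρ : Form D), Basic Φ h.map ρ ∧ w = c • (T⁻¹ • α.d) ^ 4 + ρ.d := by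
  set e : Form D := T⁻¹ • α.d with he
  have hee : e.sg = e := e_even hαo
  have hed : e.d = 0 := e_closed
  have heb : Basic Φ h.map e := basic_e h hα
  obtain ⟨z, ρ₁, z1, z2, z3, z4, z5⟩ := step (k := 6) h hT hα hαo hw hdeg hη
  obtain ⟨c₂, η₂, hη₂⟩ := H6 z z3 z2
  obtain ⟨y, ρ₂, y1, y2, y3, y4, y5⟩ := step (k := 4) (w := z - c₂ • b) (η := η₂) h hT hα hαo
    (Basic.sub z1 (Basic.smul c₂ hb)) (z3.sub (hbdeg.smul c₂)) (by rw [hη₂]; abel)
  obtain ⟨c, ρ₃, x1, x2⟩ := pow_e h hT hα hαo 2 H0 (fun i hi => by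
    interval_cases i
    · exact H2
    · exact H4) y1 y2 y3
  rw [← he] at z5 y5 x2
  have hm : ∀ (j : ℕ) (u : Form D), e ^ j * u.d = (e ^ j * u).d := mul_d hed hee
  have hm1 : ∀ u : Form D, e * u.d = (e * u).d := fun u => by
    have := hm 1 u
    rwa [pow_one] at this
  set S : Form D →ₐ[ℝ] Form D := Form.pullA σ hσ with hS
  have hSd : ∀ w, S w.d = (S w).d := fun w => Form.pull_d σ hσ w
  have hSα : S α = α := hσα
  have hSb : S b = -b := hσb
  have hSw : S w = w := hσw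
  have hSe : S e = e := by rw [he, map_smul, hSd, hSα]
  set ρ : Form D := e ^ 2 * ρ₃ + e * ρ₂ + ρ₁ with hρ
  have hρb : Basic Φ h.map ρ :=
    Basic.add (Basic.add (Basic.mul (Basic.pow heb _) x1) (Basic.mul heb y4)) z4
  have h1 : w = c₂ • (e * b) + c • e ^ 4 + ρ.d := by
    have e1 : z = c₂ • b + e * (c • e ^ 2 + ρ₃.d) + ρ₂.d := by
      rw [← x2, add_assoc, ← y5]; abel
    rw [z5, e1, hρ, Form.d_add, Form.d_add, ← hm, ← hm1]
    simp only [mul_add, mul_smul_comm]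
    have q1 : e * (e * e ^ 2) = e ^ 4 := by rw [← pow_succ', ← pow_succ']
    have q2 : e * (e * ρ₃.d) = e ^ 2 * ρ₃.d := by rw [pow_two, mul_assoc]
    rw [q1, q2]
    abel
  have h2 : w = -(c₂ • (e * b)) + c • e ^ 4 + (S ρ).d := by
    have h3 := congrArg S h1
    rw [map_add, map_add, map_smul, map_smul, map_mul, map_pow, hSw, hSe, hSb, mul_neg,
      smul_neg, hSd] at h3
    exact h3
  refine ⟨c, (1 / 2 : ℝ) • (ρ + S ρ), Basic.smul _ (Basic.add hρb
    (basic_pull_sym hσ hσφ h.map hρb)), ?_⟩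
  have h4 : w = (1 / 2 : ℝ) • (w + w) := by module
  have h5 : w + w = (c₂ • (e * b) + c • e ^ 4 + ρ.d) + (-(c₂ • (e * b)) + c • e ^ 4 + (S ρ).d) :=
    congrArg₂ (· + ·) h1 h2
  have h6 : (ρ + S ρ).d = ρ.d + (S ρ).d := Form.d_add _ _
  rw [h4, h5, Form.d_smul, h6]
  change _ = c • e ^ 4 + _
  module

end Vale.Agent.P231.S3C
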