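import Vale.Agent.P231.ChW.RankCF

/-!
# P231, stage 3, S3-C (R): the algebra of the relation `c₆(Z) = 0`
-/

set_option linter.unusedSimpArgs false

namespace Vale.Agent.P231.S3C

open Finset Vale.Agent.P231.ChW

noncomputable section

variable {H : Type*} [CommRing H] [Algebra ℝ H]

/-- the power sums of `Z` (rank four) in terms of the classes of the planes and of the tangent
bundles -/
structure Rel7 (t g1 g2 q : ℝ) (x1 x2 y z : H) (σ e : ℕ → H) : Prop where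
  nw : NewtonRec ℝ σ e
  hq : 8 * q = t - g1 + g2
  yz : y * z = x1 - x2
  s0 : σ 0 = algebraMap ℝ H 4
  a2 : (2 : ℝ) • σ 2 = 0
  a4 : (2 : ℝ) • σ 4 = t • x2 - (g1 • x2 + g2 • x1)
  a6 : (2 : ℝ) • σ 6 = 0
  b2 : (2 : ℝ) • ∑ i ∈ range 3, ((2 : ℕ).choose i : ℝ) • (y ^ i * σ (2 - i)) = 0
  b4 : (2 : ℝ) • ∑ i ∈ range 5, ((4 : ℕ).choose i : ℝ) • (y ^ i * σ (4 - i)) =
    t • x1 - (g1 • x1 + g2 • x2)
  b6 : (2 : ℝ) • ∑ i ∈ range 7, ((6 : ℕ).choose i : ℝ) • (y ^ i * σ (6 - i)) = 0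
  c1 : y * (σ 1 + (2 : ℝ) • y) = 0 → σ 1 + (2 : ℝ) • y = 0
  c3 : y * (σ 3 - y ^ 3 - q • z) = 0 → σ 3 - y ^ 3 - q • z = 0
  c5 : y * ((6 : ℝ) • σ 5 + (12 : ℝ) • y ^ 5 + (20 * q) • (y ^ 2 * z) +
      (15 : ℝ) • (y * σ 4)) = 0 →
    (6 : ℝ) • σ 5 + (12 : ℝ) • y ^ 5 + (20 * q) • (y ^ 2 * z) + (15 : ℝ) • (y * σ 4) = 0

theorem eq_zero_of_smul {a : H} {c : ℝ} (hc : c ≠ 0) (h : c • a = 0) : a = 0 := by
  have h1 := congrArg (fun b => c⁻¹ • b) h
  simpa [smul_smul, inv_mul_cancel₀ hc] using h1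

theorem eq_of_ofNat_mul {a b : H} (n : ℕ) [hn : n.AtLeastTwo] (h : (OfNat.ofNat n : H) * a =
    (OfNat.ofNat n : H) * b) : a = b := by
  have hn0 : (n : ℝ) ≠ 0 := by
    have := hn.prop
    positivity
  have h1 : (n : ℝ) • (a - b) = 0 := by
    rw [Algebra.smul_def, map_natCast, mul_sub, sub_eq_zero]
    exact h
  exact sub_eq_zero.1 (eq_zero_of_smul hn0 h1)

section

variable {t g1 g2 q : ℝ} {x1 x2 y z : H} {σ e : ℕ → H}

theorem Rel7.e1 (h : Rel7 t g1 g2 q x1 x2 y z σ e) : e 1 = σ 1 := by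
  have h0 := h.nw.1
  have h1 := h.nw.2 0
  simp only [Nat.cast_zero, zero_add, one_smul, range_one, sum_singleton, pow_zero, Nat.sub_self,
    h0, mul_one] at h1
  exact h1

theorem Rel7.s1 (h : Rel7 t g1 g2 q x1 x2 y z σ e) : σ 1 = -(2 * y) := by
  have h2 : σ 2 = 0 := eq_zero_of_smul two_ne_zero h.a2
  have hb := eq_zero_of_smul two_ne_zero h.b2
  simp only [sum_range_succ, range_one, sum_singleton, Nat.choose_zero_right, Nat.cast_one,
    one_smul, pow_zero, one_mul, Nat.sub_zero, h2, zero_add, pow_one,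
    show Nat.choose 2 1 = 2 from rfl, show Nat.choose 2 2 = 1 from rfl, Nat.sub_self, h.s0,
    show (2 : ℕ) - 1 = 1 from rfl, range_zero, sum_empty] at hb
  have h3 := h.c1 (by
    rw [Algebra.smul_def] at hb ⊢
    simp only [map_ofNat, map_natCast, Nat.cast_ofNat] at hb ⊢
    refine eq_of_ofNat_mul 2 ?_
    linear_combination hb)
  rw [Algebra.smul_def] at h3
  simp only [map_ofNat] at h3
  linear_combination h3

theorem Rel7.s3 (h : Rel7 t g1 g2 q x1 x2 y z σ e) : σ 3 = y ^ 3 + q • z := by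
  have h2 : σ 2 = 0 := eq_zero_of_smul two_ne_zero h.a2
  have h4 := h.a4
  have hb := h.b4
  have hq : (8 : H) * algebraMap ℝ H q = algebraMap ℝ H t - algebraMap ℝ H g1 +
      algebraMap ℝ H g2 := by
    have := congrArg (algebraMap ℝ H) h.hq
    rwa [map_mul, map_ofNat, map_add, map_sub] at this
  simp only [sum_range_succ, range_one, sum_singleton, Nat.choose_zero_right, Nat.cast_one,
    one_smul, pow_zero, one_mul, Nat.sub_zero, h2, mul_zero, smul_zero, add_zero, pow_one,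
    show Nat.choose 4 1 = 4 from rfl, show Nat.choose 4 2 = 6 from rfl,
    show Nat.choose 4 3 = 4 from rfl, show Nat.choose 4 4 = 1 from rfl, Nat.sub_self, h.s0,
    show (4 : ℕ) - 1 = 3 from rfl, show (4 : ℕ) - 2 = 2 from rfl, show (4 : ℕ) - 3 = 1 from rfl,
    range_zero, sum_empty, zero_add, h.s1] at hb
  have h3 := h.c3 (by
    simp only [Algebra.smul_def, map_ofNat, map_natCast, Nat.cast_ofNat] at hb h4 ⊢
    refine eq_of_ofNat_mul 8 ?_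
    linear_combination hb - h4 - hq * (y * z) - (algebraMap ℝ H t - algebraMap ℝ H g1 +
      algebraMap ℝ H g2) * h.yz)
  linear_combination h3

theorem Rel7.s5 (h : Rel7 t g1 g2 q x1 x2 y z σ e) :
    6 * σ 5 + 12 * y ^ 5 + 20 * algebraMap ℝ H q * (y ^ 2 * z) + 15 * (y * σ 4) = 0 := by
  have h2 : σ 2 = 0 := eq_zero_of_smul two_ne_zero h.a2
  have h6 : σ 6 = 0 := eq_zero_of_smul two_ne_zero h.a6
  have hb := eq_zero_of_smul two_ne_zero h.b6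
  simp only [sum_range_succ, range_one, sum_singleton, Nat.choose_zero_right, Nat.cast_one,
    one_smul, pow_zero, one_mul, Nat.sub_zero, h2, mul_zero, smul_zero, add_zero, pow_one,
    show Nat.choose 6 1 = 6 from rfl, show Nat.choose 6 2 = 15 from rfl,
    show Nat.choose 6 3 = 20 from rfl, show Nat.choose 6 4 = 15 from rfl,
    show Nat.choose 6 5 = 6 from rfl, show Nat.choose 6 6 = 1 from rfl, Nat.sub_self, h.s0,
    show (6 : ℕ) - 1 = 5 from rfl, show (6 : ℕ) - 2 = 4 from rfl, show (6 : ℕ) - 3 = 3 from rfl,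
    show (6 : ℕ) - 4 = 2 from rfl, show (6 : ℕ) - 5 = 1 from rfl,
    range_zero, sum_empty, zero_add, h6, h.s1, h.s3] at hb
  have h3 := h.c5 (by
    simp only [Algebra.smul_def, map_ofNat, map_natCast, Nat.cast_ofNat, map_mul] at hb ⊢
    linear_combination hb)
  simp only [Algebra.smul_def, map_ofNat, map_mul] at h3
  linear_combination h3

/-- **the relation of degree twelve** -/
theorem Rel7.e6 (h : Rel7 t g1 g2 q x1 x2 y z σ e) :
    (36 : ℝ) • e 6 = (18 : ℝ) • y ^ 6 + (2 * q ^ 2) • z ^ 2 +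
      (36 * q - 9 * g2) • (y ^ 2 * x1) + (-(36 * q) + 9 * (t - g1)) • (y ^ 2 * x2) := by
  have h2 : σ 2 = 0 := eq_zero_of_smul two_ne_zero h.a2
  have h6 : σ 6 = 0 := eq_zero_of_smul two_ne_zero h.a6
  have h4 := h.a4
  have h5 := h.s5
  have h1 := h.s1
  have h3 := h.s3
  have e1 := h.e1
  have yz := h.yz
  have e2 := h.nw.2 1
  have e3 := h.nw.2 2
  have e4 := h.nw.2 3
  have e5 := h.nw.2 4
  have e6 := h.nw.2 5
  simp only [sum_range_succ, range_one, sum_singleton, pow_zero, one_smul, zero_add, Nat.sub_zero,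
    Nat.sub_self, pow_one, h.nw.1, mul_one, Nat.reduceAdd, Nat.reduceSub, h2, zero_mul, smul_zero,
    add_zero, h6, range_zero, sum_empty, e1, h1, h3] at e2 e3 e4 e5 e6
  simp only [Algebra.smul_def, map_ofNat, map_natCast, Nat.cast_ofNat, map_mul, map_add, map_one,
    map_pow, map_neg, Nat.cast_one, map_sub] at e2 e3 e4 e5 e6 h4 ⊢
  have f2 : e 2 = 2 * y ^ 2 := eq_of_ofNat_mul 2 (by linear_combination e2)
  rw [f2] at e3 e5 e6
  have f4 : 12 * e 4 = -(8 * algebraMap ℝ H q * (y * z)) - 3 * σ 4 := by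
    linear_combination 3 * e4 - 2 * y * e3
  have f5 : e 5 = 0 := eq_of_ofNat_mul 60 (by
    linear_combination 12 * e5 - 2 * y * f4 + 2 * h5)
  rw [f5] at e6
  linear_combination 6 * e6 + 2 * (y ^ 3 + algebraMap ℝ H q * z) * e3 - 2 * y * h5 * 1 +
    9 * y ^ 2 * h4 + 36 * algebraMap ℝ H q * y ^ 2 * yz

/-- **the coefficients** -/
theorem Rel7.fin (h : Rel7 t g1 g2 q x1 x2 y z σ e) (he : e 6 = 0) {Φ Ψ : H →ₗ[ℝ] ℝ}
    (Ψ1 : Ψ (y ^ 2 * x1) = 0) (Ψ2 : Ψ (y ^ 2 * x2) = 0) (Ψz : Ψ (z ^ 2) ≠ 0)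
    (Ψy : Ψ (y ^ 6) = -Ψ (z ^ 2)) (Φz : Φ (z ^ 2 * (x1 ^ 2 * x2)) ≠ 0)
    (Φ1 : Φ (y ^ 2 * x1 * (x1 ^ 2 * x2)) = 0) (Φ2 : Φ (y ^ 2 * x2 * (x1 ^ 2 * x2)) = 0)
    (Φ3 : Φ (z ^ 2 * (y ^ 4 * x1 ^ 2)) = 0) (x13 : x1 ^ 3 = 0)
    (qF : (4 : ℝ) • (y ^ 8 * x1 ^ 2) = y ^ 4 * x1 ^ 2 * (g1 • x1 + g2 • x2))
    (qB : (4 : ℝ) • (y ^ 8 * x1 ^ 2) = y ^ 4 * x1 ^ 2 * (g1 • x2 + g2 • x1)) :
    q ^ 2 = 9 ∧ g1 = 8 * q ∧ g2 = 8 * q := by
  have h6 := h.e6
  rw [he, smul_zero] at h6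
  have hq := h.hq
  -- the fibre
  have k1 : q ^ 2 = 9 := by
    have h1 := congrArg Ψ h6
    rw [map_zero, map_add, map_add, map_add, map_smul, map_smul, map_smul, map_smul, Ψ1, Ψ2,
      Ψy] at h1
    simp only [smul_eq_mul, mul_zero, add_zero] at h1
    have h2 : (q ^ 2 - 9) * Ψ (z ^ 2) = 0 := by linarith
    have h3 := (mul_eq_zero.1 h2).resolve_right Ψz
    linarith
  -- the first value
  have k2 : 18 * Φ (y ^ 6 * (x1 ^ 2 * x2)) + 2 * q ^ 2 * Φ (z ^ 2 * (x1 ^ 2 * x2)) = 0 := by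
    have h1 := congrArg (fun a => Φ (a * (x1 ^ 2 * x2))) h6
    simp only [zero_mul, map_zero, add_mul, smul_mul_assoc, map_add, map_smul, smul_eq_mul, Φ1,
      Φ2, mul_zero, add_zero] at h1
    exact h1.symm
  have k3 : Φ (y ^ 6 * (x1 ^ 2 * x2)) ≠ 0 := by
    intro h1
    rw [h1, k1] at k2
    exact Φz (by linarith)
  have e1 : y ^ 4 * x1 ^ 2 * (g1 • x1 + g2 • x2) = g2 • (y ^ 4 * (x1 ^ 2 * x2)) := by
    rw [mul_add, mul_smul_comm, mul_smul_comm]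
    have : y ^ 4 * x1 ^ 2 * x1 = y ^ 4 * x1 ^ 3 := by ring
    rw [this, x13, mul_zero, smul_zero, zero_add, mul_assoc]
  have e2 : y ^ 4 * x1 ^ 2 * (g1 • x2 + g2 • x1) = g1 • (y ^ 4 * (x1 ^ 2 * x2)) := by
    rw [mul_add, mul_smul_comm, mul_smul_comm]
    have : y ^ 4 * x1 ^ 2 * x1 = y ^ 4 * x1 ^ 3 := by ring
    rw [this, x13, mul_zero, smul_zero, add_zero, mul_assoc]
  have k4 : 4 * Φ (y ^ 10 * x1 ^ 2) = g2 * Φ (y ^ 6 * (x1 ^ 2 * x2)) := by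
    have h1 := congrArg (fun a => Φ (y ^ 2 * a)) (qF.trans e1)
    simp only [mul_smul_comm, map_smul, smul_eq_mul] at h1
    have r1 : y ^ 2 * (y ^ 8 * x1 ^ 2) = y ^ 10 * x1 ^ 2 := by ring
    have r2 : y ^ 2 * (y ^ 4 * (x1 ^ 2 * x2)) = y ^ 6 * (x1 ^ 2 * x2) := by ring
    rwa [r1, r2] at h1
  have k5 : 4 * Φ (y ^ 10 * x1 ^ 2) = g1 * Φ (y ^ 6 * (x1 ^ 2 * x2)) := by
    have h1 := congrArg (fun a => Φ (y ^ 2 * a)) (qB.trans e2)
    simp only [mul_smul_comm, map_smul, smul_eq_mul] at h1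
    have r1 : y ^ 2 * (y ^ 8 * x1 ^ 2) = y ^ 10 * x1 ^ 2 := by ring
    have r2 : y ^ 2 * (y ^ 4 * (x1 ^ 2 * x2)) = y ^ 6 * (x1 ^ 2 * x2) := by ring
    rwa [r1, r2] at h1
  have k6 : g1 = g2 := by
    have h1 : (g1 - g2) * Φ (y ^ 6 * (x1 ^ 2 * x2)) = 0 := by linarith
    have h2 := (mul_eq_zero.1 h1).resolve_right k3
    linarith
  -- the second value
  have k7 : 18 * Φ (y ^ 10 * x1 ^ 2) + (-(36 * q) + 9 * (t - g1)) *
      Φ (y ^ 6 * (x1 ^ 2 * x2)) = 0 := by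
    have h1 := congrArg (fun a => Φ (a * (y ^ 4 * x1 ^ 2))) h6
    simp only [zero_mul, map_zero, add_mul, smul_mul_assoc, map_add, map_smul, smul_eq_mul, Φ3,
      mul_zero, add_zero] at h1
    have r1 : y ^ 6 * (y ^ 4 * x1 ^ 2) = y ^ 10 * x1 ^ 2 := by ring
    have r2 : y ^ 2 * x1 * (y ^ 4 * x1 ^ 2) = y ^ 6 * x1 ^ 3 := by ring
    have r3 : y ^ 2 * x2 * (y ^ 4 * x1 ^ 2) = y ^ 6 * (x1 ^ 2 * x2) := by ring
    rw [r1, r2, r3, x13, mul_zero, map_zero, mul_zero, add_zero] at h1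
    linarith
  have k8 : (g2 - 8 * q) * Φ (y ^ 6 * (x1 ^ 2 * x2)) = 0 := by
    have h1 : t - g1 = 8 * q - g2 := by linarith
    rw [h1] at k7
    linarith
  have k9 := (mul_eq_zero.1 k8).resolve_right k3
  exact ⟨k1, by linarith, by linarith⟩

end

end

end Vale.Agent.P231.S3C
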