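import Vale.Agent.P231.X3.Dat
import Vale.Agent.P231.S2T.Rank
import Vale.Agent.P231.S3C.RAlg

/-!
# P231, stage 3, S3-C (R): the relations between the classes of the planes, of the tangent bundles
and of the bundle `Z`, for every `l`
-/

set_option maxSynthPendingDepth 3
set_option linter.unusedSectionVars false
set_option linter.unusedVariables false

open Bundle Manifold Set Filter Module Matrix
open scoped ContDiff Manifold Topology

namespace Vale.Agent.P231.S3C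

noncomputable section

open Vale.Agent.P234 Vale.Agent.P231 Vale.Agent.P231.Fm Vale.Agent.P231.W Vale.Agent.P231.WR
  Vale.Agent.P231.ChW Vale.Agent.P231.X3 Vale.Agent.P231.S2T

/-! ### real basic orthogonal projectors -/

section RB

variable {X : Type*} {D : Dif X} {Φ : X × ℝ → X} {hΦ : (D.prod (Dif.lin ℝ)).Map D Φ}
  {n : Type*} [Fintype n] [DecidableEq n]

/-- a family of real orthogonal projectors, invariant under the flow -/
structure RB (D : Dif X) (Φ : X × ℝ → X) (A : X → Matrix n n ℝ) : Prop where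
  sm : SmM D A
  idem : ∀ x, A x * A x = A x
  tr : ∀ x, (A x)ᵀ = A x
  inv : ∀ x t, A (Φ (x, t)) = A x

variable {A B C : X → Matrix n n ℝ}

theorem RB.ib (h : RB D Φ A) : ChW.IB Φ hΦ (cR A h.sm) :=
  ⟨⟨ev_cR _, cR_mul _ _ _ h.idem⟩, basicM_cM _ fun p t => by rw [h.inv]⟩

theorem RB.idem' (h : RB D Φ A) : Idem (cR A h.sm) := ⟨ev_cR _, cR_mul _ _ _ h.idem⟩

/-- the classes of a real projector -/
def RB.cl (h : RB D Φ A) (hΦ : (D.prod (Dif.lin ℝ)).Map D Φ) (k : ℕ) : H584.Bas Φ hΦ :=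
  ⟨sF k (cR A h.sm), sF_even h.idem' k, sF_closed h.idem' k, sF_basic (h.ib (hΦ := hΦ)).bas k⟩

theorem RB.herm (h : RB D Φ A) : (cR A h.sm)ᵀ = cj (cR A h.sm) := by
  rw [cj_cR, cR_transpose]
  exact cR_congr _ _ h.tr

theorem RB.sC_eq (h : RB D Φ A) (k : ℕ) : sC k (cR A h.sm) = Cx.of (sF k (cR A h.sm)) :=
  sC_of_herm h.idem' h.herm k

theorem RB.cl_odd (h : RB D Φ A) {k : ℕ} (hk : Odd k) : h.cl hΦ k = 0 := by
  refine Subtype.ext ?_
  change sF k (cR A h.sm) = 0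
  rw [cR_eq]
  exact sF_real_odd _ hk

theorem RB.qc (h : RB D Φ A) (k : ℕ) :
    (h.ib (hΦ := hΦ)).qc k = Cx.of (qm Φ hΦ (h.cl hΦ k)) := by
  rw [IB.qc, IB.cl_herm h.ib h.herm k]
  ext1
  · rfl
  · exact map_zero (qm Φ hΦ)

/-- additivity -/
theorem RB.cl_add (hA : RB D Φ A) (hB : RB D Φ B) (hC : RB D Φ C) (h : ∀ x, A x + B x = C x)
    (h1 : ∀ x, A x * B x = 0) (h2 : ∀ x, B x * A x = 0) (k : ℕ) :
    qm Φ hΦ (hC.cl hΦ k) = qm Φ hΦ (hA.cl hΦ k) + qm Φ hΦ (hB.cl hΦ k) := by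
  have e1 : cR A hA.sm * cR B hB.sm = 0 := by
    rw [cR_mul hA.sm hB.sm (SmM.const D 0) h1]
    exact cR_zero _ fun _ => rfl
  have e2 : cR B hB.sm * cR A hA.sm = 0 := by
    rw [cR_mul hB.sm hA.sm (SmM.const D 0) h2]
    exact cR_zero _ fun _ => rfl
  have e3 := IB.qc_add (hA.ib (hΦ := hΦ)) hB.ib e1 e2 k
  have e4 : (hC.ib (hΦ := hΦ)).qc k = (hA.ib.add hB.ib e1 e2).qc k :=
    IB.qc_congr _ _ (cR_add _ _ _ h).symm k
  rw [← e4, hA.qc, hB.qc, hC.qc, ← Cx.of_add'] at e3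
  exact congrArg Cx.re e3

/-- a real projector whose complexification is `W + conj W` -/
theorem RB.cl_conj (hA : RB D Φ A) {W : X → Matrix n n ℂ} (hW : SmM D W)
    (iW : ∀ x, W x * W x = W x) (rW : ∀ x t, W (Φ (x, t)) = W x)
    (ww : ∀ x, W x * (W x).map (starRingEnd ℂ) = 0)
    (h : ∀ x, cplx (A x) = W x + (W x).map (starRingEnd ℂ)) {j : ℕ} {s : Hb Φ hΦ}
    (hs : (ib_cM (hΦ := hΦ) hW iW rW).qc (2 * j) = Cx.of s) :
    qm Φ hΦ (hA.cl hΦ (2 * j)) = (2 : ℝ) • s := by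
  have hk : Even (2 * j) := even_two_mul j
  have e1 : cM W hW * cj (cM W hW) = 0 := cM_mul_cj_zero hW hW ww
  have e2 : cj (cM W hW) * cM W hW = 0 := by
    have := congrArg cj e1
    rwa [cj_mul, cj_cj, cj_zero] at this
  have e3 := IB.qc_conj_sum (ib_cM (hΦ := hΦ) hW iW rW) e1 e2 hk
  have e4 : (hA.ib (hΦ := hΦ)).qc (2 * j) =
      ((ib_cM (hΦ := hΦ) hW iW rW).add (ib_cM (hΦ := hΦ) hW iW rW).cj e1 e2).qc (2 * j) := by
    refine IB.qc_congr _ _ ?_ _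
    rw [cj_cM, cM_add]
    exact cM_congr _ _ h
  rw [← e4, hA.qc, hs, Cx.conj_of, ← Cx.of_add', ← two_smul ℝ] at e3
  exact congrArg Cx.re e3

/-- the classes of a projector of rank at most `r` -/
theorem RB.top (hA : RB D Φ A) {r : ℕ} (hr : ∀ x, trace (A x) = r) {C : ℕ → Hb Φ hΦ}
    (hC : NewtonRec ℝ (fun k => qm Φ hΦ (hA.cl hΦ k)) C) {j : ℕ} (hj : r < j) : C j = 0 := by
  have e1 : ∀ x, cplx (A x) * cplx (A x) = cplx (A x) := fun x => by rw [← cplx_mul, hA.idem]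
  have e2 : ∀ x, trace (cplx (A x)) = r := fun x => by
    rw [cplx_trace, hr]
    norm_num
  have h1 : RankLE r (cR A hA.sm) (fun x => cplx (A x)) :=
    rankLE_cM _ e1 fun x => (rank_eq_of_trace (e1 x) (e2 x)).le
  refine h1.newton_quot (Complex.I / (2 * Real.pi)) (H584.Bas Φ hΦ).val Subtype.val_injective
    (qm Φ hΦ) (σ := fun k => hA.cl hΦ k) (fun k => ?_) hC hj
  change (Cx.of (sF (k + 1) (cR A hA.sm)) : CF D) = _
  rw [← hA.sC_eq]
  rfl

end RB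

/-! ### the geometric situation -/

variable {E : Type*} [NormedAddCommGroup E] [NormedSpace ℝ E] [FiniteDimensional ℝ E]
  {M : Type*} [MetricSpace M] [ChartedSpace E M] [IsManifold 𝓘(ℝ, E) ∞ M]
  [RiemannianBundle (fun x : M => TangentSpace 𝓘(ℝ, E) x)]
  [IsContMDiffRiemannianBundle 𝓘(ℝ, E) ∞ E (fun x : M => TangentSpace 𝓘(ℝ, E) x)]
  [CompactSpace M] [ConnectedSpace M] [IsRiemannianManifold 𝓘(ℝ, E) M]
  {e : ∀ x : M, TangentSpace 𝓘(ℝ, E) x → M} {K : ℕ} {D : ℝ} {l : ℕ}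

section Geom

variable (G : Geo e D l) (P : PF E M K)

theorem rb_tF : RB (dPr e D) G.R (tF P) := ⟨sm_tF G P, tF_idem P, tF_tr P, tF_R G P⟩
theorem rb_tB : RB (dPr e D) G.R (tB P) := ⟨sm_tB G P, tB_idem P, tB_tr P, tB_R G P⟩
theorem rb_pF : RB (dPr e D) G.R (pF P) := ⟨sm_pF G P, pF_idem P, pF_tr P, pF_R G P⟩
theorem rb_pB : RB (dPr e D) G.R (pB P) := ⟨sm_pB G P, pB_idem P, pB_tr P, pB_R G P⟩
theorem rb_nF : RB (dPr e D) G.R (nF P) := ⟨sm_nF G P, nF_idem P, nF_tr P, nF_R G P⟩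
theorem rb_nB : RB (dPr e D) G.R (nB P) := ⟨sm_nB G P, nB_idem P, nB_tr P, nB_R G P⟩
theorem rb_lF : RB (dPr e D) G.R (lF P) := ⟨sm_lF P, lF_idem P, lF_tr P, lF_R G P⟩
theorem rb_qF : RB (dPr e D) G.R (qF P) := ⟨sm_qF G P, qF_idem P, qF_tr P, qF_R G P⟩

/-- the classes of `T` at the foot -/
def cTF (k : ℕ) : Hb G.R G.map_R := qm G.R G.map_R ((rb_tF G P).cl G.map_R k)
/-- the classes of `T` at the cut point -/
def cTB (k : ℕ) : Hb G.R G.map_R := qm G.R G.map_R ((rb_tB G P).cl G.map_R k)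
/-- the classes of the plane at the foot -/
def cPF (k : ℕ) : Hb G.R G.map_R := qm G.R G.map_R ((rb_pF G P).cl G.map_R k)
/-- the classes of the plane at the cut point -/
def cPB (k : ℕ) : Hb G.R G.map_R := qm G.R G.map_R ((rb_pB G P).cl G.map_R k)
/-- the classes of the complement of `v`, `w` in the plane -/
def cQF (k : ℕ) : Hb G.R G.map_R := qm G.R G.map_R ((rb_qF G P).cl G.map_R k)

/-- the class `y` -/
abbrev yc : Hb G.R G.map_R := qm G.R G.map_R (yB G P)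

theorem ib_Hm : ChW.IB G.R G.map_R (Hm G P) :=
  ib_hp (sm_Zm G P) (fun p => (cor G P p).cs2.eig_eig) fun p t => Zm_R G P p t

theorem herm_Hm : (Hm G P)ᵀ = cj (Hm G P) := herm_hp (sm_Zm G P) fun p => (cor G P p).cs2.eig_eig

/-- the real class of `Z` -/
def sZ (k : ℕ) : H584.Bas G.R G.map_R :=
  ⟨sF k (Hm G P), sF_even (ib_Hm G P).idem k, sF_closed (ib_Hm G P).idem k,
    sF_basic (ib_Hm G P).bas k⟩

/-- the class of `Z` -/
def sg (k : ℕ) : Hb G.R G.map_R := qm G.R G.map_R (sZ G P k)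

theorem qc_Zm (k : ℕ) : (ib_Zm G P).qc k = Cx.of (sg G P k) := by
  rw [← IB.qc_image (ib_Zm G P) (ib_Hm G P)
    (cM_mul_hp (sm_Zm G P) fun p => (cor G P p).cs2.eig_eig)
    (hp_mul_cM (sm_Zm G P) fun p => (cor G P p).cs2.eig_eig) k, IB.qc,
    IB.cl_herm (ib_Hm G P) (herm_Hm G P) k]
  ext1
  · rfl
  · exact map_zero (qm G.R G.map_R)

/-- the splitting of the tangent bundle at the cut point -/
theorem r2 (j : ℕ) : (2 : ℝ) • sg G P (2 * j) = cTB G P (2 * j) - cPB G P (2 * j) := by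
  have h1 : cTB G P (2 * j) = cPB G P (2 * j) + qm G.R G.map_R ((rb_nB G P).cl G.map_R (2 * j)) :=
    RB.cl_add (rb_pB G P) (rb_nB G P) (rb_tB G P) (fun p => by rw [nB_eq]; abel)
      (pB_nB P) (nB_pB P) _
  have h2 := (rb_nB G P).cl_conj (hΦ := G.map_R) (sm_Zm G P) (fun p => (cor G P p).cs2.eig_eig)
    (Zm_R G P) (fun p => (cor G P p).cs2.eig_conj) (fun p => ((cor G P p).cs2.eig_add).symm)
    (j := j) (s := sg G P (2 * j)) (qc_Zm G P _)
  rw [h1, h2]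
  abel

theorem ib_Wf : ChW.IB G.R G.map_R (cM (Wf G P) (sm_Wf G P)) :=
  ib_cM _ (fun p => (cor G P p).cs1.eig_eig) fun p t => Wf_R G P p t

theorem qc_Wf (k : ℕ) : (ib_Wf G P).qc k = Cx.of (∑ i ∈ Finset.range (k + 1),
    ((k.choose i : ℕ) : ℝ) • (yc G P ^ i * sg G P (k - i))) := by
  have hab : cM (ka G P) (sm_ka G P) * cM (la G P) (sm_la G P) = cM (Wf G P) (sm_Wf G P) := by
    rw [cM_mul]
    exact cM_congr _ _ fun p => ka_la G P p
  have hba : cM (la G P) (sm_la G P) * cM (ka G P) (sm_ka G P) =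
      kr (cM (Lm P) (sm_Lm P)) (cM (Zm G P) (sm_Zm G P)) := by
    rw [cM_mul, kr_cM]
    exact cM_congr _ _ fun p => la_ka G P p
  rw [IB.qc_iso ((ib_Lm G P).kr (ib_Zm G P)) (ib_Wf G P) (ev_cM _) (ev_cM _) hab hba
    (basicM_cM _ fun p t => ka_R G P p t) (basicM_cM _ fun p t => la_R G P p t) k,
    IB.qc_kr (ib_Lm G P) (ib_Zm G P) (rankOne_cM (sm_Lm P) (Lm_idem P) (trace_Lm P)) k,
    qc_Lm, Cx.of_sum']
  refine Finset.sum_congr rfl fun i _ => ?_
  rw [qc_Zm, Cx.of_smul', Cx.of_mul', Cx.of_pow']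

/-- the splitting of the tangent bundle at the foot -/
theorem r1 (j : ℕ) : (2 : ℝ) • ∑ i ∈ Finset.range (2 * j + 1),
    ((2 * j).choose i : ℝ) • (yc G P ^ i * sg G P (2 * j - i)) =
      cTF G P (2 * j) - cPF G P (2 * j) := by
  have h1 : cTF G P (2 * j) = cPF G P (2 * j) + qm G.R G.map_R ((rb_nF G P).cl G.map_R (2 * j)) :=
    RB.cl_add (rb_pF G P) (rb_nF G P) (rb_tF G P) (fun p => by rw [nF_eq]; abel)
      (pF_nF P) (nF_pF P) _
  have h2 := (rb_nF G P).cl_conj (hΦ := G.map_R) (sm_Wf G P) (fun p => (cor G P p).cs1.eig_eig)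
    (Wf_R G P) (fun p => (cor G P p).cs1.eig_conj) (fun p => ((cor G P p).cs1.eig_add).symm)
    (j := j) (qc_Wf G P _)
  rw [h1, h2]
  abel

/-- the top classes of `Z` vanish -/
theorem topZ {r : ℕ} (hr : finrank ℝ E = l + 1 + 2 * r) {C : ℕ → Hb G.R G.map_R}
    (hC : NewtonRec ℝ (sg G P) C) {j : ℕ} (hj : r < j) : C j = 0 :=
  (rankLE_Hm G P hr).newton_quot (Complex.I / (2 * Real.pi)) (H584.Bas G.R G.map_R).val
    Subtype.val_injective (qm G.R G.map_R) (σ := fun k => sZ G P k) (fun k => by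
      change (Cx.of (sF (k + 1) (Hm G P)) : CF (dPr e D)) = _
      rw [← sC_of_herm (ib_Hm G P).idem (herm_Hm G P)]
      rfl) hC hj

theorem sg_zero {r : ℕ} (hr : finrank ℝ E = l + 1 + 2 * r) :
    sg G P 0 = algebraMap ℝ (Hb G.R G.map_R) r := by
  have h1 : sZ G P 0 = algebraMap ℝ (H584.Bas G.R G.map_R) r := by
    refine Subtype.ext ?_
    change sF 0 (Hm G P) = _
    rw [sF_zero, trace_Hm G P hr]
    rfl
  rw [sg, h1, AlgHom.commutes]

/-- the plane and its first two vectors -/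
theorem cPF_even (j : ℕ) : cPF G P (2 * j) = (2 : ℝ) • yc G P ^ (2 * j) + cQF G P (2 * j) := by
  have h1 : cPF G P (2 * j) = qm G.R G.map_R ((rb_lF G P).cl G.map_R (2 * j)) +
      cQF G P (2 * j) :=
    RB.cl_add (rb_lF G P) (rb_qF G P) (rb_pF G P) (fun p => by rw [qF]; abel)
      (lF_qF P) (qF_lF P) _
  have h2 := (rb_lF G P).cl_conj (hΦ := G.map_R) (sm_Lm P) (Lm_idem P) (Lm_R G P) (Lm_conj P)
    (fun p => (Lm_add P p).symm) (j := j) (s := yc G P ^ (2 * j)) (by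
      have h3 := (ib_Lm G P).qc_rankOne (rankOne_cM (sm_Lm P) (Lm_idem P) (trace_Lm P)) (2 * j)
      rw [qc_Lm, ← Cx.of_pow'] at h3
      exact h3)
  rw [h1, h2]

include G in
theorem trace_qF {r : ℕ} (hr : l + 1 = r + 2) (p : Pr e D) : trace (qF P p) = r := by
  have h1 : trace (pF P p) = (l : ℝ) + 1 := trace_mat_prP G.F G.hD G.hB G.hP P p.v
  rw [qF, Matrix.trace_sub, trace_lF, h1]
  have h2 : (l : ℝ) + 1 = r + 2 := by exact_mod_cast hr
  rw [h2]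
  ring

theorem cQF_odd {k : ℕ} (hk : Odd k) : cQF G P k = 0 := by
  rw [cQF, (rb_qF G P).cl_odd hk, map_zero]

theorem topQ {r : ℕ} (hr : l + 1 = r + 2) {C : ℕ → Hb G.R G.map_R}
    (hC : NewtonRec ℝ (cQF G P) C) {j : ℕ} (hj : r < j) : C j = 0 :=
  (rb_qF G P).top (trace_qF G P hr) hC hj

end Geom

end

end Vale.Agent.P231.S3C
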