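import Vale.Agent.P231.S3C.RBun
import Vale.Agent.P231.A3.Rel
import Vale.Agent.P231.S2T.Deg

/-!
# P231, stage 3, S3-C (R): cancellation of the class of the connection form (Gysin sequence)
-/

set_option maxSynthPendingDepth 3
set_option linter.unusedSectionVars false
set_option linter.unusedVariables false

open Bundle Manifold Set Filter Module Matrix
open scoped ContDiff Manifold Topology

namespace Vale.Agent.P231.S3C

noncomputable section

open Vale.Agent.P231.Fm Vale.Agent.P231.W Vale.Agent.P231.ChW H584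

section

variable {X : Type*} {D : Dif X} {T : ℝ} {Φ : X × ℝ → X} (h : IsFlow D T Φ) {α : Form D}

theorem J_alpha (hα : Form.pull Φ h.map α = pr α + dt) : J Φ h.map T α = T • 1 := by
  rw [J_def, hα, KT_add, KT_pr, KT_dt, zero_add]

/-- **cancellation** -/
theorem cancel_form (hT : T ≠ 0) (hα : Form.pull Φ h.map α = pr α + dt) (hαo : α.sg = -α) {k : ℕ}
    {w u : Form D} (hw : Basic Φ h.map w) (hwd : w.d = 0) (hdeg : Form.IsDeg k w)
    (hu : Basic Φ h.map u) (hwu : α.d * w = u.d)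
    (H : ∀ v : Form D, Form.IsDeg (k + 1) v → v.d = 0 → ∃ η : Form D, v = η.d) :
    ∃ ρ : Form D, Basic Φ h.map ρ ∧ w = ρ.d := by
  have h1 : (α * w - u).d = 0 := by
    rw [Form.d_sub, Form.d_mul, hwd, mul_zero, add_zero, hwu, sub_self]
  obtain ⟨η, hη⟩ := H (Form.part (k + 1) (α * w - u)) (Form.isDeg_part _ _) (by
    rw [← Form.part_succ_d, h1, Form.part_zero'])
  have h2 : J Φ h.map T (α * w - u) = T • w := by
    rw [J_sub, J_mul_basic T α hw, J_alpha h hα, J_of_basic T hu, sub_zero, smul_mul_assoc,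
      one_mul]
  have h3 : T • w = -(J Φ h.map T η).d := by
    rw [← J_d h, ← hη, ← WA.part_J, h2, Form.part_smul, hdeg.part_eq]
  refine ⟨-(T⁻¹ • J Φ h.map T η), Basic.neg (Basic.smul _ (J_basic h _)), ?_⟩
  rw [Form.d_neg, Form.d_smul, ← smul_neg, ← h3, smul_smul, inv_mul_cancel₀ hT, one_smul]

end

/-! ### homogeneous classes -/

section Hom

variable {X : Type*} {D : Dif X} {Φ : X × ℝ → X} {hΦ : (D.prod (Dif.lin ℝ)).Map D Φ}

/-- homogeneous classes -/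
def Hm' (Φ : X × ℝ → X) (hΦ : (D.prod (Dif.lin ℝ)).Map D Φ) (k : ℕ) : Submodule ℝ (Hb Φ hΦ) where
  carrier := {a | ∃ w : H584.Bas Φ hΦ, Form.IsDeg k (w : Form D) ∧ qm Φ hΦ w = a}
  zero_mem' := ⟨0, Form.IsDeg.zero k, map_zero (ChW.qm Φ hΦ)⟩
  add_mem' := by
    rintro _ _ ⟨w, hw, rfl⟩ ⟨v, hv, rfl⟩
    exact ⟨w + v, hw.add hv, map_add (ChW.qm Φ hΦ) w v⟩
  smul_mem' := by
    rintro c _ ⟨w, hw, rfl⟩
    exact ⟨c • w, hw.smul c, map_smul (ChW.qm Φ hΦ) c w⟩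

theorem Hm'.mul {j k : ℕ} {a b : Hb Φ hΦ} (ha : a ∈ Hm' Φ hΦ j) (hb : b ∈ Hm' Φ hΦ k) :
    a * b ∈ Hm' Φ hΦ (j + k) := by
  obtain ⟨w, hw, rfl⟩ := ha
  obtain ⟨v, hv, rfl⟩ := hb
  exact ⟨w * v, hw.mul hv, map_mul (ChW.qm Φ hΦ) w v⟩

theorem Hm'.pow {j : ℕ} {a : Hb Φ hΦ} (ha : a ∈ Hm' Φ hΦ j) (n : ℕ) :
    a ^ n ∈ Hm' Φ hΦ (j * n) := by
  obtain ⟨w, hw, rfl⟩ := ha
  exact ⟨w ^ n, hw.pow n, map_pow (ChW.qm Φ hΦ) w n⟩

theorem Hm'.qm {k : ℕ} (w : H584.Bas Φ hΦ) (hw : Form.IsDeg k (w : Form D)) :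
    ChW.qm Φ hΦ w ∈ Hm' Φ hΦ k := ⟨w, hw, rfl⟩

end Hom

open Vale.Agent.P234 Vale.Agent.P231 Vale.Agent.P231.WR Vale.Agent.P231.X3 Vale.Agent.P231.S2T

variable {E : Type*} [NormedAddCommGroup E] [NormedSpace ℝ E] [FiniteDimensional ℝ E]
  {M : Type*} [MetricSpace M] [ChartedSpace E M] [IsManifold 𝓘(ℝ, E) ∞ M]
  [RiemannianBundle (fun x : M => TangentSpace 𝓘(ℝ, E) x)]
  [IsContMDiffRiemannianBundle 𝓘(ℝ, E) ∞ E (fun x : M => TangentSpace 𝓘(ℝ, E) x)]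
  [CompactSpace M] [ConnectedSpace M] [IsRiemannianManifold 𝓘(ℝ, E) M]
  {e : ∀ x : M, TangentSpace 𝓘(ℝ, E) x → M} {K : ℕ} {D : ℝ} {l : ℕ}

section Geom

variable (G : Geo e D l) (P : PF E M K)

theorem isDeg_nu : Form.IsDeg 1 (nu e D P) := by
  have h1 : ∀ s : Finset (Fin K), Form.IsDeg 1
      (∑ i ∈ s, X3.fr _ (sm_ww P i) * (X3.fr _ (sm_vv P i)).d : Form (dPr e D)) := by
    intro s
    classical
    induction s using Finset.induction_on with
    | empty =>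
      rw [Finset.sum_empty]
      exact Form.IsDeg.zero 1
    | insert a s ha ih =>
      rw [Finset.sum_insert ha]
      have h2 : Form.IsDeg (0 + (0 + 1)) (X3.fr _ (sm_ww P a) * (X3.fr _ (sm_vv P a)).d :
          Form (dPr e D)) :=
        (isDeg_fr _ (sm_ww P a)).mul (isDeg_fr _ (sm_vv P a)).d
      rw [zero_add] at h2
      exact h2.add ih
  exact h1 Finset.univ

theorem yc_mem : yc G P ∈ Hm' G.R G.map_R 2 :=
  Hm'.qm _ ((isDeg_nu P).d.smul _)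

theorem isDeg_sZ (k : ℕ) : Form.IsDeg (2 * k) (sZ G P k : Form (dPr e D)) :=
  isDeg_sF (degM_cM _) k

theorem sg_mem (k : ℕ) : sg G P k ∈ Hm' G.R G.map_R (2 * k) := Hm'.qm _ (isDeg_sZ G P k)

/-- **cancellation of `y`** -/
theorem cancel {k : ℕ} {a : Hb G.R G.map_R} (ha : a ∈ Hm' G.R G.map_R k)
    (H : ∀ v : Form (dPr e D), Form.IsDeg (k + 1) v → v.d = 0 →
      ∃ η : Form (dPr e D), v = η.d) (h : yc G P * a = 0) : a = 0 := by
  obtain ⟨w, hw, rfl⟩ := ha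
  have hpi := Real.pi_pos
  have h1 : qm G.R G.map_R (yB G P * w) = qm G.R G.map_R 0 := by
    rw [map_mul, map_zero]
    exact h
  obtain ⟨u, hu, hu'⟩ := quot_eq G.R G.map_R h1
  have h2 : (nu e D P).d * (w : Form (dPr e D)) = ((-(2 * Real.pi)) • u).d := by
    have h3 : ((yB G P * w : H584.Bas G.R G.map_R) : Form (dPr e D)) =
        (-(1 / (2 * Real.pi)) • (nu e D P).d) * w := rfl
    rw [h3] at hu'
    have h4 : ((0 : H584.Bas G.R G.map_R) : Form (dPr e D)) = 0 := rfl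
    rw [h4, zero_add, smul_mul_assoc] at hu'
    rw [Form.d_smul, ← hu', smul_smul]
    have h5 : -(2 * Real.pi) * -(1 / (2 * Real.pi)) = 1 := by field_simp
    rw [h5, one_smul]
  obtain ⟨ρ, hρ, hwρ⟩ := cancel_form G.isFlow_R (by positivity) (nu_R G P) (nu_sg P)
    w.2.2.2 w.2.2.1 hw (Basic.smul _ hu) h2 H
  rw [← map_zero (qm G.R G.map_R)]
  refine qm_eq_of hρ ?_
  change (w : Form (dPr e D)) - 0 = ρ.d
  rw [sub_zero, hwρ]

end Geom

end

end Vale.Agent.P231.S3C
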