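import Vale.Agent.P231.Fm.Ext
import Mathlib

/-!
# P231, stage 3, S3-C (R): linear algebra of the forms on the Stiefel manifold `V₂(ℝ⁸)`
-/

set_option linter.unusedSectionVars false
set_option linter.unusedVariables false

open Set Module Filter Topology MeasureTheory
open scoped ContDiff

namespace Vale.Agent.P231.S3C

noncomputable section

open Vale.Agent.P231.Fm

variable {X : Type*} [NormedAddCommGroup X] [NormedSpace ℝ X] [FiniteDimensional ℝ X]

/-- the product of one-forms -/
def pw {n : ℕ} (γ : Fin n → (X →L[ℝ] ℝ)) : Lam X := (List.ofFn fun i => dx (γ i)).prod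

theorem pw_zero (γ : Fin 0 → (X →L[ℝ] ℝ)) : pw γ = 1 := by
  simp [pw]

theorem pw_succ {n : ℕ} (γ : Fin (n + 1) → (X →L[ℝ] ℝ)) :
    pw γ = dx (γ 0) * pw fun i => γ i.succ := by
  simp [pw, List.ofFn_succ]

/-- the product of the pairs -/
def qw {n : ℕ} (α β : Fin n → (X →L[ℝ] ℝ)) : Lam X :=
  (List.ofFn fun i => dx (α i) * dx (β i)).prod

theorem qw_zero (α β : Fin 0 → (X →L[ℝ] ℝ)) : qw α β = 1 := by
  simp [qw]

theorem qw_succ {n : ℕ} (α β : Fin (n + 1) → (X →L[ℝ] ℝ)) :
    qw α β = dx (α 0) * dx (β 0) * qw (fun i => α i.succ) fun i => β i.succ := by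
  simp [qw, List.ofFn_succ]

theorem pw_dx {n : ℕ} (γ : Fin n → (X →L[ℝ] ℝ)) (a : X →L[ℝ] ℝ) :
    pw γ * dx a = (-1 : ℝ) ^ n • (dx a * pw γ) := by
  induction n with
  | zero => rw [pw_zero, one_mul, mul_one, pow_zero, one_smul]
  | succ n ih =>
    rw [pw_succ, mul_assoc, ih, mul_smul_comm, ← mul_assoc, dx_anticomm (γ 0) a, neg_mul,
      mul_assoc, pow_succ, mul_neg_one, neg_smul, smul_neg]

/-- the sign of the reordering -/
def sgr : ℕ → ℝ
  | 0 => 1
  | n + 1 => (-1) ^ n * sgr n

theorem pw_mul {n : ℕ} (γ δ : Fin n → (X →L[ℝ] ℝ)) : pw γ * pw δ = sgr n • qw γ δ := by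
  induction n with
  | zero => rw [pw_zero, pw_zero, qw_zero, sgr, one_smul, mul_one]
  | succ n ih =>
    rw [pw_succ, pw_succ δ, qw_succ, sgr, mul_assoc, ← mul_assoc (pw _), pw_dx, smul_mul_assoc,
      mul_assoc (dx (δ 0)), ih, mul_smul_comm, mul_smul_comm, mul_smul_comm, smul_smul,
      mul_assoc (dx (γ 0))]

theorem dx_rot (a b : X →L[ℝ] ℝ) (c s c' s' : ℝ) :
    dx (c • a + s • b) * dx (c' • a + s' • b) = (c * s' - s * c') • (dx a * dx b) := by
  rw [map_add, map_add, map_smul, map_smul, map_smul, map_smul, add_mul, mul_add, mul_add,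
    smul_mul_smul_comm, smul_mul_smul_comm, smul_mul_smul_comm, smul_mul_smul_comm, dx_mul_self,
    dx_mul_self, dx_anticomm b a, smul_zero, smul_zero, zero_add, add_zero, smul_neg, sub_smul]
  abel

theorem qw_rot {n : ℕ} (α β : Fin n → (X →L[ℝ] ℝ)) (c s c' s' : ℝ) :
    qw (fun i => c • α i + s • β i) (fun i => c' • α i + s' • β i) =
      (c * s' - s * c') ^ n • qw α β := by
  induction n with
  | zero => rw [qw_zero, qw_zero, pow_zero, one_smul]
  | succ n ih =>
    rw [qw_succ, qw_succ, ih, dx_rot, smul_mul_smul_comm, pow_succ']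

/-- the sum of the pairs -/
def ho {n : ℕ} (α β : Fin n → (X →L[ℝ] ℝ)) : Lam X := ∑ i, dx (β i) * dx (α i)

theorem even_comm2 (a b : X →L[ℝ] ℝ) (c d : X →L[ℝ] ℝ) :
    dx a * dx b * (dx c * dx d) = dx c * dx d * (dx a * dx b) := by
  have h1 : dx b * dx c = -(dx c * dx b) := dx_anticomm b c
  have h2 : dx b * dx d = -(dx d * dx b) := dx_anticomm b d
  have h3 : dx a * dx c = -(dx c * dx a) := dx_anticomm a c
  have h4 : dx a * dx d = -(dx d * dx a) := dx_anticomm a d
  calc dx a * dx b * (dx c * dx d) = dx a * (dx b * dx c) * dx d := by noncomm_ring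
    _ = -((dx a * dx c) * (dx b * dx d)) := by rw [h1]; noncomm_ring
    _ = -(dx c * (dx a * dx d) * dx b) := by rw [h2, h3]; noncomm_ring
    _ = dx c * dx d * (dx a * dx b) := by rw [h4]; noncomm_ring

theorem comm_ho {n : ℕ} (a b : X →L[ℝ] ℝ) (α β : Fin n → (X →L[ℝ] ℝ)) :
    dx a * dx b * ho α β = ho α β * (dx a * dx b) := by
  rw [ho, Finset.mul_sum, Finset.sum_mul]
  exact Finset.sum_congr rfl fun i _ => even_comm2 _ _ _ _

theorem pair_sq (a b : X →L[ℝ] ℝ) : dx a * dx b * (dx a * dx b) = 0 := by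
  have h : dx b * dx a = -(dx a * dx b) := dx_anticomm b a
  calc dx a * dx b * (dx a * dx b) = dx a * (dx b * dx a) * dx b := by noncomm_ring
    _ = -((dx a * dx a) * (dx b * dx b)) := by rw [h]; noncomm_ring
    _ = 0 := by rw [dx_mul_self, zero_mul, neg_zero]

theorem add_pow_sq {R : Type*} [Ring R] {c S : R} (h : c * S = S * c) (h2 : c * c = 0) (k : ℕ) :
    (c + S) ^ (k + 1) = S ^ (k + 1) + (k + 1) • (c * S ^ k) := by
  induction k with
  | zero => simp [add_comm]
  | succ k ih =>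
    have h3 : c * S ^ (k + 1) = S ^ (k + 1) * c := ((Commute.pow_right (show Commute c S from h) _))
    rw [pow_succ', ih, add_mul, mul_add, mul_add, mul_smul_comm, mul_smul_comm, ← mul_assoc c c,
      h2, zero_mul, smul_zero, add_zero, ← mul_assoc S c, ← h, mul_assoc c S, ← pow_succ' S,
      ← pow_succ' S, add_comm (c * S ^ (k + 1)), add_assoc, add_smul (k + 1) 1, one_smul]

theorem ho_succ {n : ℕ} (α β : Fin (n + 1) → (X →L[ℝ] ℝ)) :
    ho α β = dx (β 0) * dx (α 0) + ho (fun i => α i.succ) fun i => β i.succ := by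
  rw [ho, Fin.sum_univ_succ]
  rfl

theorem ho_pow {n : ℕ} (α β : Fin n → (X →L[ℝ] ℝ)) :
    ho α β ^ n = ((n.factorial : ℝ) * (-1) ^ n) • qw α β ∧ ho α β ^ (n + 1) = 0 := by
  induction n with
  | zero =>
    refine ⟨by rw [pow_zero, qw_zero]; simp, ?_⟩
    rw [ho, pow_one]
    simp
  | succ n ih =>
    obtain ⟨h1, h2⟩ := ih (fun i => α i.succ) fun i => β i.succ
    have hc := comm_ho (β 0) (α 0) (fun i => α i.succ) fun i => β i.succ
    have hs := pair_sq (β 0) (α 0)
    have h3 : dx (β 0) * dx (α 0) = -(dx (α 0) * dx (β 0)) := dx_anticomm _ _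
    constructor
    · rw [ho_succ, add_pow_sq hc hs, h2, zero_add, h1, qw_succ, mul_smul_comm, h3, neg_mul,
        smul_neg, ← Nat.cast_smul_eq_nsmul ℝ, ← neg_smul, smul_smul]
      congr 1
      rw [Nat.factorial_succ, pow_succ]
      push_cast
      ring
    · rw [ho_succ, add_pow_sq hc hs, pow_succ (ho _ _) (n + 1), h2, zero_mul, mul_zero,
        smul_zero, add_zero]

/-! ### the integral -/

theorem continuous_pw {n : ℕ} (α β : Fin n → (X →L[ℝ] ℝ)) :
    Continuous fun t : ℝ => pw (fun i => Real.cos t • α i + Real.sin t • β i) := by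
  induction n with
  | zero =>
    simp only [pw_zero]
    exact continuous_const
  | succ n ih =>
    simp only [pw_succ]
    have h1 : Continuous fun t : ℝ => dx (Real.cos t • α 0 + Real.sin t • β 0) :=
      (dx (E := X)).continuous.comp (by fun_prop)
    exact h1.mul (ih (fun i => α i.succ) fun i => β i.succ)

theorem int_sin_six (t : ℝ) :
    ∫ s in (0 : ℝ)..(2 * Real.pi), Real.sin (s - t) ^ 6 = 5 * Real.pi / 8 := by
  have hp : Function.Periodic (fun s => Real.sin (s - t) ^ 6) (2 * Real.pi) := fun s => by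
    have h1 : s + 2 * Real.pi - t = s - t + 2 * Real.pi := by ring
    simp only [h1, Real.sin_add_two_pi]
  have h1 := hp.intervalIntegral_add_eq 0 t
  rw [zero_add] at h1
  rw [h1, intervalIntegral.integral_comp_sub_right (fun s => Real.sin s ^ 6) t, sub_self]
  have h2 : t + 2 * Real.pi - t = 2 * Real.pi := by ring
  have k6 := integral_sin_pow (a := 0) (b := 2 * Real.pi) 4
  have k4 := integral_sin_pow (a := 0) (b := 2 * Real.pi) 2
  have k2 := integral_sin_pow (a := 0) (b := 2 * Real.pi) 0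
  simp only [Nat.reduceAdd, zero_add, Real.sin_zero, Real.sin_two_pi, pow_zero,
    intervalIntegral.integral_const, sub_zero, smul_eq_mul] at k2 k4 k6
  rw [h2, k6, k4, k2]
  norm_num
  ring

/-- **the square of the mean value** -/
theorem int_pw_sq (α β : Fin 6 → (X →L[ℝ] ℝ)) :
    (∫ t in (0 : ℝ)..(2 * Real.pi), pw fun i => Real.cos t • α i + Real.sin t • β i) *
      (∫ t in (0 : ℝ)..(2 * Real.pi), pw fun i => Real.cos t • α i + Real.sin t • β i) =
      (-(5 * Real.pi ^ 2 / 4)) • qw α β := by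
  set P : ℝ → Lam X := fun t => pw fun i => Real.cos t • α i + Real.sin t • β i with hP
  have hc : Continuous P := continuous_pw α β
  have hi : IntervalIntegrable P volume 0 (2 * Real.pi) := hc.intervalIntegrable _ _
  set z := ∫ t in (0 : ℝ)..(2 * Real.pi), P t with hz
  have h1 : ∀ t s, P t * P s = (-(Real.sin (s - t) ^ 6)) • qw α β := by
    intro t s
    rw [hP]
    simp only
    rw [pw_mul, qw_rot, smul_smul]
    congr 1
    rw [Real.sin_sub]
    simp only [sgr]
    ring
  have h2 : ∀ t, P t * z = (-(5 * Real.pi / 8)) • qw α β := by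
    intro t
    have h3 := ContinuousLinearMap.intervalIntegral_comp_comm
      (ContinuousLinearMap.mul ℝ (Lam X) (P t)) hi
    have h4 : P t * z = ∫ s in (0 : ℝ)..(2 * Real.pi), P t * P s := h3.symm
    rw [h4]
    simp only [h1]
    rw [intervalIntegral.integral_smul_const, intervalIntegral.integral_neg, int_sin_six]
  have h5 := ContinuousLinearMap.intervalIntegral_comp_comm
      ((ContinuousLinearMap.mul ℝ (Lam X)).flip z) hi
  have h6 : z * z = ∫ t in (0 : ℝ)..(2 * Real.pi), P t * z := h5.symm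
  rw [h6]
  simp only [h2]
  rw [intervalIntegral.integral_const, smul_smul]
  congr 1
  ring

/-- **`z² = -y⁶`** -/
theorem int_pw_ho (α β : Fin 6 → (X →L[ℝ] ℝ)) :
    (∫ t in (0 : ℝ)..(2 * Real.pi), pw fun i => Real.cos t • α i + Real.sin t • β i) *
      (∫ t in (0 : ℝ)..(2 * Real.pi), pw fun i => Real.cos t • α i + Real.sin t • β i) =
      (-(Real.pi ^ 2 / 576)) • ho α β ^ 6 := by
  rw [int_pw_sq, (ho_pow α β).1, smul_smul]
  congr 1
  have h1 : (Nat.factorial 6 : ℝ) = 720 := by norm_num [Nat.factorial]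
  rw [h1]
  ring

end

end Vale.Agent.P231.S3C
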