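import Vale.Agent.P231.S2X.Fib2
import Vale.Agent.P231.S3C.RLin
import Vale.Agent.P231.CoZ.Val

/-!
# P231, stage 3, S3-C (R): the forms `b₀` and `dν` on the fibre over a pair `(p, q)`
-/

set_option maxSynthPendingDepth 3
set_option linter.unusedSectionVars false
set_option linter.unusedVariables false

open Bundle Manifold Set Filter Module Matrix
open scoped ContDiff Manifold Topology

namespace Vale.Agent.P231.S3C

noncomputable section

open Vale.Agent.P234 Vale.Agent.P231 Vale.Agent.P231.Fm Vale.Agent.P231.W Vale.Agent.P231.WR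
open Vale.Agent.P231.S2X

/-! ### linear algebra -/

section Lin

variable {T : Type*} [NormedAddCommGroup T] [InnerProductSpace ℝ T] [FiniteDimensional ℝ T]
  {X : Type} [NormedAddCommGroup X] [NormedSpace ℝ X] [FiniteDimensional ℝ X]

theorem pull_pw {V W : Type*} [NormedAddCommGroup V] [NormedSpace ℝ V] [FiniteDimensional ℝ V]
    [NormedAddCommGroup W] [NormedSpace ℝ W] [FiniteDimensional ℝ W] (L : V →L[ℝ] W) {n : ℕ}
    (γ : Fin n → (W →L[ℝ] ℝ)) : Fm.pull L (pw γ) = pw fun i => (γ i).comp L := by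
  induction n with
  | zero => rw [pw_zero, pw_zero, map_one]
  | succ n ih => rw [pw_succ, pw_succ, map_mul, pull_dx, ih]

theorem wdg_pw {n : ℕ} (g : Fin n → T) : FE.wdg g = pw fun i => innerSL ℝ (g i) := rfl

theorem at1_rot' {n : ℕ} {g : Fin (n + 2) → T} (hg : Orthonormal ℝ g) {u w : X → T} {x : X}
    (hu : DifferentiableAt ℝ u x) (hw : DifferentiableAt ℝ w x) (hux : u x = g 0)
    (hwx : w x = g 1) (t : ℝ) :
    at1 (Fm.pull (fderiv ℝ (fun q : X × ℝ => Real.cos q.2 • u q.1 + Real.sin q.2 • w q.1) (x, t))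
      (iprod (Real.cos t • g 0 + Real.sin t • g 1) (FE.wdg g))) =
      pw fun i : Fin n => Real.cos t • al (g i.succ.succ) u x +
        Real.sin t • al (g i.succ.succ) w x := by
  have hon := orthonormal_iff_ite.1 hg
  have n1 : ∀ i : Fin n, i.succ.succ ≠ (0 : Fin (n + 2)) := fun i => Fin.succ_ne_zero _
  have n2 : ∀ i : Fin n, i.succ.succ ≠ (1 : Fin (n + 2)) := fun i h =>
    Fin.succ_ne_zero i (Fin.succ_injective _ h)
  have n3 : (1 : Fin (n + 2)) ≠ 0 := one_ne_zero
  have j0 : innerSL ℝ (g 0) (Real.cos t • g 0 + Real.sin t • g 1) = Real.cos t := by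
    rw [innerSL_apply_apply, inner_add_right, inner_smul_right, inner_smul_right, hon, hon,
      if_pos rfl, if_neg n3.symm]
    ring
  have j1 : innerSL ℝ (g 1) (Real.cos t • g 0 + Real.sin t • g 1) = Real.sin t := by
    rw [innerSL_apply_apply, inner_add_right, inner_smul_right, inner_smul_right, hon, hon,
      if_neg n3, if_pos rfl]
    ring
  have j2 : iprod (Real.cos t • g 0 + Real.sin t • g 1)
      (FE.wdg fun i : Fin n => g i.succ.succ) = 0 := by
    refine FE.iprod_wdg fun a => ?_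
    rw [inner_add_right, inner_smul_right, inner_smul_right, hon, hon, if_neg (n1 a),
      if_neg (n2 a)]
    ring
  have i0 : (inner ℝ (g 0) (-Real.sin t • u x + Real.cos t • w x) : ℝ) = -Real.sin t := by
    rw [hux, hwx, inner_add_right, inner_smul_right, inner_smul_right, hon, hon, if_pos rfl,
      if_neg n3.symm]
    ring
  have i1 : (inner ℝ (g 1) (-Real.sin t • u x + Real.cos t • w x) : ℝ) = Real.cos t := by
    rw [hux, hwx, inner_add_right, inner_smul_right, inner_smul_right, hon, hon,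
      if_neg n3, if_pos rfl]
    ring
  have i2 : ∀ i : Fin n, (inner ℝ (g i.succ.succ)
      (-Real.sin t • u x + Real.cos t • w x) : ℝ) = 0 := by
    intro i
    rw [hux, hwx, inner_add_right, inner_smul_right, inner_smul_right, hon, hon,
      if_neg (n1 i), if_neg (n2 i)]
    ring
  have e2 : ∀ i : Fin n, (innerSL ℝ (g i.succ.succ)).comp (fderiv ℝ
      (fun q : X × ℝ => Real.cos q.2 • u q.1 + Real.sin q.2 • w q.1) (x, t)) =
      (Real.cos t • al (g i.succ.succ) u x + Real.sin t • al (g i.succ.succ) w x).comp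
      (ContinuousLinearMap.fst ℝ X ℝ) := by
    intro i
    rw [al_rot (g i.succ.succ) hu hw t, i2, zero_smul, add_zero]
  have e3 : Fm.pull (fderiv ℝ
      (fun q : X × ℝ => Real.cos q.2 • u q.1 + Real.sin q.2 • w q.1) (x, t))
      (FE.wdg fun i : Fin n => g i.succ.succ) = Fm.pull (ContinuousLinearMap.fst ℝ X ℝ)
        (pw fun i : Fin n => Real.cos t • al (g i.succ.succ) u x +
        Real.sin t • al (g i.succ.succ) w x) := by
    rw [wdg_pw, pull_pw, pull_pw]
    simp only [e2]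
  have hw2 : FE.wdg g = dx (innerSL ℝ (g 0)) * (dx (innerSL ℝ (g 1)) *
      FE.wdg fun i : Fin n => g i.succ.succ) := by
    rw [FE.wdg_succ, FE.wdg_succ]
    rfl
  rw [hw2, iprod_dx_mul, iprod_dx_mul, j0, j1, j2, mul_zero, sub_zero, mul_smul_comm, map_sub,
    map_smul, map_smul, map_mul, map_mul, pull_dx, pull_dx, e3, map_sub, map_smul, map_smul,
    WR.at1_dx_mul_fst, WR.at1_dx_mul_fst, al_rot (g 0) hu hw t, al_rot (g 1) hu hw t, i0, i1]
  simp only [_root_.add_apply, ContinuousLinearMap.comp_apply,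
    ContinuousLinearMap.coe_fst', map_zero, zero_add, _root_.smul_apply,
    ContinuousLinearMap.coe_snd', smul_eq_mul, mul_one]
  rw [smul_smul, smul_smul, ← sub_smul]
  have h1 : Real.cos t * Real.cos t - Real.sin t * -Real.sin t = 1 := by
    have := Real.cos_sq_add_sin_sq t
    linear_combination this
  rw [h1, one_smul]

theorem al_exp' {n : ℕ} {g : Fin n → T} {u : X → T} {x : X} (hu : DifferentiableAt ℝ u x)
    (hsp : ∀ᶠ s in 𝓝 x, u s = ∑ m, (inner ℝ (g m) (u s) : ℝ) • g m) (a : T) :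
    al a u x = ∑ m, (inner ℝ a (g m) : ℝ) • al (g m) u x := by
  have h1 : HasFDerivAt (fun s => ∑ m, (inner ℝ (g m) (u s) : ℝ) • g m)
      (∑ m, ((innerSL ℝ (g m)).comp (fderiv ℝ u x)).smulRight (g m)) x := by
    refine HasFDerivAt.fun_sum fun m _ => ?_
    exact (((innerSL ℝ (g m)).hasFDerivAt).comp x hu.hasFDerivAt).smul_const (g m)
  have h2 := (h1.congr_of_eventuallyEq hsp).fderiv
  ext h
  rw [al_apply, h2]
  simp only [_root_.sum_apply, ContinuousLinearMap.smulRight_apply, inner_sum,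
    inner_smul_right, _root_.smul_apply, smul_eq_mul]
  refine Finset.sum_congr rfl fun m _ => ?_
  rw [mul_comm]
  rfl

theorem parseval_sum' {K n : ℕ} {Xi : Fin K → T}
    (hP : ∀ ξ : T, ∑ i, (inner ℝ (Xi i) ξ : ℝ) • Xi i = ξ)
    {g : Fin n → T} (hg : Orthonormal ℝ g) (a b : Fin n → (X →L[ℝ] ℝ)) :
    ∑ i, dx (∑ m, (inner ℝ (Xi i) (g m) : ℝ) • a m) * dx (∑ m, (inner ℝ (Xi i) (g m) : ℝ) • b m) =
      ∑ m, dx (a m) * dx (b m) := by
  have hon := orthonormal_iff_ite.1 hg
  have h0 : ∀ m n, ∑ i, (inner ℝ (Xi i) (g m) : ℝ) * (inner ℝ (Xi i) (g n) : ℝ) =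
      if m = n then 1 else 0 := by
    intro m n
    rw [← hon m n]
    conv_rhs => rw [← hP (g n), inner_sum]
    refine Finset.sum_congr rfl fun i _ => ?_
    rw [inner_smul_right, real_inner_comm (Xi i) (g m), mul_comm]
  have h1 : ∀ i, dx (∑ m, (inner ℝ (Xi i) (g m) : ℝ) • a m) *
      dx (∑ m, (inner ℝ (Xi i) (g m) : ℝ) • b m) =
      ∑ m, ∑ n, ((inner ℝ (Xi i) (g m) : ℝ) * (inner ℝ (Xi i) (g n) : ℝ)) •
        (dx (a m) * dx (b n)) := by
    intro i
    rw [map_sum, map_sum, Finset.sum_mul_sum]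
    refine Finset.sum_congr rfl fun m _ => Finset.sum_congr rfl fun n _ => ?_
    rw [map_smul, map_smul, smul_mul_smul_comm]
  simp only [h1]
  rw [Finset.sum_comm]
  refine Finset.sum_congr rfl fun m _ => ?_
  rw [Finset.sum_comm, Finset.sum_eq_single m]
  · rw [← Finset.sum_smul, h0, if_pos rfl, one_smul]
  · intro n _ hn
    rw [← Finset.sum_smul, h0, if_neg (Ne.symm hn), zero_smul]
  · intro h
    exact absurd (Finset.mem_univ m) h

/-- the derivative of a unit vector is orthogonal to it -/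
theorem al_self {u : X → T} {x : X} (hu : DifferentiableAt ℝ u x)
    (h1 : ∀ᶠ s in 𝓝 x, ‖u s‖ = 1) : al (u x) u x = 0 := by
  have h2 : HasFDerivAt (fun s => (inner ℝ (u s) (u s) : ℝ))
      ((fderivInnerCLM ℝ (u x, u x)).comp ((fderiv ℝ u x).prod (fderiv ℝ u x))) x :=
    hu.hasFDerivAt.inner ℝ hu.hasFDerivAt
  have h3 : HasFDerivAt (fun s => (inner ℝ (u s) (u s) : ℝ)) (0 : X →L[ℝ] ℝ) x := by
    refine (hasFDerivAt_const (1 : ℝ) x).congr_of_eventuallyEq ?_
    filter_upwards [h1] with s hs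
    rw [real_inner_self_eq_norm_sq, hs, one_pow]
  have h4 := h2.unique h3
  ext h
  have h5 := congrArg (fun L : X →L[ℝ] ℝ => L h) h4
  simp only [ContinuousLinearMap.comp_apply, ContinuousLinearMap.prod_apply,
    fderivInnerCLM_apply, _root_.zero_apply] at h5
  rw [al_apply, _root_.zero_apply]
  rw [real_inner_comm (u x) (fderiv ℝ u x h)] at h5
  linarith

/-- **the curvature of the line of `u`, `w` in terms of a frame** -/
theorem curv' {K n : ℕ} {Xi : Fin K → T}
    (hP : ∀ ξ : T, ∑ i, (inner ℝ (Xi i) ξ : ℝ) • Xi i = ξ)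
    {g : Fin (n + 2) → T} (hg : Orthonormal ℝ g) {u w : X → T} {x : X}
    (hu : DifferentiableAt ℝ u x) (hw : DifferentiableAt ℝ w x) (hux : u x = g 0)
    (hwx : w x = g 1) (h1u : ∀ᶠ s in 𝓝 x, ‖u s‖ = 1) (h1w : ∀ᶠ s in 𝓝 x, ‖w s‖ = 1)
    (hsu : ∀ᶠ s in 𝓝 x, u s = ∑ m, (inner ℝ (g m) (u s) : ℝ) • g m)
    (hsw : ∀ᶠ s in 𝓝 x, w s = ∑ m, (inner ℝ (g m) (w s) : ℝ) • g m) :
    ∑ i, dx (al (Xi i) w x) * dx (al (Xi i) u x) =
      ho (fun i : Fin n => al (g i.succ.succ) u x) fun i => al (g i.succ.succ) w x := by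
  have e1 : ∀ i, al (Xi i) w x = _ := fun i => al_exp' hw hsw (Xi i)
  have e2 : ∀ i, al (Xi i) u x = _ := fun i => al_exp' hu hsu (Xi i)
  have a0 : al (g 0) u x = 0 := by
    rw [← hux]
    exact al_self hu h1u
  have a1 : al (g 1) w x = 0 := by
    rw [← hwx]
    exact al_self hw h1w
  simp only [e1, e2]
  rw [parseval_sum' hP hg, Fin.sum_univ_succ, Fin.sum_univ_succ]
  have a1' : al (g (Fin.succ 0)) w x = 0 := a1
  rw [a0, a1', map_zero, mul_zero, zero_mul, zero_add, zero_add]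
  rfl

end Lin

/-! ### geometry -/

variable {E : Type*} [NormedAddCommGroup E] [NormedSpace ℝ E]
  {M : Type*} [MetricSpace M] [ChartedSpace E M]
  [RiemannianBundle (fun x : M => TangentSpace 𝓘(ℝ, E) x)]
  {e : ∀ x : M, TangentSpace 𝓘(ℝ, E) x → M}
  [FiniteDimensional ℝ E] [IsManifold 𝓘(ℝ, E) ∞ M]
  [IsContMDiffRiemannianBundle 𝓘(ℝ, E) ∞ E (fun x : M => TangentSpace 𝓘(ℝ, E) x)]
  [CompactSpace M] [ConnectedSpace M] [IsRiemannianManifold 𝓘(ℝ, E) M]

variable {D : ℝ} {p : M} {m : ℕ}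
  {Pi : TangentSpace 𝓘(ℝ, E) p → TangentSpace 𝓘(ℝ, E) p →L[ℝ] TangentSpace 𝓘(ℝ, E) p}
  {o : TangentSpace 𝓘(ℝ, E) p → Fm.Lam (TangentSpace 𝓘(ℝ, E) p)}
  {ρ : TangentSpace 𝓘(ℝ, E) p → ℝ} {r₀ : ℝ}

/-- **`b₀` on the fibre over `(p, q)`** -/
theorem b0P_fib' (F : Facts e) (hD : 0 < D) (hB : InjGE e D)
    (hdiam : ∀ p q : M, dist p q ≤ D)
    (hl : ∀ x y : M, dist x y = D → finrank ℝ (H775.Pl e D x y) = 2 * m + 2)
    (hJ : FE.LineP e D p m Pi o) (hρ : WE.Rho e D p ρ r₀) (a : ℝ) {q : M}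
    {X : Type} [NormedAddCommGroup X] [NormedSpace ℝ X] [FiniteDimensional ℝ X]
    {P : X → Pr e D} {u w : X → TangentSpace 𝓘(ℝ, E) p} {x : X} (h : FPl e D p q P u w x)
    {g : Fin (2 * m + 2) → TangentSpace 𝓘(ℝ, E) p} (hg : Orthonormal ℝ g) (h0 : u x = g 0)
    (h1 : w x = g 1) {ε : ℝ} (ho : o (u x) = ε • FE.wdg g) :
    (L3.b0P F hD hB hdiam (FE.FF F hD hB hdiam hl hJ hρ a)).val P x =
      (a * ((2 * m + 1).factorial : ℝ) * ε) • ∫ t in (0 : ℝ)..(2 * Real.pi),
        pw fun i : Fin (2 * m) => Real.cos t • al (g i.succ.succ) u x +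
        Real.sin t • al (g i.succ.succ) w x := by
  have hu0 : ‖u x‖ = 1 := by rw [h0]; exact hg.1 0
  have hun : u x ≠ 0 := FE.ne_zero_of_unit hu0
  have hbar : ∀ (y : M) (b : E), y = p → ∀ c : TangentSpace 𝓘(ℝ, E) p, b = c →
      e y (D • b : E) = e p (D • c) := by
    rintro y b rfl c rfl
    rfl
  have key : ∀ t : ℝ, H584.co (Form.pull (R F hD hB hdiam) (isFlow_R F hD hB hdiam).map
      (Form.pull Pr.v map_v (B0 F D (FE.FF F hD hB hdiam hl hJ hρ a)))) P x t =
      (a * ((2 * m + 1).factorial : ℝ) * ε) •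
        pw fun i : Fin (2 * m) => Real.cos t • al (g i.succ.succ) u x +
        Real.sin t • al (g i.succ.succ) w x := by
    intro t
    rw [H584.co, Form.pull_val _ _ (Form.cyl_at h.at t),
      Form.pull_val _ _ (map_R F hD hB hdiam (Form.cyl_at h.at t))]
    have hfst : Tendsto (Prod.fst : X × ℝ → X) (𝓝 (x, t)) (𝓝 x) := continuous_fst.continuousAt
    have hsu : Sm (fun q : X × ℝ => u q.1) (x, t) :=
      Sm.comp (f := u) (g := Prod.fst) (x := ((x, t) : X × ℝ)) h.su (Sm.of_contDiff contDiff_fst _)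
    have hsw : Sm (fun q : X × ℝ => w q.1) (x, t) :=
      Sm.comp (f := w) (g := Prod.fst) (x := ((x, t) : X × ℝ)) h.sw (Sm.of_contDiff contDiff_fst _)
    have hs : Sm (fun q : X × ℝ => Real.cos q.2 • u q.1 + Real.sin q.2 • w q.1) (x, t) := by
      filter_upwards [hsu, hsw] with z g1 g2
      exact ((Real.contDiff_cos.comp contDiff_snd).contDiffAt.smul g1).add
        ((Real.contDiff_sin.comp contDiff_snd).contDiffAt.smul g2)
    have hev : ∀ᶠ z in 𝓝 ((x, t) : X × ℝ),
        foot ((Pr.v ∘ R F hD hB hdiam ∘ Form.cyl P) z) = p ∧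
        (vec' ((Pr.v ∘ R F hD hB hdiam ∘ Form.cyl P) z) : E) =
          Real.cos z.2 • u z.1 + Real.sin z.2 • w z.1 := by
      filter_upwards [hfst.eventually h.ev] with z hz
      refine ⟨hz.1, ?_⟩
      change Real.cos z.2 • vec' (P z.1).v + Real.sin z.2 • vec' (P z.1).w = _
      rw [hz.2.1, hz.2.2.1]
      rfl
    have hcut : ∀ᶠ z in 𝓝 ((x, t) : X × ℝ),
        Pi (Real.cos t • u x + Real.sin t • w x) (Real.cos z.2 • u z.1 + Real.sin z.2 • w z.1) =
          Real.cos z.2 • u z.1 + Real.sin z.2 • w z.1 := by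
      have hun2 : ∀ᶠ z in 𝓝 ((x, t) : X × ℝ), ‖Real.cos z.2 • u z.1 + Real.sin z.2 • w z.1‖ = 1 ∧
          e p (D • (Real.cos z.2 • u z.1 + Real.sin z.2 • w z.1)) = q := by
        filter_upwards [hfst.eventually h.ev, hev] with z hz hz'
        constructor
        · have g1 := nm_vec' ((Pr.v ∘ R F hD hB hdiam ∘ Form.cyl P) z)
          rw [hz'.1, hz'.2] at g1
          exact g1
        · have g2 : bar e D ((Pr.v ∘ R F hD hB hdiam ∘ Form.cyl P) z) = q :=
            (bar_rv F hD hB hdiam (P z.1) z.2).trans hz.2.2.2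
          rw [← g2]
          exact (hbar _ _ hz'.1 _ hz'.2).symm
      filter_upwards [hun2] with z hz
      have g3 := hun2.self_of_nhds
      exact (hJ.cut _ _ g3.1 hz.1).1 (g3.2.trans hz.2.symm)
    have hB0 := FE.B0_fibre F hD hB hdiam hl hJ hρ a hs hev hcut
    have hU : Real.cos t • u x + Real.sin t • w x = Real.cos t • g 0 + Real.sin t • g 1 := by
      rw [h0, h1]
    have ho' : o (Real.cos t • u x + Real.sin t • w x) = ε • FE.wdg g := by
      rw [← ho]
      have g3 : ‖Real.cos t • u x + Real.sin t • w x‖ = 1 := by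
        have g1 := nm_vec' ((Pr.v ∘ R F hD hB hdiam ∘ Form.cyl P) (x, t))
        rw [hev.self_of_nhds.1, hev.self_of_nhds.2] at g1
        exact g1
      refine hJ.os.or.rel _ _ hun (FE.ne_zero_of_unit g3) ?_
      refine (hJ.cut _ _ hu0 g3).1 ?_
      have g4 := h.ev.self_of_nhds
      have g5 : e p (D • u x) = q := by
        rw [← g4.2.2.2]
        exact (hbar _ _ g4.1 _ g4.2.1).symm
      have g6 : bar e D ((Pr.v ∘ R F hD hB hdiam ∘ Form.cyl P) (x, t)) = q :=
        (bar_rv F hD hB hdiam (P x) t).trans g4.2.2.2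
      rw [g5, ← g6]
      exact hbar _ _ hev.self_of_nhds.1 _ hev.self_of_nhds.2
    refine (congrArg at1 hB0).trans ?_
    rw [ho', map_smul, map_smul, map_smul, map_smul, smul_smul, hU,
      at1_rot' hg h.su.differentiableAt h.sw.differentiableAt h0 h1 t]
  change (KT (2 * Real.pi) (Form.pull (R F hD hB hdiam) (isFlow_R F hD hB hdiam).map
      (Form.pull Pr.v map_v (B0 F D (FE.FF F hD hB hdiam hl hJ hρ a))))).val P x = _
  rw [H584.KT_val _ _ h.at]
  simp only [key]
  rw [intervalIntegral.integral_smul]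

end

end Vale.Agent.P231.S3C
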