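import Vale.Agent.P231.Co.BunPb
import Vale.Agent.P231.S2II.Fun
import Vale.Agent.P231.S2T.Dim2
import Vale.Agent.P231.WG.Bas

/-!
# P231, stage 3, S3-C (R): the functional of two successive sphere bundles at one point
-/

set_option linter.unusedSectionVars false
set_option linter.unusedVariables false

open MeasureTheory Set Module Filter Topology
open scoped ContDiff

namespace Vale.Agent.P231.S3C

open Vale.Agent.P231.Fm Vale.Agent.P231.W Vale.Agent.P231.H584 Vale.Agent.P231.Co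
open Vale.Agent.P231.Fm (Sm Dif Form Lam)

noncomputable section

variable {B S Fr : Type*} {DB : Dif B} {DS : Dif S} {DF : Dif Fr}
variable {F : Type} [NormedAddCommGroup F] [InnerProductSpace ℝ F] [FiniteDimensional ℝ F]

/-- the restriction of a sphere bundle to a subset of the base -/
theorem bun_on {π : S → B} {q : Fr → B} {ev : Fr × F → S} (h : Bun DB DS DF F π q ev)
    (C : Set B) : Bun (DB.on C) (DS.on (π ⁻¹' C)) (DF.on (q ⁻¹' C)) F π q ev where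
  hπ := fun hu => ⟨h.hπ hu.1, hu.2⟩
  hq := ⟨fun hu => ⟨h.hq.map hu.1, hu.2⟩, fun {E} _ _ _ {u x} hu => by
    obtain ⟨f, hf, hqf⟩ := h.hq.lift hu.1
    refine ⟨f, ⟨hf, ?_⟩, hqf⟩
    filter_upwards [hqf, hu.2] with y h1 h2
    have h3 : q (f y) = u y := h1
    change q (f y) ∈ C
    rw [h3]
    exact h2⟩
  hev := fun {E} _ _ _ {u x} hu => by
    have h1 : (SB DF F).At u x := ⟨⟨hu.1.1.1, hu.1.2⟩, hu.2⟩
    refine ⟨h.hev h1, ?_⟩
    filter_upwards [h.comm' h1, hu.1.1.2] with y h2 h3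
    have h4 : q (u y).1 = π (ev (u y)) := h2.symm
    change π (ev (u y)) ∈ C
    rw [← h4]
    exact h3
  comm := fun {E} _ _ _ {u x} hu => h.comm (x := x) ⟨⟨hu.1.1.1, hu.1.2⟩, hu.2⟩
  trans := fun {E} _ _ _ {f f' x} hf hf' e => h.trans hf.1 hf'.1 e
  lift := fun {E} _ _ _ {s f x} hs hf e => h.lift hs.1 hf.1 e
  inj := fun {E} _ _ _ {f x} hf ξ ξ' hξ hξ' e => h.inj hf.1 ξ ξ' hξ hξ' e

variable [MeasurableSpace F] [BorelSpace F] {m : ℕ} (o : OrthonormalBasis (Fin m) ℝ F)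

theorem SI_on {π : S → B} {q : Fr → B} {ev : Fr × F → S} (h : Bun DB DS DF F π q ev)
    (C : Set B) (w : Form DS) :
    (bun_on h C).SI o (Form.res (π ⁻¹' C) w) = Form.res C (h.SI o w) :=
  h.SI_nat o (bun_on h C) (β := id) (σ := id) (φ := id) Dif.map_on Dif.map_on Dif.map_on
    (fun {E} _ _ _ {u x} hu => EventuallyEq.rfl) (fun {E} _ _ _ {u x} hu => EventuallyEq.rfl) w

/-! ### values at points -/

section Ptv

variable {X : Type*} {D : Dif X}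

theorem ptv_add (a b : Form D) (x : X) : WF.ptv (a + b) x = WF.ptv a x + WF.ptv b x := by
  rw [WF.ptv, Form.add_val, map_add]
  rfl

theorem ptv_smul (c : ℝ) (a : Form D) (x : X) : WF.ptv (c • a) x = c * WF.ptv a x := by
  rw [WF.ptv, Form.smul_val, map_smul]
  rfl

theorem ptv_zero (x : X) : WF.ptv (0 : Form D) x = 0 := by
  rw [WF.ptv, Form.zero_val, map_zero]

theorem ptv_d (a : Form D) {x : X} (hx : D.At (fun _ : ℝ => x) 0) : WF.ptv a.d x = 0 := by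
  rw [WF.ptv, Form.d_val _ hx, extd, aug_dLin]

theorem ptv_part (a : Form D) (x : X) : WF.ptv (Form.part 0 a) x = WF.ptv a x := by
  rw [WF.ptv, Form.part_val, WA.aug_prt, if_pos rfl]
  rfl

theorem ptv_res (C : Set X) (a : Form D) {x : X} (hx : (D.on C).At (fun _ : ℝ => x) 0) :
    WF.ptv (Form.res C a) x = WF.ptv a x := by
  rw [WF.ptv, Form.res_val _ hx]
  rfl

end Ptv

/-- the diffeology of one point has dimension zero -/
theorem dimEq_pt {X : Type*} (D : Dif X) (x₀ : X)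
    (h0 : ∀ {E : Type} [NormedAddCommGroup E] [NormedSpace ℝ E] [FiniteDimensional ℝ E] (y : E),
      D.At (fun _ : E => x₀) y) : WF.DimEq (D.on {x₀}) 0 := fun {E} _ _ _ {u x} hu =>
  ⟨fun _ => x₀, fun _ => 0, Sm.of_contDiff contDiff_const _,
    ⟨h0 _, Eventually.of_forall fun _ => rfl⟩, by
      filter_upwards [hu.2] with y hy
      exact hy⟩

/-! ### two bundles -/

section Two

variable {B S₁ S₂ R₁ R₂ : Type*} {DB : Dif B} {D₁ : Dif S₁} {D₂ : Dif S₂} {E₁ : Dif R₁}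
  {E₂ : Dif R₂}
variable {F₁ : Type} [NormedAddCommGroup F₁] [InnerProductSpace ℝ F₁] [FiniteDimensional ℝ F₁]
  [MeasurableSpace F₁] [BorelSpace F₁] {m₁ : ℕ} (o₁ : OrthonormalBasis (Fin (m₁ + 1)) ℝ F₁)
variable {F₂ : Type} [NormedAddCommGroup F₂] [InnerProductSpace ℝ F₂] [FiniteDimensional ℝ F₂]
  [MeasurableSpace F₂] [BorelSpace F₂] {m₂ : ℕ} (o₂ : OrthonormalBasis (Fin (m₂ + 1)) ℝ F₂)
variable {π₁ : S₁ → B} {q₁ : R₁ → B} {ev₁ : R₁ × F₁ → S₁} (h₁ : Bun DB D₁ E₁ F₁ π₁ q₁ ev₁)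
variable {π₂ : S₂ → S₁} {q₂ : R₂ → S₁} {ev₂ : R₂ × F₂ → S₂} (h₂ : Bun D₁ D₂ E₂ F₂ π₂ q₂ ev₂)
  (b₀ : B)

/-- the integral over the fibre of `S₂ → B` at `b₀` -/
def fI : Form D₂ →ₗ[ℝ] ℝ where
  toFun w := WF.ptv (h₁.SI o₁ (h₂.SI o₂ w)) b₀
  map_add' v w := by rw [h₂.SI_add, h₁.SI_add, ptv_add]
  map_smul' c w := by
    rw [h₂.SI_smul, h₁.SI_smul, ptv_smul]
    rfl

theorem fI_apply (w : Form D₂) : fI o₁ o₂ h₁ h₂ b₀ w = WF.ptv (h₁.SI o₁ (h₂.SI o₂ w)) b₀ := rfl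

variable (hb : ∀ {E : Type} [NormedAddCommGroup E] [NormedSpace ℝ E] [FiniteDimensional ℝ E]
  (y : E), DB.At (fun _ : E => b₀) y)

include hb in
theorem fI_d (w : Form D₂) : fI o₁ o₂ h₁ h₂ b₀ w.d = 0 := by
  rw [fI_apply, h₂.SI_d, h₁.SI_smul, h₁.SI_d, ptv_smul, ptv_smul, ptv_d _ (hb 0), mul_zero,
    mul_zero]

theorem fI_part (w : Form D₂) :
    fI o₁ o₂ h₁ h₂ b₀ w = fI o₁ o₂ h₁ h₂ b₀ (Form.part (m₁ + m₂) w) := by
  rw [fI_apply, fI_apply, ← ptv_part, S2II.part_SI o₁ h₁ (j := m₁) (by omega),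
    S2II.part_SI o₂ h₂ (j := m₁ + m₂) (by omega)]

include hb in
/-- the functional only depends on the restriction to the fibre -/
theorem fI_res (w : Form D₂) : fI o₁ o₂ h₁ h₂ b₀ w =
    WF.ptv ((bun_on h₁ {b₀}).SI o₁ ((bun_on h₂ (π₁ ⁻¹' {b₀})).SI o₂
      (Form.res (π₂ ⁻¹' (π₁ ⁻¹' {b₀})) w))) b₀ := by
  have h0 : (DB.on {b₀}).At (fun _ : ℝ => b₀) 0 := ⟨hb 0, Eventually.of_forall fun _ => rfl⟩
  rw [SI_on o₂ h₂, SI_on o₁ h₁, ptv_res _ _ h0, fI_apply]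

include hb in
theorem fI_eq_zero {w : Form D₂}
    (hw : Form.res (π₂ ⁻¹' (π₁ ⁻¹' {b₀})) (Form.part (m₁ + m₂) w) = 0) :
    fI o₁ o₂ h₁ h₂ b₀ w = 0 := by
  rw [fI_part, fI_res o₁ o₂ h₁ h₂ b₀ hb, hw, Bun.SI_zero, Bun.SI_zero, ptv_zero]

include h₁ h₂ in
/-- the dimension of the fibre -/
theorem dimEq_fib (hb : ∀ {E : Type} [NormedAddCommGroup E] [NormedSpace ℝ E]
    [FiniteDimensional ℝ E] (y : E), DB.At (fun _ : E => b₀) y)
    (hF₁ : finrank ℝ F₁ = m₁ + 1) (hF₂ : finrank ℝ F₂ = m₂ + 1) :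
    WF.DimEq (D₂.on (π₂ ⁻¹' (π₁ ⁻¹' {b₀}))) (m₁ + m₂) :=
  S2T.dimEq_bun (bun_on h₂ (π₁ ⁻¹' {b₀})) hF₂ (S2T.dimEq_bun (bun_on h₁ {b₀}) hF₁ (dimEq_pt DB b₀ hb)
    (by omega : m₁ = 0 + m₁)) rfl

include hb in
/-- basic forms are killed -/
theorem fI_basic (hF₁ : finrank ℝ F₁ = m₁ + 1) (hF₂ : finrank ℝ F₂ = m₂ + 1)
    {Φ : S₂ × ℝ → S₂} (hΦ : (D₂.prod (Dif.lin ℝ)).Map D₂ Φ) (h0 : ∀ v, Φ (v, 0) = v)
    (hπ : ∀ v t, π₁ (π₂ (Φ (v, t))) = π₁ (π₂ v)) (hmv : ∀ v, WG.Moves D₂ Φ v) {w : Form D₂}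
    (hw : Basic Φ hΦ w) : fI o₁ o₂ h₁ h₂ b₀ w = 0 := by
  refine fI_eq_zero o₁ o₂ h₁ h₂ b₀ hb ?_
  set C : Set S₂ := π₂ ⁻¹' (π₁ ⁻¹' {b₀}) with hC
  have hΦC : ((D₂.on C).prod (Dif.lin ℝ)).Map (D₂.on C) Φ := fun {E} _ _ _ {u x} hu => by
    refine ⟨hΦ ⟨hu.1.1, hu.2⟩, ?_⟩
    filter_upwards [hu.1.2] with y hy
    have h1 : π₁ (π₂ (u y).1) = b₀ := hy
    change π₁ (π₂ (Φ ((u y).1, (u y).2))) = b₀
    rw [hπ, h1]
  have hmvC : ∀ v, WG.Moves (D₂.on C) Φ v := fun v => by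
    obtain ⟨f, hf, a, ha, hd⟩ := hmv v
    exact ⟨f, fun hu hv => hf hu.1 hv, a, ha, hd⟩
  refine WG.basic_top_eq_zero (dimEq_fib h₁ h₂ b₀ (fun y => hb y) hF₁ hF₂) hΦC h0 hmvC
    ((Form.isDeg_part _ w).pull _ _) ?_
  have hw' : Basic Φ hΦ (Form.part (m₁ + m₂) w) := by
    change Form.pull Φ hΦ (Form.part (m₁ + m₂) w) = pr (Form.part (m₁ + m₂) w)
    rw [← Form.part_pull, hw]
    exact Form.part_pull _ _ (Dif.map_fst (D := D₂) (D' := Dif.lin ℝ)) w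
  refine Form.ext_val fun E _ _ _ u x hu => ?_
  have hu' : (D₂.prod (Dif.lin ℝ)).At u x := ⟨hu.1.1, hu.2⟩
  have h1 := congrArg (fun a : Form (D₂.prod (Dif.lin ℝ)) => a.val u x) hw'
  simp only [pr] at h1
  rw [Form.pull_val hΦ _ hu', Form.pull_val Dif.map_fst _ hu'] at h1
  have hfst : ((D₂.on C).prod (Dif.lin ℝ)).Map (D₂.on C) Prod.fst := Dif.map_fst
  rw [Form.pull_val _ _ hu, Form.res_val _ (hΦC hu), h1]
  change _ = (Form.pull Prod.fst hfst _).val u x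
  rw [Form.pull_val _ _ hu, Form.res_val _ (hfst hu)]

end Two

end

end Vale.Agent.P231.S3C
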