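import Vale.Agent.P231.S3C.RZ0
import Vale.Agent.P231.S3C.RBun
import Vale.Agent.P231.CoZ.Val
import Vale.Agent.P231.S2T.Inst2
import Vale.Agent.P231.S2T.Tau

/-!
# P231, stage 3, S3-C (R), the space of cut pairs (2): its cohomology and the classes of the planes
-/

set_option maxSynthPendingDepth 3
set_option linter.unusedSectionVars false
set_option linter.unusedVariables false

open Bundle Manifold Set Filter Module Matrix MeasureTheory
open scoped ContDiff Manifold Topology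

namespace Vale.Agent.P231.S3C

noncomputable section

open Vale.Agent.P234 Vale.Agent.P231 Vale.Agent.P231.Fm Vale.Agent.P231.W Vale.Agent.P231.WR
  Vale.Agent.P231.ChW Vale.Agent.P231.X3 Vale.Agent.P231.S2T Vale.Agent.P231.CoZ
  Vale.Agent.P231.S2II
open Vale.Agent.P231.Fm (Sm Dif Form Lam)

variable {E : Type*} [NormedAddCommGroup E] [NormedSpace ℝ E] [FiniteDimensional ℝ E]
  {M : Type*} [MetricSpace M] [ChartedSpace E M] [IsManifold 𝓘(ℝ, E) ∞ M]
  [RiemannianBundle (fun x : M => TangentSpace 𝓘(ℝ, E) x)]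
  [IsContMDiffRiemannianBundle 𝓘(ℝ, E) ∞ E (fun x : M => TangentSpace 𝓘(ℝ, E) x)]
  [CompactSpace M] [ConnectedSpace M] [IsRiemannianManifold 𝓘(ℝ, E) M]
  {e : ∀ x : M, TangentSpace 𝓘(ℝ, E) x → M} {K : ℕ} {D : ℝ} {l : ℕ}

theorem alg_lin2 {R S : Type*} [CommRing R] [CommRing S] [Algebra ℝ R] [Algebra ℝ S]
    (φ : R →ₐ[ℝ] S) (a b : ℝ) (x y : R) : φ (a • x + b • y) = a • φ x + b • φ y := by
  rw [map_add, map_smul, map_smul]

theorem alg_lin1 {R S : Type*} [CommRing R] [CommRing S] [Algebra ℝ R] [Algebra ℝ S]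
    (φ : R →ₐ[ℝ] S) (a : ℝ) (x : R) : φ (a • x) = a • φ x := by rw [map_smul]

/-- closed functions on the unit tangent bundle are constant -/
theorem const_UT (F : Facts e) (hN : 1 < finrank ℝ E) (w : Form (dUT E M)) (hw : w.d = 0)
    (hw0 : Form.IsDeg 0 w) : ∃ c : ℝ, w = c • (1 : Form (dUT E M)) := by
  obtain ⟨a, κ, h1, h2, h3, -, h4⟩ := CoU.surj (M := M) (j := 0) (by omega) hw hw0
  obtain ⟨c, hc⟩ := CoC.const_M F a h2 h1
  refine ⟨c, ?_⟩
  rw [h3, h4 rfl, Form.d_zero, add_zero, hc, Co.pull_smul, Co.pull_one]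

section Coh

variable [NeZero l] (G : Geo e D l) (hl : Odd l) {Om : Form (dM E M)} (hO : Om.d = 0)
  (hOd : Form.IsDeg (l + 1) Om) (hne : ∀ f : Fr e D l, kfP (B0 G.F D Om) f ≠ 0)

/-- the orientation of the planes -/
theorem ornZ (G : Geo e D l) (hO : Om.d = 0) (hOd : Form.IsDeg (l + 1) Om)
    (hne : ∀ f : Fr e D l, kfP (B0 G.F D Om) f ≠ 0) : OrnZ l (B0 G.F D Om) (cZ G.F D Om) :=
  ⟨isDeg_B0 G.F hOd, by rw [B0_d G.F hO, pull_cZ], hne⟩

include hl hO hOd hne in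
/-- the sphere bundle over the space of cut pairs -/
theorem bunZ : Co.Bun (dZ e D) (dUT E M) (dFoP e D l (B0 G.F D Om)) (Eul (l + 1)) (fb e D) fq
    evP := bun_Z G.F G.hD G.hB G.hdiam G.hP (ornZ G hO hOd hne) hl

/-- the angular form over the space of cut pairs -/
theorem exists_angZ (hN : 1 < finrank ℝ E) : ∃ k : ℝ, k ≠ 0 ∧
    (bunZ G hl hO hOd hne).Ang (bas (l + 1)) (k⁻¹ • B0 G.F D Om)
      (-(k⁻¹ • cZ G.F D Om)) := by
  have hl0 := NeZero.pos l
  set h := bunZ G hl hO hOd hne with hh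
  set b : Form (dUT E M) := B0 G.F D Om with hb
  have hbZ := ornZ G hO hOd hne
  have hψd : b.d = Form.pull (fb e D) h.hπ (cZ G.F D Om) := hbZ.d
  have h0 : Form.IsDeg 0 (h.SI (bas (l + 1)) b) := h.isDeg_SI _ hbZ.deg (by omega)
  have h1 : (h.SI (bas (l + 1)) b).d = 0 := by
    have h2 := h.SI_d (bas (l + 1)) b
    rw [hψd, h.SI_pull_zero _ (by omega)] at h2
    exact (smul_eq_zero.1 h2.symm).resolve_left (pow_ne_zero _ (by norm_num))
  obtain ⟨k, hk⟩ := h.const_base (bas (l + 1)) (by omega) (const_UT G.F hN) h1 h0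
  have hk0 : k ≠ 0 := by
    rintro rfl
    obtain ⟨p⟩ : Nonempty M := inferInstance
    obtain ⟨ξ₀, hξ⟩ := CoU.exists_unit (E := E) (by omega)
    let v₀ : UT E M := W.mk p (fr (E := E) p ξ₀) (by rw [nm_fr, hξ])
    have hv₀ : (dUT E M).At (fun _ : ℝ => v₀) 0 :=
      Eventually.of_forall fun y => contMDiffAt_const
    have hu : (dZ e D).At (fun _ : ℝ => fb e D v₀) 0 := map_fb hv₀
    obtain ⟨f, hf, hfu⟩ := h.hq.lift hu
    have h2 := congrArg (fun a : Form (dFoP e D l b) => a.val f 0) (h.pull_SI (bas (l + 1)) b)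
    rw [hk, zero_smul, Co.pull_zero] at h2
    have h3 : (0 : Lam ℝ) = ((Co.si (bas (l + 1)) (Form.pull evP h.hev b)).val f 0 : Lam ℝ) := h2
    have hi : (dFoP e D l b).Map (dFr e D l) id := fun h => h.1
    have h4 := Co.si_nat (bas (l + 1)) hi
      (Form.pull evP (map_evP (e := e) (D := D) (l := l)) b)
    have h5 : Form.pull (fun q : Fr e D l × Eul (l + 1) => (id q.1, q.2)) (Co.map_SB hi)
        (Form.pull evP (map_evP (e := e) (D := D) (l := l)) b) = Form.pull evP h.hev b := by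
      refine Form.ext_val fun V _ _ _ u x hu => ?_
      rw [Form.pull_val _ _ hu, Form.pull_val _ _ (Co.map_SB hi hu), Form.pull_val _ _ hu]
      rfl
    rw [h5] at h4
    rw [h4, Form.pull_val _ _ hf] at h3
    have h6 : WF.ptv (frP b) (f 0) = aug ((frP b).val f 0) := WF.ptv_eq _ hf.1
    have h8 : kfP b (f 0) = 0 := by
      rw [kfP, h6]
      have h9 : (frP b : Form (dFr e D l)).val f 0 = 0 := h3.symm
      rw [h9, map_zero]
    exact hne _ h8
  refine ⟨k, hk0, ?_, ?_, ?_, ?_⟩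
  · rw [Form.d_smul, hψd, Co.pull_neg, Co.pull_smul, neg_neg]
  · rw [h.SI_smul, hk, smul_smul, inv_mul_cancel₀ hk0, one_smul]
  · rw [Nat.add_sub_cancel]
    exact hbZ.deg.smul _
  · exact (((hOd.pull _ _).sub (hOd.pull _ _)).smul _).neg

variable (hgen : CoC.Gen (dM E M) Om (l + 1) (finrank ℝ E - 1)) (hN : 1 < finrank ℝ E)

include G hgen in
theorem exact_UT {j : ℕ} (σ : Form (dUT E M)) (h0 : 0 < j) (hj : j < finrank ℝ E - 1)
    (hd : ¬ (l + 1) ∣ j) (hσj : Form.IsDeg j σ) (hσ : σ.d = 0) : ∃ η : Form (dUT E M), σ = η.d := by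
  obtain ⟨c, η, h1, h2⟩ := CoC.gen_UT hgen j σ hj hσ hσj
  refine ⟨η, ?_⟩
  rw [h1, h2 hd, zero_smul, zero_add]

include hl hO hOd hne hgen hN in
/-- the cohomology of the space of cut pairs below the degree `l + 1` -/
theorem Z_low {j : ℕ} (h0 : 0 < j) (hj : j < finrank ℝ E - 1) (hjl : j < l + 1)
    {w : Form (dZ e D)} (hw : w.d = 0) (hwj : Form.IsDeg j w) : ∃ γ : Form (dZ e D), w = γ.d := by
  obtain ⟨k, hk, hA⟩ := exists_angZ G hl hO hOd hne hN
  exact base_low (bunZ G hl hO hOd hne) (bas (l + 1)) (by have := NeZero.pos l; omega) hA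
    (n₀ := finrank ℝ E - 1) (fun j σ h1 h2 h3 h4 h5 => exact_UT G hgen σ h1 h2 h3 h4 h5)
    h0 hj hjl hw hwj

include hl hO hOd hne hgen hN in
/-- the cohomology of the space of cut pairs between the degrees `l + 1` and `2 l + 2` -/
theorem Z_high {j : ℕ} (hj : j < finrank ℝ E - 1) (hj1 : l + 1 < j) (hj2 : j < 2 * (l + 1))
    {w : Form (dZ e D)} (hw : w.d = 0) (hwj : Form.IsDeg j w) : ∃ γ : Form (dZ e D), w = γ.d := by
  obtain ⟨k, hk, hA⟩ := exists_angZ G hl hO hOd hne hN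
  exact base_high (bunZ G hl hO hOd hne) (bas (l + 1)) (by have := NeZero.pos l; omega) hA
    (n₀ := finrank ℝ E - 1) (fun j σ h1 h2 h3 h4 h5 => exact_UT G hgen σ h1 h2 h3 h4 h5)
    hj hj1 hj2 hw hwj

include hl hO hOd hne hgen hN in
/-- the cohomology of the space of cut pairs in degree `l + 1` -/
theorem Z_mid (hj : l + 1 < finrank ℝ E - 1) {w : Form (dZ e D)} (hw : w.d = 0)
    (hwj : Form.IsDeg (l + 1) w) : ∃ (g₁ g₂ : ℝ) (γ : Form (dZ e D)),
      w = g₁ • Form.pull Prod.fst map_Zfst Om + g₂ • Form.pull Prod.snd (map_Zsnd G.F) Om + γ.d := by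
  obtain ⟨k, hk, hA⟩ := exists_angZ G hl hO hOd hne hN
  have h1 : (Form.pull Prod.fst (map_Zfst (e := e) (D := D)) Om).d = 0 := by
    rw [← Form.pull_d, hO, Co.pull_zero]
  have h2 : Form.pull (fb e D) map_fb (Form.pull Prod.fst map_Zfst Om) =
      Form.pull foot map_foot Om :=
    Form.pull2_one (f := fb e D) (g := Prod.fst) (g' := foot) _ _ _ (fun _ => rfl) Om
  obtain ⟨c, c', γ, h3⟩ := base_mid (bunZ G hl hO hOd hne) (bas (l + 1))
    (by have := NeZero.pos l; omega) hA (fun σ h0 hσ => const_UT G.F hN σ hσ h0) h1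
    (hOd.pull _ _) (fun σ hσj hσ => by
      obtain ⟨c, η, h4, -⟩ := CoC.gen_UT hgen (l + 1) σ hj hσ hσj
      refine ⟨c, η, ?_⟩
      rw [Nat.div_self (Nat.succ_pos l), pow_one] at h4
      rw [h2]
      exact h4) hw hwj
  refine ⟨c + c' * k⁻¹, -(c' * k⁻¹), γ, ?_⟩
  rw [h3, cZ]
  module

end Coh

/-! ### the planes as a field of matrices over the space of cut pairs -/

/-- the projection to the plane, in terms of the cut pair -/
def prZ (e : ∀ x : M, TangentSpace 𝓘(ℝ, E) x → M) (D : ℝ) (z : M × M) : E →ₗ[ℝ] E where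
  toFun a := ((H775.Pl e D z.2 z.1).starProjection (a : TangentSpace 𝓘(ℝ, E) z.1) : E)
  map_add' a b := map_add (H775.Pl e D z.2 z.1).starProjection _ _
  map_smul' c a := map_smul (H775.Pl e D z.2 z.1).starProjection c _

theorem prZ_fb (v : UT E M) : prZ e D (fb e D v) = X3.prPL e D v := rfl

theorem smOp_prZ (G : Geo e D l) : SmOp (dZ e D) Prod.fst Prod.fst (prZ e D) :=
  ⟨fun {E'} _ _ _ {u x a} hu ha => by
    obtain ⟨v, hv, hvu⟩ := quo_fb.lift hu
    have h1 : ∀ᶠ s in 𝓝 x, fb e D (v s) = u s := hvu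
    have h2 : (dTM E M).At (fun s => tb (foot (v s)) (a s)) x := by
      refine (dTM E M).congr ha ?_
      filter_upwards [h1] with s hs
      rw [← hs]
      rfl
    refine (dTM E M).congr (at_prP G.F G.hD G.hB G.hdiam G.hP hv h2) ?_
    filter_upwards [h1] with s hs
    rw [← hs]
    rfl⟩

/-- the plane as a matrix, over the space of cut pairs -/
def pZ (e : ∀ x : M, TangentSpace 𝓘(ℝ, E) x → M) (D : ℝ) (P : PF E M K) (z : M × M) :
    Matrix (Fin K) (Fin K) ℝ := P.mat z.1 z.1 (prZ e D z)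

/-- the plane as a matrix, over the unit tangent bundle -/
def pU (e : ∀ x : M, TangentSpace 𝓘(ℝ, E) x → M) (D : ℝ) (P : PF E M K) (v : UT E M) :
    Matrix (Fin K) (Fin K) ℝ := P.mat (foot v) (foot v) (X3.prPL e D v)

theorem pZ_fb (P : PF E M K) (v : UT E M) : pZ e D P (fb e D v) = pU e D P v := rfl

theorem pU_v (P : PF E M K) (p : Pr e D) : pU e D P p.v = pF P p := rfl

theorem sm_pZ (G : Geo e D l) (P : PF E M K) : SmM (dZ e D) (pZ e D P) :=
  P.smM_mat map_Zfst (smOp_prZ G)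

theorem sm_pU (G : Geo e D l) (P : PF E M K) : SmM (dUT E M) (pU e D P) :=
  (sm_pZ G P).comp (g := fb e D) map_fb

theorem prZ_prZ (z : M × M) (a : E) : prZ e D z (prZ e D z a) = prZ e D z a := by
  have h := Submodule.starProjection_apply_mem (H775.Pl e D z.2 z.1)
    (a : TangentSpace 𝓘(ℝ, E) z.1)
  have h2 := Submodule.starProjection_eq_self_iff.2 h
  exact h2

theorem pZ_idem (P : PF E M K) (z : M × M) : pZ e D P z * pZ e D P z = pZ e D P z := by
  rw [pZ, P.mat_mul]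
  congr 1
  exact LinearMap.ext fun a => prZ_prZ z a

theorem pU_idem (P : PF E M K) (v : UT E M) : pU e D P v * pU e D P v = pU e D P v :=
  pZ_idem P (fb e D v)

theorem pZ_ev (G : Geo e D l) (P : PF E M K) : Idem (cR (pZ e D P) (sm_pZ G P)) :=
  ⟨ev_cR _, cR_mul _ _ _ (pZ_idem P)⟩

theorem pU_ev (G : Geo e D l) (P : PF E M K) : Idem (cR (pU e D P) (sm_pU G P)) :=
  ⟨ev_cR _, cR_mul _ _ _ (pU_idem P)⟩

/-- the class forms of the planes over the space of cut pairs -/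
def zcl (G : Geo e D l) (P : PF E M K) (k : ℕ) : Form (dZ e D) := sF k (cR (pZ e D P) (sm_pZ G P))

theorem zcl_d (G : Geo e D l) (P : PF E M K) (k : ℕ) : (zcl G P k).d = 0 := sF_closed (pZ_ev G P) k

theorem zcl_deg (G : Geo e D l) (P : PF E M K) (k : ℕ) : Form.IsDeg (2 * k) (zcl G P k) :=
  isDeg_sF_cR _ k

/-- the class forms of the planes over the unit tangent bundle -/
def ucl (G : Geo e D l) (P : PF E M K) (k : ℕ) : Form (dUT E M) :=
  sF k (cR (pU e D P) (sm_pU G P))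

theorem pull_zcl_U (G : Geo e D l) (P : PF E M K) (k : ℕ) :
    Form.pull (fb e D) map_fb (zcl G P k) = ucl G P k := by
  rw [zcl, ← IB.sF_pull, map_pullC_cR]
  rfl

/-- the cut pair of a pair -/
theorem map_fbv : (dPr e D).Map (dZ e D) (fun p => fb e D p.v) := fun h => map_fb (map_v h)

theorem pull_zcl (G : Geo e D l) (P : PF E M K) (k : ℕ) :
    Form.pull (fun p : Pr e D => fb e D p.v) map_fbv (zcl G P k) =
      sF k (cR (pF P) (sm_pF G P)) := by
  rw [zcl, ← IB.sF_pull, map_pullC_cR]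
  rfl

theorem fbv_R (G : Geo e D l) (p : Pr e D) (t : ℝ) :
    fb e D (G.R (p, t)).v = fb e D p.v := Prod.ext (G.foot_R p t) (G.bar_R p t)

/-- from the space of cut pairs to the classes over the space of pairs -/
theorem cPF_of_zero (G : Geo e D l) (P : PF E M K) {k : ℕ} {γ : Form (dZ e D)}
    (h : zcl G P k = γ.d) : cPF G P k = 0 := by
  have h1 : cPF G P k = qm G.R G.map_R 0 :=
    qm_eq_of (H584.basic_pull map_fbv (fbv_R G) γ) (by
      change sF k (cR (pF P) (sm_pF G P)) - 0 = _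
      rw [sub_zero, ← pull_zcl G P k, h, Form.pull_d])
  rw [h1, map_zero (qm G.R G.map_R)]

theorem cPF_of_lin (G : Geo e D l) (P : PF E M K) {Om : Form (dM E M)} (hO : Om.d = 0)
    (hOe : Om.sg = Om) {k : ℕ} {g₁ g₂ : ℝ} {γ : Form (dZ e D)}
    (h : zcl G P k = g₁ • Form.pull Prod.fst map_Zfst Om +
      g₂ • Form.pull Prod.snd (map_Zsnd G.F) Om + γ.d) :
    cPF G P k = g₁ • xf G hO hOe + g₂ • xb G hO hOe := by
  have h1 : cPF G P k = qm G.R G.map_R (g₁ • invB G G.map_foot G.foot_R hO hOe +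
      g₂ • invB G G.map_bar G.bar_R hO hOe) :=
    qm_eq_of (H584.basic_pull map_fbv (fbv_R G) γ) (by
      change sF k (cR (pF P) (sm_pF G P)) -
        (g₁ • Form.pull (fun p : Pr e D => foot p.v) G.map_foot Om +
          g₂ • Form.pull (fun p : Pr e D => bar e D p.v) G.map_bar Om) = _
      have e1 : Form.pull (fun p : Pr e D => fb e D p.v) map_fbv
          (Form.pull Prod.fst (map_Zfst (e := e) (D := D)) Om) =
          Form.pull (fun p : Pr e D => foot p.v) G.map_foot Om :=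
        H584.pull_pull (k := fun p : Pr e D => foot p.v) map_fbv map_Zfst G.map_foot
          (fun _ => rfl) Om
      have e2 : Form.pull (fun p : Pr e D => fb e D p.v) map_fbv
          (Form.pull Prod.snd (map_Zsnd G.F) Om) =
          Form.pull (fun p : Pr e D => bar e D p.v) G.map_bar Om :=
        H584.pull_pull (k := fun p : Pr e D => bar e D p.v) map_fbv (map_Zsnd G.F) G.map_bar
          (fun _ => rfl) Om
      rw [← pull_zcl G P k, h, Form.pull_add', Form.pull_add', Co.pull_smul, Co.pull_smul, e1, e2,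
        Form.pull_d]
      abel)
  exact h1.trans (alg_lin2 (qm G.R G.map_R) _ _ _ _)

/-- from the space of cut pairs to the class forms over the unit tangent bundle -/
theorem ucl_of_lin (G : Geo e D l) (P : PF E M K) {Om : Form (dM E M)} {k : ℕ} {g₁ g₂ : ℝ}
    {γ : Form (dZ e D)}
    (h : zcl G P k = g₁ • Form.pull Prod.fst map_Zfst Om +
      g₂ • Form.pull Prod.snd (map_Zsnd G.F) Om + γ.d) :
    ucl G P k = g₁ • Form.pull foot map_foot Om +
      g₂ • Form.pull (bar e D) (WR.map_bar G.F D) Om + (Form.pull (fb e D) map_fb γ).d := by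
  have e1 : Form.pull (fb e D) map_fb (Form.pull Prod.fst (map_Zfst (e := e) (D := D)) Om) =
      Form.pull foot map_foot Om :=
    H584.pull_pull (k := foot) map_fb map_Zfst map_foot (fun _ => rfl) Om
  have e2 : Form.pull (fb e D) map_fb (Form.pull Prod.snd (map_Zsnd G.F) Om) =
      Form.pull (bar e D) (WR.map_bar G.F D) Om :=
    H584.pull_pull (k := bar e D) map_fb (map_Zsnd G.F) (WR.map_bar G.F D) (fun _ => rfl) Om
  rw [← pull_zcl_U, h, Form.pull_add', Form.pull_add', Co.pull_smul, Co.pull_smul, e1, e2,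
    Form.pull_d]

/-! ### the tangent bundle -/

theorem cTF_of_zero (G : Geo e D l) (P : PF E M K) {k : ℕ} {γ : Form (dM E M)}
    (h : tcl P k = γ.d) : cTF G P k = 0 := by
  have e1 : sF k (cR (tF P) (sm_tF G P)) =
      Form.pull (fun p : Pr e D => foot p.v) G.map_foot (tcl P k) := by
    rw [tcl, ← IB.sF_pull, map_pullC_cR]
    rfl
  have h1 : cTF G P k = qm G.R G.map_R 0 :=
    qm_eq_of (H584.basic_pull G.map_foot G.foot_R γ) (by
      change sF k (cR (tF P) (sm_tF G P)) - 0 = _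
      rw [sub_zero, e1, h, Form.pull_d])
  rw [h1, map_zero (qm G.R G.map_R)]

theorem cTF_of_lin (G : Geo e D l) (P : PF E M K) {Om : Form (dM E M)} (hO : Om.d = 0)
    (hOe : Om.sg = Om) {k : ℕ} {t : ℝ} {γ : Form (dM E M)} (h : tcl P k = t • Om + γ.d) :
    cTF G P k = t • xf G hO hOe := by
  have e1 : sF k (cR (tF P) (sm_tF G P)) =
      Form.pull (fun p : Pr e D => foot p.v) G.map_foot (tcl P k) := by
    rw [tcl, ← IB.sF_pull, map_pullC_cR]
    rfl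
  have h1 : cTF G P k = qm G.R G.map_R (t • invB G G.map_foot G.foot_R hO hOe) :=
    qm_eq_of (H584.basic_pull G.map_foot G.foot_R γ) (by
      change sF k (cR (tF P) (sm_tF G P)) -
        t • Form.pull (fun p : Pr e D => foot p.v) G.map_foot Om = _
      rw [e1, h, Form.pull_add', Co.pull_smul, Form.pull_d]
      abel)
  exact h1.trans (alg_lin1 (qm G.R G.map_R) _ _)

/-! ### the case `l = 7` in dimension sixteen -/

section Seven

variable (G : Geo e D 7) (P : PF E M K) (hE : finrank ℝ E = 16) {Om : Form (dM E M)}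
  (hO : Om.d = 0) (hOe : Om.sg = Om) (hOd : Form.IsDeg 8 Om)
  (hne : ∀ f : Fr e D 7, kfP (B0 G.F D Om) f ≠ 0)
  (hgen : CoC.Gen (dM E M) Om 8 (finrank ℝ E - 1))

include hE hgen in
theorem tcl_seven : (∃ γ : Form (dM E M), tcl P 2 = γ.d) ∧ (∃ γ : Form (dM E M), tcl P 6 = γ.d) ∧
    ∃ (t : ℝ) (γ : Form (dM E M)), tcl P 4 = t • Om + γ.d := by
  refine ⟨?_, ?_, ?_⟩
  · obtain ⟨c, γ, h1, h2⟩ := hgen 4 (tcl P 2) (by omega) (tcl_d P 2) (isDeg_tcl P 2)
    exact ⟨γ, by rw [h1, h2 (by decide), zero_smul, zero_add]⟩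
  · obtain ⟨c, γ, h1, h2⟩ := hgen 12 (tcl P 6) (by omega) (tcl_d P 6) (isDeg_tcl P 6)
    exact ⟨γ, by rw [h1, h2 (by decide), zero_smul, zero_add]⟩
  · obtain ⟨c, γ, h1, -⟩ := hgen 8 (tcl P 4) (by omega) (tcl_d P 4) (isDeg_tcl P 4)
    refine ⟨c, γ, ?_⟩
    rw [Nat.div_self (by norm_num), pow_one] at h1
    exact h1

include hE hO hOd hne hgen in
theorem zcl_seven : (∃ γ : Form (dZ e D), zcl G P 2 = γ.d) ∧
    (∃ γ : Form (dZ e D), zcl G P 6 = γ.d) ∧ ∃ (g₁ g₂ : ℝ) (γ : Form (dZ e D)),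
      zcl G P 4 = g₁ • Form.pull Prod.fst map_Zfst Om +
        g₂ • Form.pull Prod.snd (map_Zsnd G.F) Om + γ.d := by
  have hl : Odd 7 := by decide
  refine ⟨?_, ?_, ?_⟩
  · exact Z_low G hl hO hOd hne hgen (by omega) (j := 4) (by norm_num) (by omega) (by norm_num)
      (zcl_d G P 2) (zcl_deg G P 2)
  · exact Z_high G hl hO hOd hne hgen (by omega) (j := 12) (by omega) (by norm_num) (by norm_num)
      (zcl_d G P 6) (zcl_deg G P 6)
  · exact Z_mid G hl hO hOd hne hgen (by omega) (by omega) (zcl_d G P 4) (zcl_deg G P 4)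

include hE hO hOe hOd hne hgen in
/-- **the inputs in the degrees `4`, `8`, `12`** -/
theorem in_seven : ∃ t g₁ g₂ : ℝ, cTF G P 2 = 0 ∧ cTF G P 6 = 0 ∧
    cTF G P 4 = t • xf G hO hOe ∧ cPF G P 2 = 0 ∧ cPF G P 6 = 0 ∧
    cPF G P 4 = g₁ • xf G hO hOe + g₂ • xb G hO hOe ∧
    ∃ ξ : Form (dUT E M), ucl G P 4 = g₁ • Form.pull foot map_foot Om +
      g₂ • Form.pull (bar e D) (WR.map_bar G.F D) Om + ξ.d := by
  obtain ⟨⟨γ₂, h2⟩, ⟨γ₆, h6⟩, t, γ₄, h4⟩ := tcl_seven P hE hgen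
  obtain ⟨⟨ζ₂, i2⟩, ⟨ζ₆, i6⟩, g₁, g₂, ζ₄, i4⟩ := zcl_seven G P hE hO hOd hne hgen
  exact ⟨t, g₁, g₂, cTF_of_zero G P h2, cTF_of_zero G P h6, cTF_of_lin G P hO hOe h4,
    cPF_of_zero G P i2, cPF_of_zero G P i6, cPF_of_lin G P hO hOe i4, _, ucl_of_lin G P i4⟩

end Seven

/-! ### the closed form `F` -/

section FF

variable {n : ℕ} (G : Geo e D (2 * n + 1)) {p : M}
  {Pi : TangentSpace 𝓘(ℝ, E) p → TangentSpace 𝓘(ℝ, E) p →L[ℝ] TangentSpace 𝓘(ℝ, E) p}
  {o : TangentSpace 𝓘(ℝ, E) p → Fm.Lam (TangentSpace 𝓘(ℝ, E) p)}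
  {ρ : TangentSpace 𝓘(ℝ, E) p → ℝ} {r₀ : ℝ}
  (hJ : FE.LineP e D p n Pi o) (hρ : WE.Rho e D p ρ r₀) {a : ℝ} (ha : a ≠ 0)

include ha in
theorem kfP_FG (hN : 2 ≤ finrank ℝ E) (f : Fr e D (2 * n + 1)) :
    kfP (B0 G.F D (FG G hJ hρ a)) f ≠ 0 := by
  have h1 := abs_kfP_all G.F G.hD G.hB G.hdiam (Geo.hl G) hJ hρ a hN f
  intro h0
  have h2 : |kfP (B0 G.F D (FG G hJ hρ a)) f| = FE.kap n a := h1
  rw [h0, abs_zero] at h2
  exact (FE.kap_pos n ha).ne h2

end FF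

section Seven'

variable (G : Geo e D 7) (P : PF E M K) (hE : finrank ℝ E = 16) {p : M}
  {Pi : TangentSpace 𝓘(ℝ, E) p → TangentSpace 𝓘(ℝ, E) p →L[ℝ] TangentSpace 𝓘(ℝ, E) p}
  {o : TangentSpace 𝓘(ℝ, E) p → Fm.Lam (TangentSpace 𝓘(ℝ, E) p)}
  {ρ : TangentSpace 𝓘(ℝ, E) p → ℝ} {r₀ : ℝ}
  (hJ : FE.LineP e D p 3 Pi o) (hρ : WE.Rho e D p ρ r₀) (a : ℝ)

/-- the closed form, multiplicity seven -/
abbrev F7 (G : Geo e D 7) (hJ : FE.LineP e D p 3 Pi o) (hρ : WE.Rho e D p ρ r₀) (a : ℝ) :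
    Form (dM E M) := FG (m := 3) G hJ hρ a

/-- the normalised closed form -/
abbrev O7 (G : Geo e D 7) (hJ : FE.LineP e D p 3 Pi o) (hρ : WE.Rho e D p ρ r₀) (a κ : ℝ) :
    Form (dM E M) := κ⁻¹ • F7 G hJ hρ a

theorem F7_d : (F7 G hJ hρ a).d = 0 :=
  FE.FF_d G.F G.hD G.hB G.hdiam (Geo.hl (m := 3) G) hJ hρ a

theorem F7_deg : Form.IsDeg 8 (F7 G hJ hρ a) :=
  S2II.isDeg_FF G.F G.hD G.hB G.hdiam (Geo.hl (m := 3) G) hJ hρ a

theorem O7_d (κ : ℝ) : (O7 G hJ hρ a κ).d = 0 := by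
  rw [O7, Form.d_smul]
  exact (congrArg (fun w => κ⁻¹ • w) (F7_d G hJ hρ a)).trans (smul_zero _)

theorem O7_deg (κ : ℝ) : Form.IsDeg 8 (O7 G hJ hρ a κ) := (F7_deg G hJ hρ a).smul _

theorem O7_sg (κ : ℝ) : (O7 G hJ hρ a κ).sg = O7 G hJ hρ a κ :=
  (O7_deg G hJ hρ a κ).sg_of_even ⟨4, rfl⟩

theorem F7_sg : (F7 G hJ hρ a).sg = F7 G hJ hρ a :=
  (F7_deg G hJ hρ a).sg_of_even ⟨4, rfl⟩

theorem xf_O7 {κ : ℝ} (hκ : κ ≠ 0) :
    xf G (F7_d G hJ hρ a) (F7_sg G hJ hρ a) = κ • xf G (O7_d G hJ hρ a κ) (O7_sg G hJ hρ a κ) := by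
  refine Eq.trans ?_ (alg_lin1 (qm G.R G.map_R) κ
    (invB G G.map_foot G.foot_R (O7_d G hJ hρ a κ) (O7_sg G hJ hρ a κ)))
  refine congrArg (qm G.R G.map_R) (Subtype.ext ?_)
  change Form.pull (fun p : Pr e D => foot p.v) G.map_foot (F7 G hJ hρ a) =
    κ • Form.pull (fun p : Pr e D => foot p.v) G.map_foot (κ⁻¹ • F7 G hJ hρ a)
  rw [Co.pull_smul, smul_smul, mul_inv_cancel₀ hκ, one_smul]

theorem xb_O7 {κ : ℝ} (hκ : κ ≠ 0) :
    xb G (F7_d G hJ hρ a) (F7_sg G hJ hρ a) = κ • xb G (O7_d G hJ hρ a κ) (O7_sg G hJ hρ a κ) := by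
  refine Eq.trans ?_ (alg_lin1 (qm G.R G.map_R) κ
    (invB G G.map_bar G.bar_R (O7_d G hJ hρ a κ) (O7_sg G hJ hρ a κ)))
  refine congrArg (qm G.R G.map_R) (Subtype.ext ?_)
  change Form.pull (fun p : Pr e D => bar e D p.v) G.map_bar (F7 G hJ hρ a) =
    κ • Form.pull (fun p : Pr e D => bar e D p.v) G.map_bar (κ⁻¹ • F7 G hJ hρ a)
  rw [Co.pull_smul, smul_smul, mul_inv_cancel₀ hκ, one_smul]

include hE in
/-- **the inputs in the degrees `4`, `8`, `12`**, in terms of the normalised closed form -/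
theorem in_O7 (ha : a ≠ 0) {κ : ℝ} (hκ : κ ≠ 0) : ∃ t g₁ g₂ : ℝ, cTF G P 2 = 0 ∧ cTF G P 6 = 0 ∧
    cTF G P 4 = t • xf G (O7_d G hJ hρ a κ) (O7_sg G hJ hρ a κ) ∧ cPF G P 2 = 0 ∧
    cPF G P 6 = 0 ∧ cPF G P 4 = g₁ • xf G (O7_d G hJ hρ a κ) (O7_sg G hJ hρ a κ) +
      g₂ • xb G (O7_d G hJ hρ a κ) (O7_sg G hJ hρ a κ) ∧
    ∃ ξ : Form (dUT E M), ucl G P 4 = g₁ • Form.pull foot map_foot (O7 G hJ hρ a κ) +
      g₂ • Form.pull (bar e D) (WR.map_bar G.F D) (O7 G hJ hρ a κ) + ξ.d := by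
  have : NeZero 7 := ⟨by norm_num⟩
  obtain ⟨t, g₁, g₂, h1, h2, h3, h4, h5, h6, ξ, h7⟩ := in_seven G P hE (F7_d G hJ hρ a)
    (F7_sg G hJ hρ a) (F7_deg G hJ hρ a) (kfP_FG (n := 3) G hJ hρ ha (by omega))
    (CoZ.gen_FF G.F G.hD G.hB G.hdiam (Geo.hl (m := 3) G) hJ hρ ha (by omega))
  refine ⟨t * κ, g₁ * κ, g₂ * κ, h1, h2, ?_, h4, h5, ?_, ξ, ?_⟩
  · rw [h3, xf_O7 G hJ hρ a hκ, smul_smul]
  · rw [h6, xf_O7 G hJ hρ a hκ, xb_O7 G hJ hρ a hκ, smul_smul, smul_smul]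
  · rw [h7, O7, Co.pull_smul, Co.pull_smul, smul_smul, smul_smul, mul_assoc, mul_assoc,
      mul_inv_cancel₀ hκ, mul_one, mul_one]

end Seven'

end

end Vale.Agent.P231.S3C
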