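import Vale.Agent.P231.S3C.RFib
import Vale.Agent.P231.S3C.RTwo
import Vale.Agent.P231.S3C.RZ
import Vale.Agent.P231.WQ.Glue

/-!
# P231, stage 3, S3-C (R): `y⁶ + z² = 0` on the fibres over the base point
-/

set_option maxSynthPendingDepth 3
set_option linter.unusedSectionVars false
set_option linter.unusedVariables false

open Bundle Manifold Set Filter Module Matrix
open scoped ContDiff Manifold Topology

namespace Vale.Agent.P231.S3C

noncomputable section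

open Vale.Agent.P234 Vale.Agent.P231 Vale.Agent.P231.Fm Vale.Agent.P231.W Vale.Agent.P231.WR
open Vale.Agent.P231.S2X Vale.Agent.P231.CoZ Vale.Agent.P231.X3 Vale.Agent.P231.S2II

variable {E : Type*} [NormedAddCommGroup E] [NormedSpace ℝ E] [FiniteDimensional ℝ E]
  {M : Type*} [MetricSpace M] [ChartedSpace E M] [IsManifold 𝓘(ℝ, E) ∞ M]
  [RiemannianBundle (fun x : M => TangentSpace 𝓘(ℝ, E) x)]
  [IsContMDiffRiemannianBundle 𝓘(ℝ, E) ∞ E (fun x : M => TangentSpace 𝓘(ℝ, E) x)]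
  [CompactSpace M] [ConnectedSpace M] [IsRiemannianManifold 𝓘(ℝ, E) M]
  {e : ∀ x : M, TangentSpace 𝓘(ℝ, E) x → M} {D : ℝ} {K : ℕ}

/-- an orthonormal basis through two orthonormal vectors -/
theorem exists_onb {n : ℕ} {a b : Eul (n + 2)} (ha : ‖a‖ = 1) (hb : ‖b‖ = 1)
    (hab : inner ℝ a b = (0 : ℝ)) :
    ∃ c : OrthonormalBasis (Fin (n + 2)) ℝ (Eul (n + 2)), c 0 = a ∧ c 1 = b := by
  classical
  set v : Fin (n + 2) → Eul (n + 2) := fun i => if i = 0 then a else b with hv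
  have h10 : (1 : Fin (n + 2)) ≠ 0 := one_ne_zero
  have hon : Orthonormal ℝ (({0, 1} : Set (Fin (n + 2))).restrict v) := by
    constructor
    · rintro ⟨i, hi⟩
      change ‖v i‖ = 1
      rcases hi with rfl | rfl
      · rw [hv]
        simp only [if_true]
        exact ha
      · rw [hv]
        simp only [if_neg h10]
        exact hb
    · rintro ⟨i, hi⟩ ⟨j, hj⟩ hij
      change inner ℝ (v i) (v j) = 0
      have hij' : i ≠ j := fun h => hij (Subtype.ext h)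
      rcases hi with rfl | rfl <;> rcases hj with rfl | rfl
      · exact absurd rfl hij'
      · rw [hv]
        simp only [if_true, if_neg h10]
        exact hab
      · rw [hv]
        simp only [if_true, if_neg h10]
        rw [real_inner_comm]
        exact hab
      · exact absurd rfl hij'
  obtain ⟨c, hc⟩ := hon.exists_orthonormalBasis_extension_of_card_eq (by simp)
  refine ⟨c, ?_, ?_⟩
  · rw [hc 0 (Set.mem_insert _ _), hv]
    simp only [if_true]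
  · rw [hc 1 (Set.mem_insert_of_mem _ rfl), hv]
    simp only [if_neg h10]

theorem bar_TT (F : Facts e) (hD : 0 < D) (hB : InjGE e D) (hdiam : ∀ p q : M, dist p q ≤ D)
    {l : ℕ} (f : Fr e D l) {y : Eul (l + 1)} (hy : ‖y‖ = 1) :
    e (foot f.v) (D • TT f y) = bar e D f.v := by
  have h5 := bar_evP F hD hB hdiam (f, y)
  rw [evP_of f hy] at h5
  exact h5

/-- **a frame through a pair** -/
theorem exists_g (F : Facts e) (hD : 0 < D) (hB : InjGE e D) (hdiam : ∀ p q : M, dist p q ≤ D)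
    {m : ℕ} (f : Fr e D (2 * m + 1))
    {Pi : TangentSpace 𝓘(ℝ, E) (foot f.v) →
      TangentSpace 𝓘(ℝ, E) (foot f.v) →L[ℝ] TangentSpace 𝓘(ℝ, E) (foot f.v)}
    {o : TangentSpace 𝓘(ℝ, E) (foot f.v) → Fm.Lam (TangentSpace 𝓘(ℝ, E) (foot f.v))}
    (hJ : FE.LineP e D (foot f.v) m Pi o) {y z : Eul (2 * m + 2)} (hy : ‖y‖ = 1)
    (hz : ‖z‖ = 1) (hyz : inner ℝ y z = (0 : ℝ)) :
    ∃ g : Fin (2 * m + 2) → TangentSpace 𝓘(ℝ, E) (foot f.v), Orthonormal ℝ g ∧ TT f y = g 0 ∧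
      TT f z = g 1 ∧ (∃ ε : ℝ, ε ^ 2 = 1 ∧ o (TT f y) = ε • FE.wdg g) ∧
      ∀ x : Eul (2 * m + 2), TT f x = ∑ k, (inner ℝ (g k) (TT f x) : ℝ) • g k := by
  obtain ⟨c, hc0, hc1⟩ := exists_onb hy hz hyz
  refine ⟨fun k => TT f (c k), c.orthonormal.comp_linearIsometry (TT f),
    congrArg (TT f) hc0.symm, congrArg (TT f) hc1.symm, ?_, fun x => ?_⟩
  · have h0 : ‖TT f y‖ = 1 := by rw [(TT f).norm_map, hy]
    have h1 : ∀ k, Pi (TT f y) (TT f (c k)) = TT f (c k) := by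
      intro k
      refine (hJ.cut _ _ h0 ?_).1 ?_
      · rw [(TT f).norm_map, c.orthonormal.1 k]
      · rw [bar_TT F hD hB hdiam f hy, bar_TT F hD hB hdiam f (c.orthonormal.1 k)]
    rcases hJ.os.o_pm (FE.ne_zero_of_unit h0) (c.orthonormal.comp_linearIsometry (TT f)) h1
      with h2 | h2
    · exact ⟨1, one_pow 2, by rw [one_smul]; exact h2⟩
    · exact ⟨-1, by norm_num, by rw [neg_one_smul]; exact h2⟩
  · conv_lhs => rw [← c.sum_repr' x, map_sum]
    refine Finset.sum_congr rfl fun k _ => ?_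
    rw [map_smul, (TT f).inner_map_map]

theorem norm_tvp {p : M} {U : UT E M} (h : foot U = p) : ‖tvp p U‖ = 1 := by
  have h4 : nm (foot U) (vec' U) = 1 := nm_vec' U
  rw [h] at h4
  exact h4

theorem fderiv_em (P : PF E M K) {p : M} {X : Type} [NormedAddCommGroup X] [NormedSpace ℝ X]
    [FiniteDimensional ℝ X] {y : X → M} {b : X → E} {u : X → TangentSpace 𝓘(ℝ, E) p} {x : X}
    (hy : ∀ᶠ s in 𝓝 x, y s = p ∧ b s = u s) (hu : DifferentiableAt ℝ u x) (i : Fin K) :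
    fderiv ℝ (fun s => P.em (y s) (b s) i) x = al (P.X i p) u x := by
  have h1 : (fun s => P.em (y s) (b s) i) =ᶠ[𝓝 x]
      fun s => (inner ℝ (P.X i p) (u s) : ℝ) := by
    filter_upwards [hy] with s hs
    obtain ⟨h1, h2⟩ := hs
    rw [h2]
    have key : ∀ z : M, z = p → P.em z (u s : E) i = (inner ℝ (P.X i p) (u s) : ℝ) := by
      rintro z rfl
      rfl
    exact key _ h1
  rw [h1.fderiv_eq]
  exact ((innerSL ℝ (P.X i p)).hasFDerivAt.comp x hu.hasFDerivAt).fderiv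

theorem nu_d_fib (P : PF E M K) {p q : M} {X : Type} [NormedAddCommGroup X] [NormedSpace ℝ X]
    [FiniteDimensional ℝ X] {Q : X → Pr e D} {u w : X → TangentSpace 𝓘(ℝ, E) p} {x : X}
    (h : FPl e D p q Q u w x) :
    (nu e D P).d.val Q x = ∑ i, dx (al (P.X i p) w x) * dx (al (P.X i p) u x) := by
  rw [nu, conn_d_val _ _ h.at]
  refine Finset.sum_congr rfl fun i _ => ?_
  have h1 : fderiv ℝ (fun s => ww P (Q s) i) x = al (P.X i p) w x :=
    fderiv_em P (y := fun s => foot (Q s).v) (b := fun s => vec' (Q s).w)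
      (h.ev.mono fun s hs => ⟨hs.1, hs.2.2.1⟩) h.sw.differentiableAt i
  have h2 : fderiv ℝ (fun s => vv P (Q s) i) x = al (P.X i p) u x :=
    fderiv_em P (y := fun s => foot (Q s).v) (b := fun s => vec' (Q s).v)
      (h.ev.mono fun s hs => ⟨hs.1, hs.2.1⟩) h.su.differentiableAt i
  rw [h1, h2]

theorem fib_num {a ε : ℝ} (ha : a ≠ 0) (hε : ε ^ 2 = 1) :
    ((a * 5040 * (Real.pi ^ 4 / 3))⁻¹ * (a * 5040 * ε)) ^ 2 * (-(Real.pi ^ 2 / 576)) +
      (-(1 / (2 * Real.pi))) ^ 6 = 0 := by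
  have hpi := Real.pi_ne_zero
  have h1 : ((a * 5040 * (Real.pi ^ 4 / 3))⁻¹ * (a * 5040 * ε)) ^ 2 = 9 / Real.pi ^ 8 := by
    have h2 : (a * 5040 * (Real.pi ^ 4 / 3))⁻¹ * (a * 5040 * ε) = 3 / Real.pi ^ 4 * ε := by
      field_simp
    rw [h2, mul_pow, hε]
    field_simp
    norm_num
  rw [h1]
  field_simp
  norm_num

/-- **`z² + y⁶ = 0` on the fibres over the base point** -/
theorem fib_rel (G : Geo e D 7) (P : PF E M K) {p : M}
    {Pi : TangentSpace 𝓘(ℝ, E) p → TangentSpace 𝓘(ℝ, E) p →L[ℝ] TangentSpace 𝓘(ℝ, E) p}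
    {o : TangentSpace 𝓘(ℝ, E) p → Fm.Lam (TangentSpace 𝓘(ℝ, E) p)}
    {ρ : TangentSpace 𝓘(ℝ, E) p → ℝ} {r₀ : ℝ}
    (hJ : FE.LineP e D p 3 Pi o) (hρ : WE.Rho e D p ρ r₀) {a : ℝ} (ha : a ≠ 0)
    {q : M} {X : Type} [NormedAddCommGroup X] [NormedSpace ℝ X] [FiniteDimensional ℝ X]
    {Q : X → Pr e D} {x : X} (hQ : (dPr e D).At Q x)
    (hpq : ∀ᶠ s in 𝓝 x, foot (Q s).v = p ∧ bar e D (Q s).v = q) :
    (((a * 5040 * (Real.pi ^ 4 / 3))⁻¹ • L3.b0P G.F G.hD G.hB G.hdiam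
        (FE.FF G.F G.hD G.hB G.hdiam (S2T.Geo.hl (m := 3) G) hJ hρ a)) ^ 2 +
      (-(1 / (2 * Real.pi)) • (nu e D P).d) ^ 6 : Form (dPr e D)).val Q x = 0 := by
  obtain ⟨f, hf⟩ : ∃ f : Fr e D (2 * 3 + 1), f.v = (Q x).v := by
    obtain ⟨W, hW⟩ := exists_isLF G.F G.hD G.hB G.hdiam G.hP (Q x).v
    exact ⟨⟨((Q x).v, W), hW⟩, rfl⟩
  have hx := hpq.self_of_nhds
  obtain rfl : foot f.v = p := by rw [hf]; exact hx.1
  obtain rfl : bar e D f.v = q := by rw [hf]; exact hx.2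
  -- the plot in coordinates
  have hF : FPl e D (foot f.v) (bar e D f.v) Q (fun s => tvp (foot f.v) (Q s).v)
      (fun s => tvp (foot f.v) (Q s).w) x := by
    refine ⟨sm_fibre (E := E) (map_v hQ) (hpq.mono fun s hs => hs.1),
      sm_fibre (E := E) (map_w hQ) (hpq.mono fun s hs => (Q s).isL.foot_eq.trans hs.1), ?_⟩
    filter_upwards [hpq] with s hs
    exact ⟨hs.1, rfl, rfl, hs.2⟩
  have hmem : ∀ U : UT E M, foot U = foot f.v → bar e D U = bar e D f.v →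
      TT f (pc f (vec' U)) = tvp (foot f.v) U := fun U h1 h2 =>
    pb_pc G.F G.hD G.hB G.hdiam G.hP f (mem_of_eq G.F G.hD G.hB G.hdiam G.hP f h1 h2)
  have hv := hmem (Q x).v hx.1 hx.2
  have hw := hmem (Q x).w ((Q x).isL.foot_eq.trans hx.1) ((Q x).isL.bar_eq.trans hx.2)
  set y := pc f (vec' (Q x).v) with hy
  set z := pc f (vec' (Q x).w) with hz
  have n1 : ‖y‖ = 1 := by
    rw [← (TT f).norm_map, hv]
    exact norm_tvp hx.1
  have n2 : ‖z‖ = 1 := by
    rw [← (TT f).norm_map, hw]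
    exact norm_tvp ((Q x).isL.foot_eq.trans hx.1)
  have n3 : inner ℝ y z = (0 : ℝ) := by
    rw [← (TT f).inner_map_map, hv, hw]
    have h1 := (Q x).isL.orth
    rw [hx.1] at h1
    exact h1
  obtain ⟨g, hg, hg0, hg1, ⟨ε, hε, ho'⟩, hsp⟩ := exists_g G.F G.hD G.hB G.hdiam f hJ n1 n2 n3
  rw [hv] at hg0 ho'
  rw [hw] at hg1
  have e1 := b0P_fib' G.F G.hD G.hB G.hdiam (S2T.Geo.hl (m := 3) G) hJ hρ a hF hg hg0 hg1 ho'
  have e2 := nu_d_fib P hF
  have e3 := curv' (fun ξ => P.parseval (foot f.v) ξ) hg hF.su.differentiableAt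
    hF.sw.differentiableAt hg0 hg1 (hpq.mono fun s hs => norm_tvp hs.1)
    (hpq.mono fun s hs => norm_tvp ((Q s).isL.foot_eq.trans hs.1))
    (hpq.mono fun s hs => by
      rw [← hmem _ hs.1 hs.2]
      exact hsp _)
    (hpq.mono fun s hs => by
      rw [← hmem _ ((Q s).isL.foot_eq.trans hs.1) ((Q s).isL.bar_eq.trans hs.2)]
      exact hsp _)
  rw [e3] at e2
  have hfac : ((2 * 3 + 1 : ℕ).factorial : ℝ) = 5040 := by norm_num [Nat.factorial]
  rw [hfac] at e1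
  rw [Form.add_val, WQ.pow_val _ hQ, WQ.pow_val _ hQ, Form.smul_val, Form.smul_val, e1, e2, smul_smul,
    smul_pow, smul_pow, sq (∫ t in (0 : ℝ)..(2 * Real.pi), _), int_pw_ho, smul_smul, ← add_smul,
    fib_num ha hε, zero_smul]

end

end Vale.Agent.P231.S3C
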