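import Vale.Agent.P231.S3C.RInt0
import Vale.Agent.P231.L3.Inst7b

/-!
# P231, stage 3, S3-C (R), integrals: the structure `In7` and the functional `Φ`
-/

set_option maxSynthPendingDepth 3
set_option linter.unusedSectionVars false
set_option linter.unusedVariables false

open Bundle Manifold Set Filter Module Matrix MeasureTheory
open scoped ContDiff Manifold Topology

namespace Vale.Agent.P231.S3C

noncomputable section

open Vale.Agent.P234 Vale.Agent.P231 Vale.Agent.P231.Fm Vale.Agent.P231.W Vale.Agent.P231.WR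
  Vale.Agent.P231.ChW Vale.Agent.P231.X3 Vale.Agent.P231.S2T
open Vale.Agent.P231.Fm (Sm Dif Form Lam)

variable {E : Type*} [NormedAddCommGroup E] [NormedSpace ℝ E] [FiniteDimensional ℝ E]
  {M : Type*} [MetricSpace M] [ChartedSpace E M] [IsManifold 𝓘(ℝ, E) ∞ M]
  [RiemannianBundle (fun x : M => TangentSpace 𝓘(ℝ, E) x)]
  [IsContMDiffRiemannianBundle 𝓘(ℝ, E) ∞ E (fun x : M => TangentSpace 𝓘(ℝ, E) x)]
  [CompactSpace M] [ConnectedSpace M] [IsRiemannianManifold 𝓘(ℝ, E) M]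
  {e : ∀ x : M, TangentSpace 𝓘(ℝ, E) x → M} {K : ℕ} {D : ℝ}

/-! ### algebra -/

section Alg

variable {R S : Type*} [CommRing R] [CommRing S] [Algebra ℝ R] [Algebra ℝ S]

theorem alg_mul (φ : R →ₐ[ℝ] S) (x y : R) : φ (x * y) = φ x * φ y := map_mul φ x y

theorem alg_sub (φ : R →ₐ[ℝ] S) (x y : R) : φ (x - y) = φ x - φ y := map_sub φ x y

theorem alg_pow (φ : R →ₐ[ℝ] S) (x : R) (n : ℕ) : φ (x ^ n) = φ x ^ n := map_pow φ x n

theorem alg_zero (φ : R →ₐ[ℝ] S) : φ 0 = 0 := map_zero φ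

theorem zyx {y z x1 x2 : R} (h : y * z = x1 - x2) (h3 : x1 ^ 3 = 0)
    (h4 : x1 ^ 2 * x2 ^ 2 = 0) : z ^ 2 * (y ^ 4 * x1 ^ 2) = 0 := by
  have e : z ^ 2 * (y ^ 4 * x1 ^ 2) = (y * z) ^ 2 * (y ^ 2 * x1 ^ 2) := by ring
  rw [e, h]
  linear_combination (y ^ 2 * x1 - 2 * y ^ 2 * x2) * h3 + y ^ 2 * h4

theorem plane_x {y p4 p8 x : R} (h : (32 : ℝ) • y ^ 8 - (8 : ℝ) • (p4 * y ^ 4) + p4 ^ 2 -
      (4 : ℝ) • p8 = 0) (h4 : x ^ 2 * p4 ^ 2 = 0) (h8 : x ^ 2 * p8 = 0) :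
    (4 : ℝ) • (y ^ 8 * x ^ 2) = y ^ 4 * x ^ 2 * p4 := by
  refine eq_of_ofNat_mul 8 ?_
  simp only [Algebra.smul_def, map_ofNat] at h ⊢
  linear_combination x ^ 2 * h - h4 + 4 * h8

end Alg

section Z

variable (G : Geo e D 7) (P : PF E M K) (hE : finrank ℝ E = 16) {p : M}
  {Pi : TangentSpace 𝓘(ℝ, E) p → TangentSpace 𝓘(ℝ, E) p →L[ℝ] TangentSpace 𝓘(ℝ, E) p}
  {o : TangentSpace 𝓘(ℝ, E) p → Fm.Lam (TangentSpace 𝓘(ℝ, E) p)}
  {ρ : TangentSpace 𝓘(ℝ, E) p → ℝ} {r₀ : ℝ}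
  (hJ : FE.LineP e D p 3 Pi o) (hρ : WE.Rho e D p ρ r₀) {a κ : ℝ} (ha : a ≠ 0) (hκ : κ ≠ 0)

/-! ### the relation `y z = x₁ - x₂` -/

theorem BP_d : (Form.pull Pr.v map_v (B0 G.F D (F7 G hJ hρ a)) : Form (dPr e D)).d =
    Form.pull (fun p : Pr e D => bar e D p.v) G.map_bar (F7 G hJ hρ a) -
      Form.pull (fun p : Pr e D => foot p.v) G.map_foot (F7 G hJ hρ a) := by
  rw [← Form.pull_d, S2II.B0_d G.F (F7_d G hJ hρ a), Form.pull_sub',
    H584.pull_pull (k := fun q : Pr e D => bar e D q.v) map_v (map_bar G.F D) G.map_bar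
      (fun _ => rfl),
    H584.pull_pull (k := fun q : Pr e D => foot q.v) map_v map_foot G.map_foot (fun _ => rfl)]

theorem yz7 : yc G P * zc G hJ hρ a κ = x1c G hJ hρ a κ - x2c G hJ hρ a κ := by
  have hpi := Real.pi_pos
  set B : Form (dPr e D) := Form.pull Pr.v map_v (B0 G.F D (F7 G hJ hρ a)) with hB
  have hBd := BP_d G hJ hρ (a := a)
  have hBb : Basic G.R G.map_R B.d := by
    rw [hB, hBd]
    exact H584.Basic.sub (H584.basic_pull G.map_bar G.bar_R _)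
      (H584.basic_pull G.map_foot G.foot_R _)
  have h1 := H584.gysin_d G.isFlow_R (nu_R G P) (nu_sg P) hBb
  have e1 : yc G P * zc G hJ hρ a κ = qm G.R G.map_R (yB G P * zB7 G hJ hρ a κ) :=
    (alg_mul (qm G.R G.map_R) _ _).symm
  have e2 : x1c G hJ hρ a κ - x2c G hJ hρ a κ = qm G.R G.map_R
      (invB G G.map_foot G.foot_R (O7_d G hJ hρ a κ) (O7_sg G hJ hρ a κ) -
        invB G G.map_bar G.bar_R (O7_d G hJ hρ a κ) (O7_sg G hJ hρ a κ)) :=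
    (alg_sub (qm G.R G.map_R) _ _).symm
  rw [e1, e2]
  refine qm_eq_of (η := (κ⁻¹ * (1 / (2 * Real.pi))) •
    J G.R G.map_R (2 * Real.pi) (nu e D P * B)) (H584.Basic.smul _ (H584.J_basic G.isFlow_R _)) ?_
  change (-(1 / (2 * Real.pi)) • (nu e D P).d) * (κ⁻¹ • J G.R G.map_R (2 * Real.pi) B) -
    (Form.pull (fun p : Pr e D => foot p.v) G.map_foot (κ⁻¹ • F7 G hJ hρ a) -
      Form.pull (fun p : Pr e D => bar e D p.v) G.map_bar (κ⁻¹ • F7 G hJ hρ a)) = _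
  have h2 : (J G.R G.map_R (2 * Real.pi) (nu e D P * B)).d =
      (2 * Real.pi) • B.d - (nu e D P).d * J G.R G.map_R (2 * Real.pi) B := by
    rw [h1]
    abel
  rw [Form.d_smul, h2, hB, hBd, Co.pull_smul, Co.pull_smul, smul_mul_smul_comm, smul_sub,
    smul_smul]
  have e3 : κ⁻¹ * (1 / (2 * Real.pi)) * (2 * Real.pi) = κ⁻¹ := by field_simp
  rw [e3]
  module

/-! ### classes which come from the unit tangent bundle -/

/-- classes which come from the unit tangent bundle -/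
def UTd (G : Geo e D 7) (k : ℕ) (a : Hb G.R G.map_R) : Prop :=
  ∃ (A : H584.Bas G.R G.map_R) (w : Form (dUT E M)), qm G.R G.map_R A = a ∧
    (A : Form (dPr e D)) = Form.pull Pr.v map_v w ∧ Form.IsDeg k w

variable {G}

theorem UTd.mul {j k : ℕ} {u v : Hb G.R G.map_R} (hu : UTd G j u) (hv : UTd G k v) :
    UTd G (j + k) (u * v) := by
  obtain ⟨A, w, h1, h2, h3⟩ := hu
  obtain ⟨B, w', h4, h5, h6⟩ := hv
  refine ⟨A * B, w * w', ?_, ?_, h3.mul h6⟩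
  · exact (alg_mul (qm G.R G.map_R) A B).trans (congrArg₂ (· * ·) h1 h4)
  · change (A : Form (dPr e D)) * B = _
    rw [h2, h5]
    exact (map_mul (Form.pullA Pr.v map_v) w w').symm

theorem UTd.sq {j : ℕ} {u : Hb G.R G.map_R} (hu : UTd G j u) : UTd G (j + j) (u ^ 2) := by
  rw [pow_two]
  exact hu.mul hu

include hE in
theorem UTd.zero {k : ℕ} {u : Hb G.R G.map_R} (hu : UTd G k u) (hk : 31 < k) : u = 0 := by
  obtain ⟨A, w, h1, h2, h3⟩ := hu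
  have h4 : WA.DimLE (dUT E M) (2 * 15 + 1) := L.dimLE_bridge (WF.dimLE_UT E M (by omega))
  have h5 : w = 0 := h4.isDeg_eq_zero (by omega) h3
  have h6 : A = 0 := Subtype.ext (by
    rw [h2, h5]
    exact map_zero (Form.pullA Pr.v map_v))
  rw [← h1, h6]
  exact alg_zero (qm G.R G.map_R)

variable (G)

theorem utd_x1 : UTd G 8 (x1c G hJ hρ a κ) :=
  ⟨_, Form.pull foot map_foot (O7 G hJ hρ a κ), rfl,
    (H584.pull_pull (k := fun q : Pr e D => foot q.v) map_v map_foot G.map_foot (fun _ => rfl)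
      _).symm, (O7_deg G hJ hρ a κ).pull _ _⟩

theorem utd_x2 : UTd G 8 (x2c G hJ hρ a κ) :=
  ⟨_, Form.pull (bar e D) (map_bar G.F D) (O7 G hJ hρ a κ), rfl,
    (H584.pull_pull (k := fun q : Pr e D => bar e D q.v) map_v (map_bar G.F D) G.map_bar
      (fun _ => rfl) _).symm, (O7_deg G hJ hρ a κ).pull _ _⟩

theorem isDeg_ucl (k : ℕ) : Form.IsDeg (2 * k) (ucl G P k) := isDeg_sF_cR _ k

theorem pull_ucl (k : ℕ) : Form.pull Pr.v map_v (ucl G P k) = sF k (cR (pF P) (sm_pF G P)) := by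
  rw [ucl, ← IB.sF_pull, map_pullC_cR]
  rfl

theorem utd_pF (k : ℕ) : UTd G (2 * k) (cPF G P k) :=
  ⟨_, ucl G P k, rfl, (pull_ucl G P k).symm, isDeg_ucl G P k⟩

theorem utd_pB (k : ℕ) : UTd G (2 * k) (cPB G P k) := by
  refine ⟨_, Form.pull (fun v => phi G.F (v, D)) (map_phiD G.F D) (ucl G P k), rfl, ?_,
    (isDeg_ucl G P k).pull _ _⟩
  change sF k (cR (pB P) (sm_pB G P)) = _
  have h1 : (dPr e D).Map (dUT E M) (fun p : Pr e D => phi G.F (p.v, D)) :=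
    fun h => map_phiD G.F D (map_v h)
  rw [H584.pull_pull (k := fun p : Pr e D => phi G.F (p.v, D)) map_v (map_phiD G.F D) h1
    (fun _ => rfl), ucl, ← IB.sF_pull, map_pullC_cR]
  congr 1
  exact cR_congr _ _ fun p => pB_eq G P p

theorem x1_cube (hE : finrank ℝ E = 16) : x1c G hJ hρ a κ ^ 3 = 0 := by
  have h1 : O7 G hJ hρ a κ ^ 3 = 0 := by
    have h2 : WA.DimLE (dM E M) 16 := L.dimLE_bridge (WF.dimLE_M E M hE)
    exact h2.pow_eq_zero (j := 8) (by norm_num) (O7_deg G hJ hρ a κ)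
  have h2 : invB G G.map_foot G.foot_R (O7_d G hJ hρ a κ) (O7_sg G hJ hρ a κ) ^ 3 = 0 := by
    refine Subtype.ext ?_
    change Form.pull (fun p : Pr e D => foot p.v) G.map_foot (O7 G hJ hρ a κ) ^ 3 = 0
    have h3 := map_pow (Form.pullA (fun p : Pr e D => foot p.v) G.map_foot) (O7 G hJ hρ a κ) 3
    refine h3.symm.trans ?_
    rw [h1]
    exact map_zero (Form.pullA _ G.map_foot)
  refine (alg_pow (qm G.R G.map_R) _ 3).symm.trans ?_
  rw [h2]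
  exact alg_zero (qm G.R G.map_R)

include hE in
theorem x12 : x1c G hJ hρ a κ ^ 2 * x2c G hJ hρ a κ ^ 2 = 0 :=
  ((utd_x1 G hJ hρ).sq.mul (utd_x2 G hJ hρ).sq).zero hE (by norm_num)

theorem S_x1 : hbPull G.map_Th G.Th_R (x1c G hJ hρ a κ) = x2c G hJ hρ a κ := by
  rw [x1c, x2c, S2T.xf, S2T.xb, hbPull_qm]
  congr 1
  refine Subtype.ext ?_
  exact H584.pull_pull (k := fun q : Pr e D => bar e D q.v) G.map_Th G.map_foot G.map_bar
    (fun q => G.foot_Th q) _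

theorem S_x2 : hbPull G.map_Th G.Th_R (x2c G hJ hρ a κ) = x1c G hJ hρ a κ := by
  rw [x1c, x2c, S2T.xf, S2T.xb, hbPull_qm]
  congr 1
  refine Subtype.ext ?_
  exact H584.pull_pull (k := fun q : Pr e D => foot q.v) G.map_Th G.map_bar G.map_foot
    (fun q => G.bar_Th q) _

include G hE hJ hρ ha in
/-- **closed forms of degree three, seven and eleven are exact** -/
theorem ex7 (k : ℕ) (hk : k = 3 ∨ k = 7 ∨ k = 11) (v : Form (dPr e D)) (hv : Form.IsDeg k v)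
    (hvd : v.d = 0) : ∃ η : Form (dPr e D), v = η.d := by
  have hNZ : NeZero (2 * 3 + 1) := ⟨by norm_num⟩
  have hG := CoC.gen_UT (CoZ.gen_FF G.F G.hD G.hB G.hdiam (Geo.hl (m := 3) G) hJ hρ ha (by omega))
  have hn0 : finrank ℝ E - 1 = 15 := by omega
  rw [hn0] at hG
  borelize M
  have hA := L3.inst_ang G.F G.hD G.hB G.hdiam (m := 3) (n := 1) (N := 15) (Geo.hl (m := 3) G)
    (by omega) (by norm_num) hJ hρ ha
  refine CoC.hs_exact hG _ _ (by norm_num) hA ?_ ?_ ?_ v hv hvd <;>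
    rcases hk with rfl | rfl | rfl <;> norm_num

include hE ha in
/-- **the structure `In7`** -/
theorem in7_of {t g₁ g₂ : ℝ} (T2 : cTF G P 2 = 0) (T6 : cTF G P 6 = 0)
    (T4 : cTF G P 4 = t • x1c G hJ hρ a κ) (P2 : cPF G P 2 = 0) (P6 : cPF G P 6 = 0)
    (P4 : cPF G P 4 = g₁ • x1c G hJ hρ a κ + g₂ • x2c G hJ hρ a κ) :
    In7 G P t g₁ g₂ (x1c G hJ hρ a κ) (x2c G hJ hρ a κ) (zc G hJ hρ a κ) where
  hl := rfl
  hE := hE
  T2 := T2
  T4 := T4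
  T6 := T6
  P2 := P2
  P4 := P4
  P6 := P6
  S1 := S_x1 G hJ hρ
  S2 := S_x2 G hJ hρ
  yz := yz7 G P hJ hρ
  zm := zc_mem G hJ hρ a κ
  ex := ex7 G hE hJ hρ ha

include hE ha in
/-- **the inputs** -/
theorem exists_in7 (hκ : κ ≠ 0) : ∃ t g₁ g₂ : ℝ,
    In7 G P t g₁ g₂ (x1c G hJ hρ a κ) (x2c G hJ hρ a κ) (zc G hJ hρ a κ) ∧
    cTF G P 4 = t • x1c G hJ hρ a κ ∧
    cPF G P 4 = g₁ • x1c G hJ hρ a κ + g₂ • x2c G hJ hρ a κ ∧
    ∃ ξ : Form (dUT E M), ucl G P 4 = g₁ • Form.pull foot map_foot (O7 G hJ hρ a κ) +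
      g₂ • Form.pull (bar e D) (WR.map_bar G.F D) (O7 G hJ hρ a κ) + ξ.d := by
  obtain ⟨t, g₁, g₂, T2, T6, T4, P2, P6, P4, hξ⟩ := in_O7 G P hE hJ hρ a ha hκ
  exact ⟨t, g₁, g₂, in7_of G P hE hJ hρ ha T2 T6 T4 P2 P6 P4, T4, P4, hξ⟩

include hE in
theorem qF7 {t g₁ g₂ : ℝ}
    (h : In7 G P t g₁ g₂ (x1c G hJ hρ a κ) (x2c G hJ hρ a κ) (zc G hJ hρ a κ)) :
    (4 : ℝ) • (yc G P ^ 8 * x1c G hJ hρ a κ ^ 2) = yc G P ^ 4 * x1c G hJ hρ a κ ^ 2 *
      (g₁ • x1c G hJ hρ a κ + g₂ • x2c G hJ hρ a κ) := by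
  have h1 := relF G P rfl h.P2 h.P6
  have h2 := plane_x h1 (((utd_x1 G hJ hρ (a := a) (κ := κ)).sq.mul (utd_pF G P 4).sq).zero hE
    (by norm_num)) (((utd_x1 G hJ hρ (a := a) (κ := κ)).sq.mul (utd_pF G P 8)).zero hE
      (by norm_num))
  rw [h.P4] at h2
  exact h2

include hE in
theorem qB7 {t g₁ g₂ : ℝ}
    (h : In7 G P t g₁ g₂ (x1c G hJ hρ a κ) (x2c G hJ hρ a κ) (zc G hJ hρ a κ)) :
    (4 : ℝ) • (yc G P ^ 8 * x1c G hJ hρ a κ ^ 2) = yc G P ^ 4 * x1c G hJ hρ a κ ^ 2 *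
      (g₁ • x2c G hJ hρ a κ + g₂ • x1c G hJ hρ a κ) := by
  have h1 := relB G P rfl h.P2 h.P6
  have h2 := plane_x h1 (((utd_x1 G hJ hρ (a := a) (κ := κ)).sq.mul (utd_pB G P 4).sq).zero hE
    (by norm_num)) (((utd_x1 G hJ hρ (a := a) (κ := κ)).sq.mul (utd_pB G P 8)).zero hE
      (by norm_num))
  rw [h.PB4] at h2
  exact h2

end Z

end

end Vale.Agent.P231.S3C
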