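import Vale.Agent.P231.S3C.RCan
import Vale.Agent.P231.S2T.Inst

/-!
# P231, stage 3, S3-C (R): the structure `Rel7` over `V`, and the relation of the plane
-/

set_option maxSynthPendingDepth 3
set_option linter.unusedSectionVars false
set_option linter.unusedVariables false
set_option linter.unusedSimpArgs false

open Bundle Manifold Set Filter Module Matrix
open scoped ContDiff Manifold Topology

namespace Vale.Agent.P231.S3C

noncomputable section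

open Vale.Agent.P234 Vale.Agent.P231 Vale.Agent.P231.Fm Vale.Agent.P231.W Vale.Agent.P231.WR
  Vale.Agent.P231.ChW Vale.Agent.P231.X3 Vale.Agent.P231.S2T

/-! ### the algebra of a plane bundle of rank eight with two vectors -/

section Alg

variable {H : Type*} [CommRing H] [Algebra ℝ H]

theorem plane_rel {y : H} {p s C : ℕ → H} (hC : NewtonRec ℝ s C) (h8 : C 8 = 0)
    (ho : ∀ k, Odd k → s k = 0) (hs : ∀ j, p (2 * j) = (2 : ℝ) • y ^ (2 * j) + s (2 * j))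
    (p2 : p 2 = 0) (p6 : p 6 = 0) :
    (32 : ℝ) • y ^ 8 - (8 : ℝ) • (p 4 * y ^ 4) + p 4 ^ 2 - (4 : ℝ) • p 8 = 0 := by
  have o1 : s 1 = 0 := ho 1 (by decide)
  have o3 : s 3 = 0 := ho 3 (by decide)
  have o5 : s 5 = 0 := ho 5 (by decide)
  have o7 : s 7 = 0 := ho 7 (by decide)
  have h2 := hs 1
  have h4 := hs 2
  have h6 := hs 3
  have h8' := hs 4
  simp only [Nat.reduceMul, p2, p6] at h2 h4 h6 h8'
  have e1 := hC.2 0
  have e2 := hC.2 1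
  have e3 := hC.2 2
  have e4 := hC.2 3
  have e5 := hC.2 4
  have e6 := hC.2 5
  have e7 := hC.2 6
  have e8 := hC.2 7
  simp only [Finset.sum_range_succ, Finset.range_one, Finset.sum_singleton, pow_zero, one_smul,
    zero_add, Nat.sub_zero, Nat.sub_self, pow_one, hC.1, mul_one, Nat.reduceAdd, Nat.reduceSub,
    o1, o3, o5, o7, zero_mul, smul_zero, add_zero, h8, Nat.cast_zero, Nat.cast_one,
    Finset.range_zero, Finset.sum_empty] at e1 e2 e3 e4 e5 e6 e7 e8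
  simp only [Algebra.smul_def, map_ofNat, map_natCast, Nat.cast_ofNat, map_mul, map_add, map_one,
    map_pow, map_neg, Nat.cast_one, map_sub] at e2 e3 e4 e5 e6 e7 e8 h2 h4 h6 h8' ⊢
  have c2 : C 2 = y ^ 2 := eq_of_ofNat_mul 2 (by linear_combination e2 + h2)
  have c4 : 4 * C 4 = 4 * y ^ 4 - p 4 := by
    rw [c2] at e4
    linear_combination e4 + h4 + y ^ 2 * h2
  have c6 : 4 * C 6 = 4 * y ^ 6 - p 4 * y ^ 2 := eq_of_ofNat_mul 6 (by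
    rw [c2] at e6
    linear_combination 4 * e6 + 4 * h6 + 4 * C 4 * h2 + 4 * y ^ 2 * h4 + 2 * y ^ 2 * c4)
  rw [c2] at e8
  refine eq_of_ofNat_mul 4 ?_
  linear_combination -16 * e8 - 16 * C 6 * h2 - 16 * C 4 * h4 - 16 * y ^ 2 * h6 - 16 * h8' -
    8 * y ^ 2 * c6 + 4 * (p 4 - 2 * y ^ 4) * c4

theorem map_plane {H' : Type*} [CommRing H'] [Algebra ℝ H'] (φ : H →ₐ[ℝ] H') {y p4 p8 : H}
    (h : (32 : ℝ) • y ^ 8 - (8 : ℝ) • (p4 * y ^ 4) + p4 ^ 2 - (4 : ℝ) • p8 = 0) :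
    (32 : ℝ) • φ y ^ 8 - (8 : ℝ) • (φ p4 * φ y ^ 4) + φ p4 ^ 2 - (4 : ℝ) • φ p8 = 0 := by
  have h1 := congrArg φ h
  rw [map_sub, map_add, map_sub, map_smul, map_smul, map_smul, map_mul, map_pow, map_pow,
    map_pow, map_zero] at h1
  exact h1

theorem map_lin {H' : Type*} [CommRing H'] [Algebra ℝ H'] (φ : H →ₐ[ℝ] H') {a b c : H}
    {g1 g2 : ℝ} (h : c = g1 • a + g2 • b) : φ c = g1 • φ a + g2 • φ b := by
  rw [h, map_add, map_smul, map_smul]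

theorem map_lin1 {H' : Type*} [CommRing H'] [Algebra ℝ H'] (φ : H →ₐ[ℝ] H') {a c : H}
    {g1 : ℝ} (h : c = g1 • a) : φ c = g1 • φ a := by
  rw [h, map_smul]

theorem map_zero1 {H' : Type*} [CommRing H'] [Algebra ℝ H'] (φ : H →ₐ[ℝ] H') {c : H}
    (h : c = 0) : φ c = 0 := by
  rw [h, map_zero]

theorem mem5 {S : Submodule ℝ H} {q : ℝ} {a b c d : H} (ha : a ∈ S) (hb : b ∈ S) (hc : c ∈ S)
    (hd : d ∈ S) : (6 : ℝ) • a + (12 : ℝ) • b + (20 * q) • c + (15 : ℝ) • d ∈ S :=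
  S.add_mem (S.add_mem (S.add_mem (S.smul_mem _ ha) (S.smul_mem _ hb)) (S.smul_mem _ hc))
    (S.smul_mem _ hd)

theorem diff_zero {a b c : H} (h : a = b - c) (hb : b = 0) (hc : c = 0) : a = 0 := by
  rw [h, hb, hc, sub_zero]

end Alg

variable {E : Type*} [NormedAddCommGroup E] [NormedSpace ℝ E] [FiniteDimensional ℝ E]
  {M : Type*} [MetricSpace M] [ChartedSpace E M] [IsManifold 𝓘(ℝ, E) ∞ M]
  [RiemannianBundle (fun x : M => TangentSpace 𝓘(ℝ, E) x)]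
  [IsContMDiffRiemannianBundle 𝓘(ℝ, E) ∞ E (fun x : M => TangentSpace 𝓘(ℝ, E) x)]
  [CompactSpace M] [ConnectedSpace M] [IsRiemannianManifold 𝓘(ℝ, E) M]
  {e : ∀ x : M, TangentSpace 𝓘(ℝ, E) x → M} {K : ℕ} {D : ℝ} {l : ℕ}

section Geom

variable (G : Geo e D l) (P : PF E M K)

theorem cPB_eq (k : ℕ) : cPB G P k = hbPull G.map_Th G.Th_R (cPF G P k) := by
  rw [cPB, cPF, hbPull_qm]
  congr 1
  refine Subtype.ext ?_
  change sF k (cR (pB P) (sm_pB G P)) = Form.pull G.Th G.map_Th (sF k (cR (pF P) (sm_pF G P)))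
  rw [← S2T.IB.sF_pull, map_pullC_cR]
  congr 1
  exact cR_congr _ _ fun p => pB_eq G P p

theorem cTB_eq (k : ℕ) : cTB G P k = hbPull G.map_Th G.Th_R (cTF G P k) := by
  rw [cTB, cTF, hbPull_qm]
  congr 1
  refine Subtype.ext ?_
  change sF k (cR (tB P) (sm_tB G P)) = Form.pull G.Th G.map_Th (sF k (cR (tF P) (sm_tF G P)))
  rw [← S2T.IB.sF_pull, map_pullC_cR]
  congr 1

/-- **the relation of the plane at the foot** -/
theorem relF (hl : l = 7) (p2 : cPF G P 2 = 0) (p6 : cPF G P 6 = 0) :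
    (32 : ℝ) • yc G P ^ 8 - (8 : ℝ) • (cPF G P 4 * yc G P ^ 4) + cPF G P 4 ^ 2 -
      (4 : ℝ) • cPF G P 8 = 0 :=
  plane_rel (newtE_spec (cQF G P)) (topQ G P (r := 6) (by omega) (newtE_spec _) (by norm_num))
    (fun k hk => cQF_odd G P hk) (cPF_even G P) p2 p6

/-- **the relation of the plane at the cut point** -/
theorem relB (hl : l = 7) (p2 : cPF G P 2 = 0) (p6 : cPF G P 6 = 0) :
    (32 : ℝ) • yc G P ^ 8 - (8 : ℝ) • (cPB G P 4 * yc G P ^ 4) + cPB G P 4 ^ 2 -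
      (4 : ℝ) • cPB G P 8 = 0 := by
  have h1 := map_plane (hbPull G.map_Th G.Th_R) (relF G P hl p2 p6)
  rw [hbPull_y, ← cPB_eq, ← cPB_eq] at h1
  exact h1

/-- the inputs of degree at most twelve -/
structure In7 (t g1 g2 : ℝ) (x1 x2 z : Hb G.R G.map_R) : Prop where
  hl : l = 7
  hE : finrank ℝ E = 16
  T2 : cTF G P 2 = 0
  T4 : cTF G P 4 = t • x1
  T6 : cTF G P 6 = 0
  P2 : cPF G P 2 = 0
  P4 : cPF G P 4 = g1 • x1 + g2 • x2
  P6 : cPF G P 6 = 0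
  S1 : hbPull G.map_Th G.Th_R x1 = x2
  S2 : hbPull G.map_Th G.Th_R x2 = x1
  yz : yc G P * z = x1 - x2
  zm : z ∈ Hm' G.R G.map_R 6
  ex : ∀ k, k = 3 ∨ k = 7 ∨ k = 11 → ∀ v : Form (dPr e D), Form.IsDeg k v → v.d = 0 →
    ∃ η : Form (dPr e D), v = η.d

variable {G P} {t g1 g2 : ℝ} {x1 x2 z : Hb G.R G.map_R}

theorem In7.PB4 (h : In7 G P t g1 g2 x1 x2 z) : cPB G P 4 = g1 • x2 + g2 • x1 := by
  have h1 := map_lin (hbPull G.map_Th G.Th_R) h.P4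
  rw [h.S1, h.S2, ← cPB_eq] at h1
  exact h1

theorem In7.TB4 (h : In7 G P t g1 g2 x1 x2 z) : cTB G P 4 = t • x2 := by
  have h1 := map_lin1 (hbPull G.map_Th G.Th_R) h.T4
  rw [h.S1, ← cTB_eq] at h1
  exact h1

theorem In7.TB2 (h : In7 G P t g1 g2 x1 x2 z) : cTB G P 2 = 0 :=
  (cTB_eq G P 2).trans (map_zero1 (hbPull G.map_Th G.Th_R) h.T2)

theorem In7.TB6 (h : In7 G P t g1 g2 x1 x2 z) : cTB G P 6 = 0 :=
  (cTB_eq G P 6).trans (map_zero1 (hbPull G.map_Th G.Th_R) h.T6)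

theorem In7.PB2 (h : In7 G P t g1 g2 x1 x2 z) : cPB G P 2 = 0 :=
  (cPB_eq G P 2).trans (map_zero1 (hbPull G.map_Th G.Th_R) h.P2)

theorem In7.PB6 (h : In7 G P t g1 g2 x1 x2 z) : cPB G P 6 = 0 :=
  (cPB_eq G P 6).trans (map_zero1 (hbPull G.map_Th G.Th_R) h.P6)

theorem In7.c1 (h : In7 G P t g1 g2 x1 x2 z)
    (H : yc G P * (sg G P 1 + (2 : ℝ) • yc G P) = 0) : sg G P 1 + (2 : ℝ) • yc G P = 0 :=
  cancel G P (k := 2) ((Hm' G.R G.map_R 2).add_mem (sg_mem G P 1)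
    ((Hm' G.R G.map_R 2).smul_mem _ (yc_mem G P))) (h.ex 3 (Or.inl rfl)) H

theorem In7.c3 (h : In7 G P t g1 g2 x1 x2 z) {q : ℝ}
    (H : yc G P * (sg G P 3 - yc G P ^ 3 - q • z) = 0) : sg G P 3 - yc G P ^ 3 - q • z = 0 := by
  have h1 : sg G P 3 ∈ Hm' G.R G.map_R 6 := sg_mem G P 3
  have h2 : yc G P ^ 3 ∈ Hm' G.R G.map_R 6 := Hm'.pow (yc_mem G P) 3
  have h3 : q • z ∈ Hm' G.R G.map_R 6 := (Hm' G.R G.map_R 6).smul_mem _ h.zm
  exact cancel G P (k := 6) ((Hm' G.R G.map_R 6).sub_mem ((Hm' G.R G.map_R 6).sub_mem h1 h2) h3)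
    (h.ex 7 (Or.inr (Or.inl rfl))) H

theorem mem_y5 : yc G P ^ 5 ∈ Hm' G.R G.map_R 10 := Hm'.pow (yc_mem G P) 5

theorem mem_yyz (hz : z ∈ Hm' G.R G.map_R 6) : yc G P ^ 2 * z ∈ Hm' G.R G.map_R 10 :=
  Hm'.mul (j := 4) (k := 6) (Hm'.pow (yc_mem G P) 2) hz

theorem mem_ys4 : yc G P * sg G P 4 ∈ Hm' G.R G.map_R 10 :=
  Hm'.mul (j := 2) (k := 8) (yc_mem G P) (sg_mem G P 4)

theorem mem_s5 : sg G P 5 ∈ Hm' G.R G.map_R 10 := sg_mem G P 5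

theorem mem_c5 (hz : z ∈ Hm' G.R G.map_R 6) (q : ℝ) :
    (6 : ℝ) • sg G P 5 + (12 : ℝ) • yc G P ^ 5 + (20 * q) • (yc G P ^ 2 * z) +
      (15 : ℝ) • (yc G P * sg G P 4) ∈ Hm' G.R G.map_R 10 :=
  mem5 mem_s5 mem_y5 (mem_yyz hz) mem_ys4

theorem In7.c5 (h : In7 G P t g1 g2 x1 x2 z) {q : ℝ}
    (H : yc G P * ((6 : ℝ) • sg G P 5 + (12 : ℝ) • yc G P ^ 5 + (20 * q) • (yc G P ^ 2 * z) +
      (15 : ℝ) • (yc G P * sg G P 4)) = 0) :
    (6 : ℝ) • sg G P 5 + (12 : ℝ) • yc G P ^ 5 + (20 * q) • (yc G P ^ 2 * z) +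
      (15 : ℝ) • (yc G P * sg G P 4) = 0 :=
  cancel G P (k := 10) (mem_c5 h.zm q) (h.ex 11 (Or.inr (Or.inr rfl))) H

theorem In7.s0 (h : In7 G P t g1 g2 x1 x2 z) :
    sg G P 0 = algebraMap ℝ (Hb G.R G.map_R) 4 := by
  have h1 := sg_zero G P (r := 4) (by rw [h.hE, h.hl])
  rw [h1]
  norm_num

theorem In7.a4 (h : In7 G P t g1 g2 x1 x2 z) :
    (2 : ℝ) • sg G P 4 = t • x2 - (g1 • x2 + g2 • x1) := by
  have h1 := r2 G P 2
  rw [show 2 * 2 = 4 from rfl, h.PB4, h.TB4] at h1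
  exact h1

theorem In7.b4 (h : In7 G P t g1 g2 x1 x2 z) :
    (2 : ℝ) • ∑ i ∈ Finset.range 5, ((4 : ℕ).choose i : ℝ) • (yc G P ^ i * sg G P (4 - i)) =
      t • x1 - (g1 • x1 + g2 • x2) := by
  have h1 := r1 G P 2
  rw [show 2 * 2 = 4 from rfl, h.T4, h.P4] at h1
  exact h1

/-- **the structure `Rel7`** -/
theorem In7.rel (h : In7 G P t g1 g2 x1 x2 z) :
    Rel7 t g1 g2 ((t - g1 + g2) / 8) x1 x2 (yc G P) z (sg G P) (newtE ℝ (sg G P)) :=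
  ⟨newtE_spec _, by ring, h.yz, h.s0, diff_zero (r2 G P 1) h.TB2 h.PB2, h.a4,
    diff_zero (r2 G P 3) h.TB6 h.PB6, diff_zero (r1 G P 1) h.T2 h.P2, h.b4,
    diff_zero (r1 G P 3) h.T6 h.P6, h.c1, h.c3, h.c5⟩

/-- the sixth class of `Z` vanishes -/
theorem In7.e6 (h : In7 G P t g1 g2 x1 x2 z) : newtE ℝ (sg G P) 6 = 0 :=
  topZ G P (r := 4) (by rw [h.hE, h.hl]) (newtE_spec _) (by norm_num)

end Geom

end

end Vale.Agent.P231.S3C
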