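import Vale.Agent.P231.S3C.RZ
import Vale.Agent.P231.S3C.RRel
import Vale.Agent.P231.L3.Inst
import Vale.Agent.P231.S2X.Values
import Vale.Agent.P231.S2X.Qcm

/-!
# P231, stage 3, S3-C (R), integrals (0): the class `z` and the structure `In7`
-/

set_option maxSynthPendingDepth 3
set_option linter.unusedSectionVars false
set_option linter.unusedVariables false

open Bundle Manifold Set Filter Module Matrix MeasureTheory
open scoped ContDiff Manifold Topology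

namespace Vale.Agent.P231.S3C

noncomputable section

open Vale.Agent.P234 Vale.Agent.P231 Vale.Agent.P231.Fm Vale.Agent.P231.W Vale.Agent.P231.WR
  Vale.Agent.P231.ChW Vale.Agent.P231.X3 Vale.Agent.P231.S2T
open Vale.Agent.P231.Fm (Sm Dif Form Lam)

variable {E : Type*} [NormedAddCommGroup E] [NormedSpace ℝ E] [FiniteDimensional ℝ E]
  {M : Type*} [MetricSpace M] [ChartedSpace E M] [IsManifold 𝓘(ℝ, E) ∞ M]
  [RiemannianBundle (fun x : M => TangentSpace 𝓘(ℝ, E) x)]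
  [IsContMDiffRiemannianBundle 𝓘(ℝ, E) ∞ E (fun x : M => TangentSpace 𝓘(ℝ, E) x)]
  [CompactSpace M] [ConnectedSpace M] [IsRiemannianManifold 𝓘(ℝ, E) M]
  {e : ∀ x : M, TangentSpace 𝓘(ℝ, E) x → M} {K : ℕ} {D : ℝ}

section Z

variable (G : Geo e D 7) (P : PF E M K) {p : M}
  {Pi : TangentSpace 𝓘(ℝ, E) p → TangentSpace 𝓘(ℝ, E) p →L[ℝ] TangentSpace 𝓘(ℝ, E) p}
  {o : TangentSpace 𝓘(ℝ, E) p → Fm.Lam (TangentSpace 𝓘(ℝ, E) p)}
  {ρ : TangentSpace 𝓘(ℝ, E) p → ℝ} {r₀ : ℝ}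
  (hJ : FE.LineP e D p 3 Pi o) (hρ : WE.Rho e D p ρ r₀) (a κ : ℝ)

/-- the form `b₀ / κ` -/
def zF7 : Form (dPr e D) := κ⁻¹ • L3.b0P G.F G.hD G.hB G.hdiam (F7 G hJ hρ a)

theorem zF7_deg : Form.IsDeg 6 (zF7 G hJ hρ a κ) :=
  (S2II.b0P_isDeg G.F G.hD G.hB G.hdiam (l := 7) (by norm_num) (F7_deg G hJ hρ a)).smul _

theorem zF7_d : (zF7 G hJ hρ a κ).d = 0 := by
  rw [zF7, Form.d_smul, S2II.b0P_d G.F G.hD G.hB G.hdiam (F7_d G hJ hρ a), smul_zero]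

theorem zF7_basic : Basic G.R G.map_R (zF7 G hJ hρ a κ) :=
  H584.Basic.smul _ (H584.J_basic G.isFlow_R _)

/-- the form `b₀ / κ` in the ring of basic forms -/
def zB7 : H584.Bas G.R G.map_R :=
  ⟨zF7 G hJ hρ a κ, (zF7_deg G hJ hρ a κ).sg_of_even (by decide), zF7_d G hJ hρ a κ,
    zF7_basic G hJ hρ a κ⟩

/-- **the class `z`** -/
def zc : Hb G.R G.map_R := qm G.R G.map_R (zB7 G hJ hρ a κ)

theorem zc_mem : zc G hJ hρ a κ ∈ Hm' G.R G.map_R 6 := Hm'.qm _ (zF7_deg G hJ hρ a κ)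

/-- the class at the foot point -/
abbrev x1c : Hb G.R G.map_R := xf G (O7_d G hJ hρ a κ) (O7_sg G hJ hρ a κ)

/-- the class at the cut point -/
abbrev x2c : Hb G.R G.map_R := xb G (O7_d G hJ hρ a κ) (O7_sg G hJ hρ a κ)

end Z

end

end Vale.Agent.P231.S3C
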