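import Vale.Agent.P231.S3C.RInt
import Vale.Agent.P231.L3.NotExact

/-!
# P231, stage 3, S3-C (R), integrals (2): the functional `Φ`
-/

set_option maxSynthPendingDepth 3
set_option linter.unusedSectionVars false
set_option linter.unusedVariables false

open Bundle Manifold Set Filter Module Matrix MeasureTheory
open scoped ContDiff Manifold Topology

namespace Vale.Agent.P231.S3C

noncomputable section

open Vale.Agent.P234 Vale.Agent.P231 Vale.Agent.P231.Fm Vale.Agent.P231.W Vale.Agent.P231.WR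
  Vale.Agent.P231.ChW Vale.Agent.P231.X3 Vale.Agent.P231.S2T
open Vale.Agent.P231.Fm (Sm Dif Form Lam)

variable {E : Type*} [NormedAddCommGroup E] [NormedSpace ℝ E] [FiniteDimensional ℝ E]
  {M : Type*} [MetricSpace M] [ChartedSpace E M] [IsManifold 𝓘(ℝ, E) ∞ M]
  [RiemannianBundle (fun x : M => TangentSpace 𝓘(ℝ, E) x)]
  [IsContMDiffRiemannianBundle 𝓘(ℝ, E) ∞ E (fun x : M => TangentSpace 𝓘(ℝ, E) x)]
  [CompactSpace M] [ConnectedSpace M] [IsRiemannianManifold 𝓘(ℝ, E) M]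
  {e : ∀ x : M, TangentSpace 𝓘(ℝ, E) x → M} {K : ℕ} {D : ℝ}

/-- the averaging formula for `B z w` -/
theorem avg_zz {X : Type*} {Df : Dif X} {T : ℝ} {Φ : X × ℝ → X} (h : IsFlow Df T Φ)
    {ν B : Form Df} (hT : T ≠ 0) (ν1 : Form.pull Φ h.map ν = pr ν + dt) (νo : ν.sg = -ν)
    {I : Form Df →ₗ[ℝ] ℝ} (hId : ∀ w : Form Df, I w.d = 0)
    (hIb : ∀ w, Basic Φ h.map w → I w = 0) (hBo : B.sg = -B) (hBb : Basic Φ h.map B.d)
    (hJd : (J Φ h.map T B).d = 0) {w : Form Df} (hwd : w.d = 0) (hwb : Basic Φ h.map w) :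
    I (ν * (J Φ h.map T B * (J Φ h.map T B * w))) = T * I (B * (J Φ h.map T B * w)) := by
  have hb : Basic Φ h.map (J Φ h.map T B * w) := H584.Basic.mul (H584.J_basic h _) hwb
  have hc : (J Φ h.map T B * w).d = 0 := by rw [Form.d_mul, hJd, hwd, zero_mul, mul_zero, add_zero]
  have hτ : Basic Φ h.map (B * (J Φ h.map T B * w)).d := by
    rw [Form.d_mul, hc, mul_zero, add_zero]
    exact H584.Basic.mul hBb hb
  rw [H584.avg h ν1 νo hId hIb hτ, H584.J_mul_basic _ _ hb]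

theorem form_pow5 {A : Type*} [Ring A] [Algebra ℝ A] (k : ℝ) (b f g : A) :
    (k • b) ^ 2 * ((k • f) ^ 2 * (k • g)) = (k ^ 5) • (b * (b * (f ^ 2 * g))) := by
  rw [smul_pow, smul_pow, smul_mul_smul_comm, smul_mul_smul_comm, pow_two b, mul_assoc]
  congr 1
  ring

section Z

variable (G : Geo e D 7) (P : PF E M K) (hE : finrank ℝ E = 16) {p : M}
  {Pi : TangentSpace 𝓘(ℝ, E) p → TangentSpace 𝓘(ℝ, E) p →L[ℝ] TangentSpace 𝓘(ℝ, E) p}
  {o : TangentSpace 𝓘(ℝ, E) p → Fm.Lam (TangentSpace 𝓘(ℝ, E) p)}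
  {ρ : TangentSpace 𝓘(ℝ, E) p → ℝ} {r₀ : ℝ}
  (hJ : FE.LineP e D p 3 Pi o) (hρ : WE.Rho e D p ρ r₀) {a κ : ℝ} (ha : a ≠ 0) (hκ : κ ≠ 0)

include hE ha in
/-- **the integral over the space of pairs** -/
theorem exists_I7 : ∃ I : Form (dPr e D) →ₗ[ℝ] ℝ, (∀ w : Form (dPr e D), I w.d = 0) ∧
    (∀ w, Basic G.R G.map_R w → I w = 0) ∧
    I (L3.b0P G.F G.hD G.hB G.hdiam (F7 G hJ hρ a) * Form.pull Pr.v map_v
      (B0 G.F D (F7 G hJ hρ a) * (Form.pull foot map_foot (F7 G hJ hρ a) ^ 2 *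
        Form.pull (bar e D) (map_bar G.F D) (F7 G hJ hρ a)))) ≠ 0 := by
  borelize M
  have hnt : Nontrivial E := nontrivial_of_finrank_pos (R := ℝ) (by omega)
  have hN : finrank ℝ E = 15 + 1 := hE
  have hE' : 15 + 1 = (2 * 3 + 2) * (1 + 1) := by norm_num
  obtain ⟨v0, -⟩ := S2II.exists_foot (E := E) p
  obtain ⟨X⟩ := WG.nonempty_fr G.F G.hD G.hB p (D + 1)
  obtain ⟨r, K', hr, hrad⟩ := WQ.exists_radCut (V := Eu E)
  have hDR : D < D + 1 := lt_add_one D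
  let b : OrthonormalBasis (Fin (15 + 1)) ℝ (Eu E) :=
    (stdOrthonormalBasis ℝ (Eu E)).reindex (finCongr (by
      rw [finrank_euclideanSpace, Fintype.card_fin, hN]))
  obtain ⟨T, Lm, Y, ε₀, hT, hw, hL, -, hrev, -⟩ :=
    S2N.exists_all G.F G.hD G.hB G.hdiam (l := 2 * 3 + 1) (Geo.hl (m := 3) G)
  obtain ⟨g, hg, hg0, hg1, -⟩ := hL.exists_b1 (l := 2 * 3 + 1) (Geo.hl (m := 3) G)
  let S := L3.inst G.F G.hD G.hB G.hdiam (m := 3) (n := 1) (N := 15) (Geo.hl (m := 3) G) hN hE' hJ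
    hρ ha hL g hg hg0 hg1 X v0 hr hDR b
  have hq : S.I (S.B0 * (S.Fx ^ (1 + 1) * S.Fb ^ 1)) ≠ 0 :=
    L3.inst_qm_ne G.F G.hD G.hB G.hdiam (m := 3) (n := 1) (N := 15) (Geo.hl (m := 3) G) hN hE' hJ
      hρ ha hL g hg hg0 hg1 X v0 hr hDR b (by norm_num) hrad
  rw [pow_one] at hq
  refine ⟨S.I ∘ₗ S.P, fun w => S.hId w, fun w hw => S.hIψ w hw, ?_⟩
  change S.I (S.P (S.b0 * Form.pull S.pi S.hpi (S.B0 * (S.Fx ^ 2 * S.Fb)))) ≠ 0
  rw [L3.sys_P, map_smul]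
  exact smul_ne_zero S.hk hq

include P hE ha hκ in
/-- **the functional `Φ`** -/
theorem exists_Phi : ∃ Φ : Hb G.R G.map_R →ₗ[ℝ] ℝ,
    Φ (zc G hJ hρ a κ ^ 2 * (x1c G hJ hρ a κ ^ 2 * x2c G hJ hρ a κ)) ≠ 0 := by
  obtain ⟨I, hId, hIb, hI⟩ := exists_I7 G hE hJ hρ ha
  have hνb : Basic G.R G.map_R (nu e D P).d := H584.basic_d_contact G.isFlow_R (nu_R G P)
  refine ⟨S2X.Ph G.isFlow_R hνb (nu_sg P) hId hIb, ?_⟩
  set X1 := invB G G.map_foot G.foot_R (O7_d G hJ hρ a κ) (O7_sg G hJ hρ a κ) with hX1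
  set X2 := invB G G.map_bar G.bar_R (O7_d G hJ hρ a κ) (O7_sg G hJ hρ a κ) with hX2
  set B : Form (dPr e D) := Form.pull Pr.v map_v (B0 G.F D (F7 G hJ hρ a)) with hB
  set f : Form (dPr e D) := Form.pull (fun p : Pr e D => foot p.v) G.map_foot (F7 G hJ hρ a)
    with hf
  set g : Form (dPr e D) := Form.pull (fun p : Pr e D => bar e D p.v) G.map_bar (F7 G hJ hρ a)
    with hg
  have e1 : zc G hJ hρ a κ ^ 2 * (x1c G hJ hρ a κ ^ 2 * x2c G hJ hρ a κ) =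
      Ideal.Quotient.mk (H584.Exa G.R G.map_R) (zB7 G hJ hρ a κ ^ 2 * (X1 ^ 2 * X2)) := rfl
  have e2 : ((zB7 G hJ hρ a κ ^ 2 * (X1 ^ 2 * X2) : H584.Bas G.R G.map_R) : Form (dPr e D)) =
      (κ⁻¹ ^ 5) • (J G.R G.map_R (2 * Real.pi) B *
        (J G.R G.map_R (2 * Real.pi) B * (f ^ 2 * g))) := by
    change (κ⁻¹ • J G.R G.map_R (2 * Real.pi) B) ^ 2 *
      (Form.pull (fun p : Pr e D => foot p.v) G.map_foot (κ⁻¹ • F7 G hJ hρ a) ^ 2 *
        Form.pull (fun p : Pr e D => bar e D p.v) G.map_bar (κ⁻¹ • F7 G hJ hρ a)) = _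
    rw [Co.pull_smul, Co.pull_smul, form_pow5]
  have hfd : f.d = 0 := by
    rw [hf, ← Form.pull_d, F7_d G hJ hρ a]
    exact map_zero (Form.pullA _ G.map_foot)
  have hgd : g.d = 0 := by
    rw [hg, ← Form.pull_d, F7_d G hJ hρ a]
    exact map_zero (Form.pullA _ G.map_bar)
  have hfb : Basic G.R G.map_R f := H584.basic_pull G.map_foot G.foot_R _
  have hgb : Basic G.R G.map_R g := H584.basic_pull G.map_bar G.bar_R _
  have hBd : B.d = g - f := BP_d G hJ hρ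
  have hBb : Basic G.R G.map_R B.d := by
    rw [hBd]
    exact H584.Basic.sub hgb hfb
  have hBo : B.sg = -B := by
    have h1 : Form.IsDeg 7 B := (S2II.isDeg_B0 G.F (F7_deg G hJ hρ a)).pull _ map_v
    exact h1.sg_of_odd (by decide)
  have hJd : (J G.R G.map_R (2 * Real.pi) B).d = 0 :=
    S2II.b0P_d G.F G.hD G.hB G.hdiam (F7_d G hJ hρ a)
  have hJe : (J G.R G.map_R (2 * Real.pi) B).sg = J G.R G.map_R (2 * Real.pi) B := by
    have h1 : Form.IsDeg 6 (J G.R G.map_R (2 * Real.pi) B) :=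
      S2II.b0P_isDeg G.F G.hD G.hB G.hdiam (l := 7) (by norm_num) (F7_deg G hJ hρ a)
    exact h1.sg_of_even (by decide)
  have hwd : (f ^ 2 * g).d = 0 := by
    rw [Form.d_mul, hgd, mul_zero, add_zero, pow_two, Form.d_mul, hfd, zero_mul, mul_zero,
      add_zero, zero_mul]
  have hwb : Basic G.R G.map_R (f ^ 2 * g) := H584.Basic.mul (H584.Basic.pow hfb 2) hgb
  have h2 := avg_zz G.isFlow_R (mul_ne_zero two_ne_zero Real.pi_ne_zero) (nu_R G P) (nu_sg P) hId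
    hIb hBo hBb hJd hwd hwb
  have e3 : B * (J G.R G.map_R (2 * Real.pi) B * (f ^ 2 * g)) =
      L3.b0P G.F G.hD G.hB G.hdiam (F7 G hJ hρ a) * Form.pull Pr.v map_v
      (B0 G.F D (F7 G hJ hρ a) * (Form.pull foot map_foot (F7 G hJ hρ a) ^ 2 *
        Form.pull (bar e D) (map_bar G.F D) (F7 G hJ hρ a))) := by
    have h3 : B * J G.R G.map_R (2 * Real.pi) B = J G.R G.map_R (2 * Real.pi) B * B :=
      (H584.even_comm hJe _).eq.symm
    rw [← mul_assoc, h3, mul_assoc]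
    congr 1
    have h4 : f = Form.pull Pr.v map_v (Form.pull foot map_foot (F7 G hJ hρ a)) :=
      (H584.pull_pull (k := fun q : Pr e D => foot q.v) map_v map_foot G.map_foot
        (fun _ => rfl) _).symm
    have h5 : g = Form.pull Pr.v map_v (Form.pull (bar e D) (map_bar G.F D) (F7 G hJ hρ a)) :=
      (H584.pull_pull (k := fun q : Pr e D => bar e D q.v) map_v (map_bar G.F D) G.map_bar
        (fun _ => rfl) _).symm
    rw [h4, h5]
    have h6 := map_mul (Form.pullA Pr.v (map_v (e := e) (D := D))) (B0 G.F D (F7 G hJ hρ a))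
      (Form.pull foot map_foot (F7 G hJ hρ a) ^ 2 *
        Form.pull (bar e D) (map_bar G.F D) (F7 G hJ hρ a))
    have h7 := map_mul (Form.pullA Pr.v (map_v (e := e) (D := D)))
      (Form.pull foot map_foot (F7 G hJ hρ a) ^ 2)
        (Form.pull (bar e D) (map_bar G.F D) (F7 G hJ hρ a))
    have h8 := map_pow (Form.pullA Pr.v (map_v (e := e) (D := D)))
      (Form.pull foot map_foot (F7 G hJ hρ a)) 2
    rw [h8] at h7
    rw [h7] at h6
    exact h6.symm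
  rw [e1, S2X.Ph_mk, e2, mul_smul_comm, map_smul, h2, e3, smul_eq_mul]
  exact mul_ne_zero (pow_ne_zero _ (inv_ne_zero hκ))
    (mul_ne_zero (mul_ne_zero two_ne_zero Real.pi_ne_zero) hI)

end Z

end

end Vale.Agent.P231.S3C
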