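import Vale.Agent.P231.S3C.RPsi
import Vale.Agent.P231.S3C.RInt2

/-!
# P231, stage 3, S3-C (R): the conclusion
-/

set_option maxSynthPendingDepth 3
set_option linter.unusedSectionVars false
set_option linter.unusedVariables false

open Bundle Manifold Set Filter Module Matrix
open scoped ContDiff Manifold Topology

namespace Vale.Agent.P231.S3C

noncomputable section

open Vale.Agent.P234 Vale.Agent.P231 Vale.Agent.P231.Fm Vale.Agent.P231.W Vale.Agent.P231.WR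
  Vale.Agent.P231.ChW Vale.Agent.P231.X3 Vale.Agent.P231.S2T Vale.Agent.P231.S2II
open Vale.Agent.P231.Fm (Sm Dif Form Lam)

variable {E : Type*} [NormedAddCommGroup E] [NormedSpace ℝ E] [FiniteDimensional ℝ E]
  {M : Type*} [MetricSpace M] [ChartedSpace E M] [IsManifold 𝓘(ℝ, E) ∞ M]
  [RiemannianBundle (fun x : M => TangentSpace 𝓘(ℝ, E) x)]
  [IsContMDiffRiemannianBundle 𝓘(ℝ, E) ∞ E (fun x : M => TangentSpace 𝓘(ℝ, E) x)]
  [CompactSpace M] [ConnectedSpace M] [IsRiemannianManifold 𝓘(ℝ, E) M]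
  {e : ∀ x : M, TangentSpace 𝓘(ℝ, E) x → M} {K : ℕ} {D : ℝ}

theorem kap_eq {a : ℝ} (ha : 0 < a) : FE.kap 3 a = k7 a := by
  have h1 : FE.kap 3 a = |a * ((2 * 3 + 1 : ℕ).factorial : ℝ)| * S2II.area 8 := rfl
  have h2 : ((2 * 3 + 1 : ℕ).factorial : ℝ) = 5040 := by norm_num [Nat.factorial]
  rw [h1, h2, S2II.area_eight, abs_of_pos (by positivity), k7]

section Z

variable (G : Geo e D 7) (P : PF E M K) {p : M}
  {Pi : TangentSpace 𝓘(ℝ, E) p → TangentSpace 𝓘(ℝ, E) p →L[ℝ] TangentSpace 𝓘(ℝ, E) p}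
  {o : TangentSpace 𝓘(ℝ, E) p → Fm.Lam (TangentSpace 𝓘(ℝ, E) p)}
  {ρ : TangentSpace 𝓘(ℝ, E) p → ℝ} {r₀ : ℝ}
  (hJ : FE.LineP e D p 3 Pi o) (hρ : WE.Rho e D p ρ r₀)

theorem phi1 {R : Type*} [CommRing R] {y x1 x2 : R} (h3 : x1 ^ 3 = 0) :
    y ^ 2 * x1 * (x1 ^ 2 * x2) = 0 := by linear_combination (y ^ 2 * x2) * h3

theorem phi2 {R : Type*} [CommRing R] {y x1 x2 : R} (h4 : x1 ^ 2 * x2 ^ 2 = 0) :
    y ^ 2 * x2 * (x1 ^ 2 * x2) = 0 := by linear_combination y ^ 2 * h4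

theorem phi0 {R : Type*} [AddCommGroup R] [Module ℝ R] (Φ : R →ₗ[ℝ] ℝ) {x : R} (h : x = 0) :
    Φ x = 0 := by rw [h, map_zero]

/-- **the class of the planes** -/
theorem exists_R (hE : finrank ℝ E = 16) {a : ℝ} (ha : a ≠ 0) :
    ∃ γ : ℝ, (γ = 6 ∨ γ = -6) ∧ ∃ η : Form (dUT E M), ucl G P 4 =
      (-(4 * γ)) • Form.pull foot map_foot (O7 G hJ hρ a (k7 a)) +
      (-(4 * γ)) • Form.pull (bar e D) (WR.map_bar G.F D) (O7 G hJ hρ a (k7 a)) + η.d := by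
  obtain ⟨t, g₁, g₂, h, -, -, ξ, hξ⟩ := exists_in7 G P hE hJ hρ ha (k7_ne ha)
  obtain ⟨Φ, p1⟩ := exists_Phi G P hE hJ hρ ha (k7_ne ha)
  have h3 : x1c G hJ hρ a (k7 a) ^ 3 = 0 := x1_cube G hJ hρ hE
  have h4 : x1c G hJ hρ a (k7 a) ^ 2 * x2c G hJ hρ a (k7 a) ^ 2 = 0 := x12 G hE hJ hρ
  obtain ⟨Ψ, s1, s2, s3, s4⟩ := exists_Psi G P hJ hρ ha (by omega)
  obtain ⟨q1, q2, q3⟩ := h.rel.fin h.e6 s1 s2 s3 s4 p1 (phi0 Φ (phi1 h3))
    (phi0 Φ (phi2 h4)) (phi0 Φ (zyx (yz7 G P hJ hρ) h3 h4)) h3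
    (qF7 G P hE hJ hρ h) (qB7 G P hE hJ hρ h)
  set q : ℝ := (t - g₁ + g₂) / 8 with hq
  refine ⟨-(2 * q), ?_, ξ, ?_⟩
  · have h1 : (q - 3) * (q + 3) = 0 := by linarith
    rcases mul_eq_zero.1 h1 with h2 | h2
    · right
      linarith
    · left
      linarith
  · have h1 : -(4 * -(2 * q)) = 8 * q := by ring
    rw [h1, hξ, q2, q3]

/-- **the class of the planes**, in the shape of `c_eq7` -/
theorem exists_hR (F : Facts e) (hD : 0 < D) (hB : InjGE e D)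
    (hdiam : ∀ p q : M, dist p q ≤ D)
    (hl : ∀ x y : M, dist x y = D → finrank ℝ (H775.Pl e D x y) = 2 * 3 + 2)
    (G : Geo e D (2 * 3 + 1)) (hE : finrank ℝ E = 16) :
    ∃ γ : ℝ, (γ = 6 ∨ γ = -6) ∧ ∃ η : Form (dUT E M), ucl G P 4 =
      (-(4 * γ) / FE.kap 3 1) • Form.pull foot map_foot (FE.FF F hD hB hdiam hl hJ hρ 1) +
      (-(4 * γ) / FE.kap 3 1) • Form.pull (fun v => foot (phi F (v, D)))
        (Dif.Map.comp (f := fun v => phi F (v, D)) (g := foot)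
            map_foot (H584.map_at (isFlow_phi F hD hB hdiam).map D))
        (FE.FF F hD hB hdiam hl hJ hρ 1) + η.d := by
  obtain ⟨γ, hγ, η, hη⟩ := exists_R G P hJ hρ hE one_ne_zero
  refine ⟨γ, hγ, η, ?_⟩
  rw [hη, kap_eq one_pos]
  have h1 : Form.pull foot map_foot (O7 G hJ hρ 1 (k7 1)) = (k7 1)⁻¹ •
      Form.pull foot map_foot (FE.FF F hD hB hdiam hl hJ hρ 1) :=
    map_smul (Form.pullA foot map_foot) _ _
  have h2 : Form.pull (bar e D) (WR.map_bar G.F D) (O7 G hJ hρ 1 (k7 1)) = (k7 1)⁻¹ •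
      Form.pull (fun v => foot (phi F (v, D)))
        (Dif.Map.comp (f := fun v => phi F (v, D)) (g := foot)
            map_foot (H584.map_at (isFlow_phi F hD hB hdiam).map D))
        (FE.FF F hD hB hdiam hl hJ hρ 1) :=
    map_smul (Form.pullA (fun v => foot (phi F (v, D))) (Dif.Map.comp
      (f := fun v => phi F (v, D)) (g := foot)
            map_foot (H584.map_at (isFlow_phi F hD hB hdiam).map D))) _ _
  rw [h1, h2, smul_smul, smul_smul, div_eq_mul_inv]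

end Z

end

end Vale.Agent.P231.S3C
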