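import Vale.Agent.P231.S3C.RFib2
import Vale.Agent.P231.S3C.RInt0
import Vale.Agent.P231.TH.Sph8

/-!
# P231, stage 3, S3-C (R): the functional of one fibre
-/

set_option maxSynthPendingDepth 3
set_option linter.unusedSectionVars false
set_option linter.unusedVariables false

open Bundle Manifold Set Filter Module Matrix
open scoped ContDiff Manifold Topology

namespace Vale.Agent.P231.S3C

noncomputable section

open Vale.Agent.P234 Vale.Agent.P231 Vale.Agent.P231.Fm Vale.Agent.P231.W Vale.Agent.P231.WR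
  Vale.Agent.P231.ChW Vale.Agent.P231.X3 Vale.Agent.P231.S2T Vale.Agent.P231.S2II
  Vale.Agent.P231.CoZ
open Vale.Agent.P231.Fm (Sm Dif Form Lam)
open Vale.Agent.P231.H584 (J_basic Basic.sub Basic.mul Basic.smul d_mul_closed J_mul_basic avg)

theorem alg_pow26 {R S : Type*} [CommRing R] [CommRing S] [Algebra ℝ R] [Algebra ℝ S]
    (φ : R →ₐ[ℝ] S) (x y : R) : φ y ^ 6 + φ x ^ 2 = φ (x ^ 2 + y ^ 6) := by
  rw [map_add, map_pow, map_pow, add_comm]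

theorem alg_pow2 {R S : Type*} [CommRing R] [CommRing S] [Algebra ℝ R] [Algebra ℝ S]
    (φ : R →ₐ[ℝ] S) (x : R) : φ x ^ 2 = φ (x ^ 2) := by
  rw [map_pow]

variable {E : Type*} [NormedAddCommGroup E] [NormedSpace ℝ E] [FiniteDimensional ℝ E]
  {M : Type*} [MetricSpace M] [ChartedSpace E M] [IsManifold 𝓘(ℝ, E) ∞ M]
  [RiemannianBundle (fun x : M => TangentSpace 𝓘(ℝ, E) x)]
  [IsContMDiffRiemannianBundle 𝓘(ℝ, E) ∞ E (fun x : M => TangentSpace 𝓘(ℝ, E) x)]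
  [CompactSpace M] [ConnectedSpace M] [IsRiemannianManifold 𝓘(ℝ, E) M]
  {e : ∀ x : M, TangentSpace 𝓘(ℝ, E) x → M} {K : ℕ} {D : ℝ}

section Z

variable (G : Geo e D 7) (P : PF E M K) {p : M}
  {Pi : TangentSpace 𝓘(ℝ, E) p → TangentSpace 𝓘(ℝ, E) p →L[ℝ] TangentSpace 𝓘(ℝ, E) p}
  {o : TangentSpace 𝓘(ℝ, E) p → Fm.Lam (TangentSpace 𝓘(ℝ, E) p)}
  {ρ : TangentSpace 𝓘(ℝ, E) p → ℝ} {r₀ : ℝ}
  (hJ : FE.LineP e D p 3 Pi o) (hρ : WE.Rho e D p ρ r₀) {a : ℝ} (ha : a ≠ 0)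

instance : NeZero 7 := ⟨by norm_num⟩

theorem odd7 : Odd 7 := ⟨3, rfl⟩

include ha in
theorem orn7 (h2 : 2 ≤ finrank ℝ E) : Orn G.F G.hD G.hB G.hdiam (l := 7)
    (L3.b0P G.F G.hD G.hB G.hdiam (F7 G hJ hρ a)) :=
  S2II.orn_b0P (n := 3) G.F G.hD G.hB G.hdiam h2 (S2T.Geo.hl (m := 3) G) hJ hρ ha

include ha in
/-- the bundle of the second vectors -/
theorem bunS (h2 : 2 ≤ finrank ℝ E) :
    Co.Bun (dUT E M) (dPr e D) (dFo G.F G.hD G.hB G.hdiam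
      (L3.b0P G.F G.hD G.hB G.hdiam (F7 G hJ hρ a))) (Eul 7) Pr.v Fr.v
      (cone G.F G.hD G.hB G.hdiam) :=
  bun_SL G.F G.hD G.hB G.hdiam G.hP (orn7 G hJ hρ ha h2) odd7

include ha in
/-- the bundle of the first vectors -/
theorem bunT (h2 : 2 ≤ finrank ℝ E) :
    Co.Bun (CoZ.dZ e D) (dUT E M) (dFoP e D 7 (B0 G.F D (F7 G hJ hρ a))) (Eul 8) (fb e D) fq
      evP :=
  bunZ G odd7 (F7_d G hJ hρ a) (F7_deg G hJ hρ a) (kfP_FG (n := 3) G hJ hρ ha (by omega))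

/-- the integral over the fibre over the cut pair of `v₀` -/
def JJ (h2 : 2 ≤ finrank ℝ E) (v₀ : UT E M) : Form (dPr e D) →ₗ[ℝ] ℝ :=
  fI (bas 8) (bas 7) (bunT G hJ hρ ha h2) (bunS G hJ hρ ha h2) (fb e D v₀)

theorem at_fb (v₀ : UT E M) {E' : Type} [NormedAddCommGroup E'] [NormedSpace ℝ E']
    [FiniteDimensional ℝ E'] (y : E') : (CoZ.dZ e D).At (fun _ : E' => fb e D v₀) y :=
  map_fb (u := fun _ : E' => v₀) (Eventually.of_forall fun y => contMDiffAt_const)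

theorem JJ_d (h2 : 2 ≤ finrank ℝ E) (v₀ : UT E M) (w : Form (dPr e D)) :
    JJ G hJ hρ ha h2 v₀ w.d = 0 :=
  fI_d _ _ _ _ _ (fun y => at_fb v₀ y) w

theorem JJ_basic (h2 : 2 ≤ finrank ℝ E) (v₀ : UT E M) (w : Form (dPr e D))
    (hw : Basic G.R G.map_R w) : JJ G hJ hρ ha h2 v₀ w = 0 :=
  fI_basic (m₁ := 7) (m₂ := 6) (bas 8) (bas 7) (bunT G hJ hρ ha h2) (bunS G hJ hρ ha h2)
    (fb e D v₀) (fun y => at_fb v₀ y) finrank_euclideanSpace_fin finrank_euclideanSpace_fin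
    G.map_R G.isFlow_R.zero (fun v t => Prod.ext (G.foot_R v t) (G.bar_R v t))
    (S2II.moves_R G.F G.hD G.hB G.hdiam) hw

/-- the functional only sees the fibre -/
theorem JJ_fib (h2 : 2 ≤ finrank ℝ E) (v₀ : UT E M) {w : Form (dPr e D)}
    (hw : ∀ {X : Type} [NormedAddCommGroup X] [NormedSpace ℝ X] [FiniteDimensional ℝ X]
      {Q : X → Pr e D} {x : X}, (dPr e D).At Q x →
      (∀ᶠ s in 𝓝 x, foot (Q s).v = foot v₀ ∧ bar e D (Q s).v = bar e D v₀) →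
      w.val Q x = 0) : JJ G hJ hρ ha h2 v₀ w = 0 := by
  refine fI_eq_zero (m₁ := 7) (m₂ := 6) (bas 8) (bas 7) (bunT G hJ hρ ha h2)
    (bunS G hJ hρ ha h2) (fb e D v₀) (fun y => at_fb v₀ y) ?_
  refine Form.ext_val fun X _ _ _ Q x hQ => ?_
  rw [Form.res_val _ hQ, Form.part_val, hw hQ.1 (hQ.2.mono fun s hs =>
    ⟨congrArg Prod.fst hs, congrArg Prod.snd hs⟩), map_zero, Form.zero_val]

/-- the functional on the classes -/
def Psi (h2 : 2 ≤ finrank ℝ E) (v₀ : UT E M) : Hb G.R G.map_R →ₗ[ℝ] ℝ :=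
  S2X.Ph (G.isFlow_R) (ν := nu e D P) (I := JJ G hJ hρ ha h2 v₀)
    (H584.basic_d_contact G.isFlow_R (nu_R G P)) (nu_sg P) (JJ_d G hJ hρ ha h2 v₀)
    (JJ_basic G hJ hρ ha h2 v₀)

theorem Psi_qm (h2 : 2 ≤ finrank ℝ E) (v₀ : UT E M) (w : H584.Bas G.R G.map_R) :
    Psi G P hJ hρ ha h2 v₀ (qm G.R G.map_R w) =
      JJ G hJ hρ ha h2 v₀ (nu e D P * (w : Form (dPr e D))) := rfl

theorem Psi_fib (h2 : 2 ≤ finrank ℝ E) (v₀ : UT E M) (w : H584.Bas G.R G.map_R)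
    (hw : ∀ {X : Type} [NormedAddCommGroup X] [NormedSpace ℝ X] [FiniteDimensional ℝ X]
      {Q : X → Pr e D} {x : X}, (dPr e D).At Q x →
      (∀ᶠ s in 𝓝 x, foot (Q s).v = foot v₀ ∧ bar e D (Q s).v = bar e D v₀) →
      (w : Form (dPr e D)).val Q x = 0) :
    Psi G P hJ hρ ha h2 v₀ (qm G.R G.map_R w) = 0 := by
  rw [Psi_qm]
  refine JJ_fib G hJ hρ ha h2 v₀ fun hQ hpq => ?_
  rw [Form.mul_val, hw hQ hpq, mul_zero]

/-- the value of `B₀ b₀` -/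
theorem JJ_B (h2 : 2 ≤ finrank ℝ E) (v₀ : UT E M) :
    JJ G hJ hρ ha h2 v₀ (Form.pull Pr.v map_v (B0 G.F D (F7 G hJ hρ a)) *
      L3.b0P G.F G.hD G.hB G.hdiam (F7 G hJ hρ a)) ≠ 0 := by
  set b := L3.b0P G.F G.hD G.hB G.hdiam (F7 G hJ hρ a) with hb
  have hbe : b.sg = b := (S2II.b0P_isDeg G.F G.hD G.hB G.hdiam (l := 7) (by norm_num)
    (F7_deg G hJ hρ a)).sg_of_even (by decide)
  have h1 : Form.pull Pr.v map_v (B0 G.F D (F7 G hJ hρ a)) * b =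
      b * Form.pull Pr.v map_v (B0 G.F D (F7 G hJ hρ a)) := (H584.even_comm hbe _).eq.symm
  obtain ⟨k, hk, hk1⟩ := SL_self G.F G.hD G.hB G.hdiam G.hP (orn7 G hJ hρ ha h2) odd7 h2
  have h3 : (bunS G hJ hρ ha h2).SI (bas 7) (b *
      Form.pull Pr.v map_v (B0 G.F D (F7 G hJ hρ a))) = k • B0 G.F D (F7 G hJ hρ a) := by
    have h4 := (bunS G hJ hρ ha h2).SI_mul_π (bas 7) b (B0 G.F D (F7 G hJ hρ a))
    have h5 : (bunS G hJ hρ ha h2).SI (bas 7) b = k • 1 := hk1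
    rw [h5, smul_mul_assoc, one_mul] at h4
    exact h4
  obtain ⟨k', hk', hA⟩ := exists_angZ G odd7 (F7_d G hJ hρ a) (F7_deg G hJ hρ a)
    (kfP_FG (n := 3) G hJ hρ ha (by omega)) (by omega)
  have h6 : (bunT G hJ hρ ha h2).SI (bas 8) (B0 G.F D (F7 G hJ hρ a)) = k' • 1 := by
    have h7 : (bunT G hJ hρ ha h2).SI (bas 8) (k'⁻¹ • B0 G.F D (F7 G hJ hρ a)) = 1 := hA.one
    rw [Co.Bun.SI_smul] at h7
    rw [← h7, smul_smul, mul_inv_cancel₀ hk', one_smul]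
  rw [h1, JJ, fI_apply, h3, Co.Bun.SI_smul, h6, ptv_smul, ptv_smul]
  have h8 : WF.ptv (1 : Form (CoZ.dZ e D)) (fb e D v₀) = 1 := by
    rw [WF.ptv, Form.one_val (at_fb v₀ (0 : ℝ)), map_one]
  rw [h8, mul_one]
  exact mul_ne_zero hk.ne' hk'

/-- the constant -/
def k7 (a : ℝ) : ℝ := a * 5040 * (Real.pi ^ 4 / 3)

theorem k7_ne {a : ℝ} (ha : a ≠ 0) : k7 a ≠ 0 := by
  have := Real.pi_pos
  unfold k7
  positivity

theorem Psi_z (h2 : 2 ≤ finrank ℝ E) (v₀ : UT E M) {κ : ℝ} (hκ : κ ≠ 0) :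
    Psi G P hJ hρ ha h2 v₀ (zc G hJ hρ a κ ^ 2) ≠ 0 := by
  set b := L3.b0P G.F G.hD G.hB G.hdiam (F7 G hJ hρ a) with hb
  set B : Form (dPr e D) := Form.pull Pr.v map_v (B0 G.F D (F7 G hJ hρ a)) with hB
  have hJB : J G.R G.map_R (2 * Real.pi) B = b := rfl
  have hbb : Basic G.R G.map_R b := J_basic G.isFlow_R _
  have hbd : b.d = 0 := S2II.b0P_d G.F G.hD G.hB G.hdiam (F7_d G hJ hρ a)
  have hBd : Basic G.R G.map_R B.d := by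
    have h1 : B.d = Form.pull (fun p : Pr e D => bar e D p.v) G.map_bar (F7 G hJ hρ a) -
        Form.pull (fun p : Pr e D => foot p.v) G.map_foot (F7 G hJ hρ a) := by
      rw [hB, ← Form.pull_d, B0_d G.F (F7_d G hJ hρ a), Co.pull_sub]
      congr 1
      · exact H584.pull_pull _ _ _ (fun _ => rfl) _
      · exact H584.pull_pull _ _ _ (fun _ => rfl) _
    rw [h1]
    exact Basic.sub (invB G G.map_bar G.bar_R (F7_d G hJ hρ a) (F7_sg G hJ hρ a)).2.2.2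
      (invB G G.map_foot G.foot_R (F7_d G hJ hρ a) (F7_sg G hJ hρ a)).2.2.2
  have hτ : Basic G.R G.map_R (B * b).d := by
    rw [d_mul_closed _ hbd]
    exact Basic.mul hBd hbb
  have h1 := avg G.isFlow_R (nu_R G P) (nu_sg P) (JJ_d G hJ hρ ha h2 v₀)
    (JJ_basic G hJ hρ ha h2 v₀) hτ
  rw [J_mul_basic _ _ hbb, hJB] at h1
  have h3 : Psi G P hJ hρ ha h2 v₀ (zc G hJ hρ a κ ^ 2) =
      (κ⁻¹ * κ⁻¹) * JJ G hJ hρ ha h2 v₀ (nu e D P * (b * b)) := by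
    have h4 : zc G hJ hρ a κ ^ 2 = qm G.R G.map_R (zB7 G hJ hρ a κ ^ 2) :=
      alg_pow2 (qm G.R G.map_R) _
    have h5 : ((zB7 G hJ hρ a κ ^ 2 : H584.Bas G.R G.map_R) : Form (dPr e D)) =
        (κ⁻¹ • b) * (κ⁻¹ • b) := sq (κ⁻¹ • b)
    rw [h4, Psi_qm, h5, smul_mul_smul_comm, mul_smul_comm, map_smul, smul_eq_mul]
  rw [h3, ← h1]
  have hpi := Real.pi_pos
  refine mul_ne_zero (mul_ne_zero (inv_ne_zero hκ) (inv_ne_zero hκ)) (mul_ne_zero (by positivity)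
    (JJ_B G hJ hρ ha h2 v₀))

theorem Psi_x (h2 : 2 ≤ finrank ℝ E) (v₀ : UT E M) (κ : ℝ) {f : Pr e D → M}
    (hf : (dPr e D).Map (dM E M) f) (hi : ∀ p t, f (G.R (p, t)) = f p) {c : M}
    (hc : ∀ q : Pr e D, foot q.v = foot v₀ → bar e D q.v = bar e D v₀ → f q = c)
    (u : H584.Bas G.R G.map_R) :
    Psi G P hJ hρ ha h2 v₀ (qm G.R G.map_R u *
      qm G.R G.map_R (invB G hf hi (O7_d G hJ hρ a κ) (O7_sg G hJ hρ a κ))) = 0 := by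
  rw [← map_mul]
  refine Psi_fib G P hJ hρ ha h2 v₀ _ fun {X} _ _ _ {Q x} hQ hpq => ?_
  have h1 : (invB G hf hi (O7_d G hJ hρ a κ) (O7_sg G hJ hρ a κ) : Form (dPr e D)).val Q x = 0 := by
    change (Form.pull f hf (O7 G hJ hρ a κ)).val Q x = 0
    rw [Form.pull_val _ _ hQ]
    exact TH.val_const (k := 7) (O7_deg G hJ hρ a κ) (hf hQ)
      (hpq.mono fun s hs => hc _ hs.1 hs.2)
  change ((u : Form (dPr e D)) * (invB G hf hi (O7_d G hJ hρ a κ) (O7_sg G hJ hρ a κ) :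
    Form (dPr e D))).val Q x = 0
  rw [Form.mul_val, h1, mul_zero]

theorem Psi_y (h2 : 2 ≤ finrank ℝ E) (v₀ : UT E M) (hv₀ : foot v₀ = p) :
    Psi G P hJ hρ ha h2 v₀ (yc G P ^ 6) =
      -Psi G P hJ hρ ha h2 v₀ (zc G hJ hρ a (k7 a) ^ 2) := by
  rw [eq_neg_iff_add_eq_zero, ← map_add]
  have h1 : yc G P ^ 6 + zc G hJ hρ a (k7 a) ^ 2 =
      qm G.R G.map_R (zB7 G hJ hρ a (k7 a) ^ 2 + yB G P ^ 6) :=
    alg_pow26 (qm G.R G.map_R) _ _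
  rw [h1]
  refine Psi_fib G P hJ hρ ha h2 v₀ _ fun {X} _ _ _ {Q x} hQ hpq => ?_
  exact fib_rel G P hJ hρ ha (q := bar e D v₀) hQ (by rw [← hv₀]; exact hpq)

include hJ hρ ha in
/-- **the functional of one fibre** -/
theorem exists_Psi (h2 : 2 ≤ finrank ℝ E) : ∃ Ψ : Hb G.R G.map_R →ₗ[ℝ] ℝ,
    Ψ (yc G P ^ 2 * x1c G hJ hρ a (k7 a)) = 0 ∧ Ψ (yc G P ^ 2 * x2c G hJ hρ a (k7 a)) = 0 ∧
    Ψ (zc G hJ hρ a (k7 a) ^ 2) ≠ 0 ∧
    Ψ (yc G P ^ 6) = -Ψ (zc G hJ hρ a (k7 a) ^ 2) := by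
  have : Nontrivial E := nontrivial_of_finrank_pos (R := ℝ) (by omega)
  obtain ⟨v₀, hv₀⟩ := S2II.exists_foot (E := E) p
  have hy : yc G P ^ 2 = qm G.R G.map_R (yB G P ^ 2) := alg_pow2 (qm G.R G.map_R) _
  refine ⟨Psi G P hJ hρ ha h2 v₀, ?_, ?_, Psi_z G P hJ hρ ha h2 v₀ (k7_ne ha),
    Psi_y G P hJ hρ ha h2 v₀ hv₀⟩
  · rw [hy]
    exact Psi_x G P hJ hρ ha h2 v₀ _ G.map_foot G.foot_R (c := foot v₀) (fun q h _ => h) _
  · rw [hy]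
    exact Psi_x G P hJ hρ ha h2 v₀ _ G.map_bar G.bar_R (c := bar e D v₀) (fun q _ h => h) _

end Z

end

end Vale.Agent.P231.S3C
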