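import Vale.Agent.P231.Co.M4

/-!
# P231, stage 3, S3-C (R), the space of cut pairs (1): the base of a sphere bundle in low degrees,
formal part
-/

set_option linter.unusedSectionVars false
set_option linter.unusedVariables false

open MeasureTheory Set Module Filter Topology
open scoped ContDiff

namespace Vale.Agent.P231.S3C

open Vale.Agent.P231.Fm Vale.Agent.P231.W Vale.Agent.P231.H584 Vale.Agent.P231.Co
open Vale.Agent.P231.Fm (Sm Dif Form Lam)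

variable {B S Fr : Type*} {DB : Dif B} {DS : Dif S} {DF : Dif Fr}
variable {F : Type} [NormedAddCommGroup F] [InnerProductSpace ℝ F] [FiniteDimensional ℝ F]
  [MeasurableSpace F] [BorelSpace F] {m : ℕ}
  {π : S → B} {q : Fr → B} {ev : Fr × F → S}

/-- one step of the descent -/
theorem gys_step (h : Bun DB DS DF F π q ev) (o : OrthonormalBasis (Fin m) ℝ F) (hm : 1 < m)
    {ψ : Form DS} {e : Form DB} (hψ : h.Ang o ψ e) {i : ℕ} {w : Form DB} (hw : w.d = 0)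
    (hwj : Form.IsDeg (i + 1) w) {η₀ : Form DS} (hη₀ : Form.pull π h.hπ w = η₀.d) :
    ∃ (v γ : Form DB), v.d = 0 ∧ (i + 1 < m → v = 0) ∧ (∀ k, i + 1 = k + m → Form.IsDeg k v) ∧
      w = v * e + γ.d := by
  set η := Form.part i η₀ with hη
  have hηd : Form.pull π h.hπ w = η.d := by
    rw [hη, ← Form.part_succ_d, ← hη₀]
    exact ((hwj.pull π h.hπ : Form.IsDeg (i + 1) (Form.pull π h.hπ w))).symm
  have hηi : Form.IsDeg i η := Form.isDeg_part i η₀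
  have g1 := h.gysin1 o hψ hηd
  obtain ⟨s, hs, hsw⟩ := Bun.sgi_eq hwj (m + 1)
  rw [hsw] at g1
  have hw1 : w = s⁻¹ • (h.SI o η.sg * e) + (s⁻¹ • (-1 : ℝ) ^ (m + 1) • h.SI o (η * ψ)).d := by
    rw [Form.d_smul, Form.d_smul, ← smul_add, ← g1, smul_smul, inv_mul_cancel₀ hs, one_smul]
  have h4 : (h.SI o η.sg).d = 0 := by
    have h5 := h.SI_d o η.sg
    rw [Form.d_sg, ← hηd, ← Form.pull_sg] at h5
    have h6 : -(Form.pull π h.hπ w.sg) = Form.pull π h.hπ (-w.sg) :=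
      (Form.pull_neg' π h.hπ _).symm
    rw [h6, Bun.SI_pull h o hm] at h5
    exact (smul_eq_zero.1 h5.symm).resolve_left (pow_ne_zero _ (by norm_num))
  refine ⟨s⁻¹ • h.SI o η.sg, s⁻¹ • (-1 : ℝ) ^ (m + 1) • h.SI o (η * ψ), ?_, ?_, ?_, ?_⟩
  · rw [Form.d_smul, h4, smul_zero]
  · intro hlt
    rw [h.SI_eq_zero o (Bun.isDeg_sg hηi) hlt, smul_zero]
  · intro k hk
    exact (h.isDeg_SI o (Bun.isDeg_sg hηi) hk).smul _
  · rw [smul_mul_assoc]
    exact hw1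

variable {n₀ : ℕ}

/-- the base below the degree of the Euler form -/
theorem base_low (h : Bun DB DS DF F π q ev) (o : OrthonormalBasis (Fin m) ℝ F) (hm : 1 < m)
    {ψ : Form DS} {e : Form DB} (hψ : h.Ang o ψ e)
    (hS : ∀ (j : ℕ) (σ : Form DS), 0 < j → j < n₀ → ¬ m ∣ j → Form.IsDeg j σ → σ.d = 0 →
      ∃ η : Form DS, σ = η.d) {j : ℕ} (h0 : 0 < j) (hj : j < n₀) (hjm : j < m) {w : Form DB}
    (hw : w.d = 0) (hwj : Form.IsDeg j w) : ∃ γ : Form DB, w = γ.d := by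
  obtain ⟨i, rfl⟩ := Nat.exists_eq_succ_of_ne_zero h0.ne'
  obtain ⟨η₀, hη₀⟩ := hS (i + 1) (Form.pull π h.hπ w) h0 hj
    (fun hd => absurd (Nat.le_of_dvd h0 hd) (by omega)) (hwj.pull _ _) (by
      rw [← Form.pull_d, hw, Form.pull_zero'])
  obtain ⟨v, γ, -, hv, -, hγ⟩ := gys_step h o hm hψ hw hwj hη₀
  rw [hv hjm, zero_mul, zero_add] at hγ
  exact ⟨γ, hγ⟩

/-- the base in the degree of the Euler form -/
theorem base_mid (h : Bun DB DS DF F π q ev) (o : OrthonormalBasis (Fin m) ℝ F) (hm : 1 < m)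
    {ψ : Form DS} {e : Form DB} (hψ : h.Ang o ψ e)
    (hS0 : ∀ σ : Form DS, Form.IsDeg 0 σ → σ.d = 0 → ∃ c : ℝ, σ = c • (1 : Form DS))
    {g : Form DB} (hg : g.d = 0) (hgm : Form.IsDeg m g)
    (hSm : ∀ σ : Form DS, Form.IsDeg m σ → σ.d = 0 →
      ∃ (c : ℝ) (η : Form DS), σ = c • Form.pull π h.hπ g + η.d) {w : Form DB}
    (hw : w.d = 0) (hwj : Form.IsDeg m w) :
    ∃ (c c' : ℝ) (γ : Form DB), w = c • g + c' • e + γ.d := by
  obtain ⟨i, rfl⟩ : ∃ i, m = i + 1 := ⟨m - 1, by omega⟩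
  obtain ⟨c, η₀, hη₀⟩ := hSm (Form.pull π h.hπ w) (hwj.pull _ _) (by
      rw [← Form.pull_d, hw, Form.pull_zero'])
  have h1 : Form.pull π h.hπ (w - c • g) = η₀.d := by
    rw [Form.pull_sub', Co.pull_smul, hη₀]
    abel
  obtain ⟨v, γ, hvd, -, hv, hγ⟩ := gys_step h o hm hψ (w := w - c • g)
    (by rw [Form.d_sub, Form.d_smul, hg, hw, smul_zero, sub_zero]) (hwj.sub (hgm.smul c)) h1
  obtain ⟨c', hc'⟩ := Bun.h0_base h o (by omega) hS0 hvd (hv 0 (by omega))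
  refine ⟨c, c', γ, ?_⟩
  rw [hc', smul_mul_assoc, one_mul] at hγ
  rw [add_assoc, ← hγ]
  abel

/-- the base between one and two times the degree of the Euler form -/
theorem base_high (h : Bun DB DS DF F π q ev) (o : OrthonormalBasis (Fin m) ℝ F) (hm : 1 < m)
    {ψ : Form DS} {e : Form DB} (hψ : h.Ang o ψ e)
    (hS : ∀ (j : ℕ) (σ : Form DS), 0 < j → j < n₀ → ¬ m ∣ j → Form.IsDeg j σ → σ.d = 0 →
      ∃ η : Form DS, σ = η.d) {j : ℕ} (hj : j < n₀) (hj1 : m < j) (hj2 : j < 2 * m)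
    {w : Form DB} (hw : w.d = 0) (hwj : Form.IsDeg j w) : ∃ γ : Form DB, w = γ.d := by
  obtain ⟨i, rfl⟩ := Nat.exists_eq_succ_of_ne_zero (show j ≠ 0 by omega)
  have hnd : ¬ m ∣ i + 1 := by
    rintro ⟨t, ht⟩
    have h1 : 1 < t := by
      by_contra hc
      have : t ≤ 1 := by omega
      have : m * t ≤ m * 1 := Nat.mul_le_mul_left _ this
      omega
    have h2 : m * 2 ≤ m * t := Nat.mul_le_mul_left _ h1
    omega
  obtain ⟨η₀, hη₀⟩ := hS (i + 1) (Form.pull π h.hπ w) (by omega) hj hnd (hwj.pull _ _) (by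
      rw [← Form.pull_d, hw, Form.pull_zero'])
  obtain ⟨v, γ, hvd, -, hv, hγ⟩ := gys_step h o hm hψ hw hwj hη₀
  obtain ⟨k, hk⟩ : ∃ k, i + 1 = k + m := ⟨i + 1 - m, by omega⟩
  obtain ⟨ζ, hζ⟩ := base_low h o hm hψ hS (j := k) (by omega) (by omega) (by omega) hvd (hv k hk)
  have hed : e.d = 0 := hψ.ed h o (by omega)
  refine ⟨ζ * e + γ, ?_⟩
  rw [Form.d_add, Form.d_mul, hed, mul_zero, add_zero, ← hζ]
  exact hγ

end Vale.Agent.P231.S3C
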