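import Vale.Agent.P231.S3C.PX
import Vale.Agent.P231.X3.PForm

/-!
# P231, stage 3, S3-C: the bundles `ξ` and `L` over the unit tangent bundle are isomorphic

Hence the class forms of `ξ` differ from the ones of the planes by exact forms.
-/

set_option maxSynthPendingDepth 3
set_option linter.unusedSectionVars false
set_option linter.unusedVariables false

open Bundle Manifold Set Filter Module Matrix
open scoped ContDiff Manifold Topology

namespace Vale.Agent.P231.S3C

noncomputable section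

open Vale.Agent.P234 Vale.Agent.P231 Vale.Agent.P231.Fm Vale.Agent.P231.W Vale.Agent.P231.WR
  Vale.Agent.P231.H775 Vale.Agent.P231.S2N Vale.Agent.P231.ChW Vale.Agent.P231.X3
  Vale.Agent.P231.S2T

/-! ### class forms without flows -/

section Gen

variable {X : Type*} {D : Dif X} {m n : Type*} [Fintype n] [DecidableEq n] [Fintype m]
  [DecidableEq m]

/-- no flows -/
def nf (D : Dif X) : S2T.Fam D Empty where
  Φ i := i.elim
  map i := i.elim

theorem ib_nf {A : X → Matrix n n ℝ} (hA : SmM D A) (hAA : ∀ x, A x * A x = A x) :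
    IB (nf D) (cR A hA) := ib_cR hA hAA fun i => i.elim

/-- isomorphic real bundles have the same class forms up to exact forms -/
theorem exact_iso {A : X → Matrix n n ℝ} {B : X → Matrix m m ℝ} {a : X → Matrix m n ℝ}
    {b : X → Matrix n m ℝ} (hA : SmM D A) (hB : SmM D B) (ha : SmM D a) (hb : SmM D b)
    (hAA : ∀ x, A x * A x = A x) (hBB : ∀ x, B x * B x = B x)
    (h1 : ∀ x, a x * b x = B x) (h2 : ∀ x, b x * a x = A x) (k : ℕ) :
    ∃ η : Form D, sF k (cR B hB) = sF k (cR A hA) + η.d := by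
  have h3 := (ib_nf hA hAA).cl_iso (ib_nf hB hBB) (IsoData.of (ib_nf hA hAA).idem
    (ib_nf hB hBB).idem (ev_cR ha) (ev_cR hb) (cR_mul ha hb hB h1) (cR_mul hb ha hA h2))
    (fun i => i.elim) (fun i => i.elim) k
  obtain ⟨η, -, h4⟩ := (nf D).exists_of_qm_eq h3
  exact ⟨η, eq_add_of_sub_eq' h4⟩

theorem exact_congr {A B : X → Matrix n n ℝ} (hA : SmM D A) (hB : SmM D B)
    (h : ∀ x, A x = B x) (k : ℕ) : sF k (cR A hA) = sF k (cR B hB) :=
  congrArg (sF k) (cR_congr hA hB h)

/-- a real line has no class forms -/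
theorem sF_line_zero {v : X → n → ℝ} (hv : ∀ i, SmF D (fun x => v x i))
    (h1 : ∀ x, ∑ i, v x i * v x i = 1) {L : X → Matrix n n ℝ} (hL : SmM D L)
    (h : ∀ x, L x = Matrix.vecMulVec (v x) (v x)) {k : ℕ} (hk : k ≠ 0) :
    sF k (cR L hL) = 0 := by
  have hLL : ∀ x, L x * L x = L x := fun x => by
    rw [h, Matrix.vecMulVec_mul_vecMulVec]
    ext i j
    simp only [Matrix.vecMulVec_apply, dotProduct, h1, one_smul]
  have hid : Idem (cR L hL) := (ib_nf hL hLL).idem
  have htr : ∀ x, trace ((L x).map (fun r : ℝ => (r : ℂ))) = 1 := fun x => by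
    have h3 : trace ((L x).map (fun r : ℝ => (r : ℂ))) = ((∑ i, v x i * v x i : ℝ) : ℂ) := by
      rw [Complex.ofReal_sum, h]
      rfl
    rw [h3, h1, Complex.ofReal_one]
  have hr : RankOne (cR L hL) := rankOne_cM _ (fun x => by
    rw [← map_ofReal_mul, hLL]) htr
  have h2 : (cR L hL)ᵀ = cj (cR L hL) := by
    rw [cj_cR, cR_transpose]
    refine cR_congr _ _ fun x => ?_
    rw [h, Matrix.transpose_vecMulVec]
  rw [sF_rankOne hid hr h2, cR_eq, sF_real_odd _ odd_one, zero_pow hk]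

/-- splitting off a trivial real line -/
theorem exact_add {A B L : X → Matrix n n ℝ} (hA : SmM D A) (hB : SmM D B) (hL : SmM D L)
    (hBB : ∀ x, B x * B x = B x) (hLL : ∀ x, L x * L x = L x)
    (h1 : ∀ x, B x * L x = 0) (h2 : ∀ x, L x * B x = 0) (h : ∀ x, A x = B x + L x) (k : ℕ) :
    ∃ η : Form D, sF k (cR A hA) = sF k (cR B hB) + sF k (cR L hL) + η.d := by
  have e1 : cR B hB * cR L hL = 0 := by
    rw [cR_mul hB hL (SmM.const D 0) h1]
    exact cR_zero _ fun _ => rfl
  have e2 : cR L hL * cR B hB = 0 := by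
    rw [cR_mul hL hB (SmM.const D 0) h2]
    exact cR_zero _ fun _ => rfl
  have h3 := ((ib_nf hB hBB).cl_add (ib_nf hL hLL) e1 e2 k).trans
    (map_add (nf D).qm ((ib_nf hB hBB).cl k) ((ib_nf hL hLL).cl k)).symm
  obtain ⟨η, -, h4⟩ := (nf D).exists_of_qm_eq h3
  refine ⟨η, ?_⟩
  have h5 : sF k (cR A hA) = sF k (cR B hB + cR L hL) := by
    rw [cR_add hB hL hA fun x => (h x).symm]
  rw [h5]
  exact eq_add_of_sub_eq' h4

end Gen

/-! ### the isomorphism -/

variable {E : Type*} [NormedAddCommGroup E] [NormedSpace ℝ E]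
  {M : Type*} [MetricSpace M] [ChartedSpace E M]
  [RiemannianBundle (fun x : M => TangentSpace 𝓘(ℝ, E) x)]
  {e : ∀ x : M, TangentSpace 𝓘(ℝ, E) x → M}
  [FiniteDimensional ℝ E] [IsManifold 𝓘(ℝ, E) ∞ M]
  [IsContMDiffRiemannianBundle 𝓘(ℝ, E) ∞ E (fun x : M => TangentSpace 𝓘(ℝ, E) x)]
  [CompactSpace M] [ConnectedSpace M] [IsRiemannianManifold 𝓘(ℝ, E) M]

variable {D : ℝ} {ι : Type} [Fintype ι] [DecidableEq ι]

section Maps

variable (F : Facts e) (hD : 0 < D) (hB : InjGE e D) (hdiam : ∀ p q : M, dist p q ≤ D)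
  (X δ : ι → UT E M → E) (ε : ℝ)

/-- the projection to `L` as a linear map -/
def prLL (e : ∀ x : M, TangentSpace 𝓘(ℝ, E) x → M) (D : ℝ) (v : UT E M) : E →ₗ[ℝ] E where
  toFun := prL e D v
  map_add' := prL_add D v
  map_smul' := prL_smul D v

/-- the boundary operator on `ξ`, as a linear map -/
def thL (v : UT E M) : EuclideanSpace ℝ ι →ₗ[ℝ] E where
  toFun x := Th0 F hD hB hdiam (XX X (Pm F D X δ ε v x)) v
  map_add' x y := by
    rw [map_add]
    exact congrArg (fun z : Lf e D v => ((z : TangentSpace 𝓘(ℝ, E) (foot v)) : E))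
      (map_add (ThL F hD hB hdiam X v) _ _)
  map_smul' c x := by
    rw [map_smul]
    exact congrArg (fun z : Lf e D v => ((z : TangentSpace 𝓘(ℝ, E) (foot v)) : E))
      (map_smul (ThL F hD hB hdiam X v) c _)

/-- the coefficient vector, as a linear map -/
def amL (v : UT E M) : E →ₗ[ℝ] EuclideanSpace ℝ ι where
  toFun w := am F hD hB hdiam X δ ε v (prL e D v w)
  map_add' w w' := by rw [prL_add, am_add]
  map_smul' c w := by rw [prL_smul, am_smul, RingHom.id_apply]

end Maps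

variable {F : Facts e} {hD : 0 < D} {hB : InjGE e D} {hdiam : ∀ p q : M, dist p q ≤ D}
  {l : ℕ} {X δ : ι → UT E M → E} {ε : ℝ} {K : ℕ}
  (hP : ∀ x y : M, dist x y = D → finrank ℝ (H775.Pl e D x y) = l + 1)
  (h : Fam F hD hB hdiam l X δ ε) (P : PF E M K)

include hP h in
theorem thL_amL (v : UT E M) (w : E) :
    thL F hD hB hdiam X δ ε v (amL F hD hB hdiam X δ ε v w) = prL e D v w := by
  have h1 := prL_mem (e := e) D v w
  change Th0 F hD hB hdiam (XX X (Pm F D X δ ε v (am F hD hB hdiam X δ ε v (prL e D v w)))) v = _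
  rw [h.Pm_am hP v h1, h.Th0_am hP v h1]

include hP h in
theorem amL_thL (v : UT E M) (x : EuclideanSpace ℝ ι) :
    amL F hD hB hdiam X δ ε v (thL F hD hB hdiam X δ ε v x) = Pm F D X δ ε v x := by
  change am F hD hB hdiam X δ ε v (prL e D v
    (Th0 F hD hB hdiam (XX X (Pm F D X δ ε v x)) v)) = _
  rw [prL_of_mem (Th0_mem F hD hB hdiam _ v)]
  exact h.am_unique hP v (h.Pm_Pm v x) rfl

/-- `ξ → L` -/
def aX (F : Facts e) (hD : 0 < D) (hB : InjGE e D) (hdiam : ∀ p q : M, dist p q ≤ D)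
    (X δ : ι → UT E M → E) (ε : ℝ) (P : PF E M K) (v : UT E M) : Matrix (Fin K) ι ℝ :=
  Matrix.of fun i j => P.em (foot v) (thL F hD hB hdiam X δ ε v (EuclideanSpace.single j 1)) i

/-- `L → ξ` -/
def bX (F : Facts e) (hD : 0 < D) (hB : InjGE e D) (hdiam : ∀ p q : M, dist p q ≤ D)
    (X δ : ι → UT E M → E) (ε : ℝ) (P : PF E M K) (v : UT E M) : Matrix ι (Fin K) ℝ :=
  Matrix.of fun j k => amL F hD hB hdiam X δ ε v (P.v k (foot v)) j

/-- the projector of `L` -/
def lX (e : ∀ x : M, TangentSpace 𝓘(ℝ, E) x → M) (D : ℝ) (P : PF E M K) (v : UT E M) :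
    Matrix (Fin K) (Fin K) ℝ := P.mat (foot v) (foot v) (prLL e D v)

theorem lm_apply_eq {V : Type*} [AddCommGroup V] [Module ℝ V]
    (L : EuclideanSpace ℝ ι →ₗ[ℝ] V) (x : EuclideanSpace ℝ ι) :
    L x = ∑ j, x j • L (EuclideanSpace.single j (1 : ℝ)) := by
  have h : x = ∑ j, x j • EuclideanSpace.single j (1 : ℝ) := by
    ext i
    simp [Pi.single_apply]
  conv_lhs => rw [h]
  rw [map_sum]
  exact Finset.sum_congr rfl fun j _ => map_smul L _ _

include hP h in
theorem aX_bX (v : UT E M) : aX F hD hB hdiam X δ ε P v * bX F hD hB hdiam X δ ε P v =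
    lX e D P v := by
  ext i k
  rw [Matrix.mul_apply]
  have h1 := lm_apply_eq (thL F hD hB hdiam X δ ε v)
    (amL F hD hB hdiam X δ ε v (P.v k (foot v)))
  rw [thL_amL hP h] at h1
  change _ = ip (foot v) (P.v i (foot v)) (prL e D v (P.v k (foot v)))
  rw [h1, ip_sum_right]
  refine Finset.sum_congr rfl fun j _ => ?_
  rw [ip_smul_right', mul_comm]
  rfl

include hP h in
theorem bX_aX (v : UT E M) : bX F hD hB hdiam X δ ε P v * aX F hD hB hdiam X δ ε P v =
    pX F D X δ ε v := by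
  ext j j'
  rw [Matrix.mul_apply]
  set T := thL F hD hB hdiam X δ ε v (EuclideanSpace.single j' 1) with hT
  have h1 : amL F hD hB hdiam X δ ε v T =
      ∑ k, P.em (foot v) T k • amL F hD hB hdiam X δ ε v (P.v k (foot v)) := by
    conv_lhs => rw [← P.sum_em (foot v) T]
    rw [map_sum]
    exact Finset.sum_congr rfl fun k _ => map_smul _ _ _
  have h2 := congrFun (congrArg (fun z : EuclideanSpace ℝ ι => (z : ι → ℝ)) h1) j
  rw [hT, amL_thL hP h, ← hT] at h2
  rw [pX_apply]
  refine Eq.trans ?_ h2.symm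
  simp only [WithLp.ofLp_sum, Finset.sum_apply, PiLp.smul_apply, smul_eq_mul]
  exact Finset.sum_congr rfl fun k _ => mul_comm _ _

include hP h in
theorem sm_aX : SmM (dUT E M) (aX F hD hB hdiam X δ ε P) := fun i j =>
  SmF.of fun {E'} _ _ _ {u x} hu => by
    have h1 := h.sm_Pm hu
    have h2 : Sm (fun s => Pm F D X δ ε (u s) (EuclideanSpace.single j (1 : ℝ))) x := by
      filter_upwards [h1] with s hs
      exact hs.clm_apply contDiffAt_const
    have hTh : ∀ i, Fld (Th0 F hD hB hdiam (X i)) := fun i =>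
      fld_Th0 F hD hB hdiam hP (h.df i).fld
    have h3 := at_XX hTh hu h2
    have h4 := P.sm_em h3 i
    have h5 : (fun s => aX F hD hB hdiam X δ ε P (u s) i j) = fun s => P.em (foot (u s))
        (XX (fun i => Th0 F hD hB hdiam (X i)) (Pm F D X δ ε (u s)
          (EuclideanSpace.single j (1 : ℝ))) (u s)) i := by
      funext s
      change P.em (foot (u s)) (Th0 F hD hB hdiam (XX X (Pm F D X δ ε (u s)
        (EuclideanSpace.single j 1))) (u s)) i = _
      rw [Th0_XX]
      rfl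
    rw [h5]
    exact h4

include hP h in
theorem sm_bX : SmM (dUT E M) (bX F hD hB hdiam X δ ε P) := fun j k =>
  SmF.of fun {E'} _ _ _ {u x} hu => by
    have h1 : (dTM E M).At (fun s => tb (foot (u s)) (prL e D (u s) (P.v k (foot (u s))))) x :=
      at_prL F hD hB hdiam hP hu (P.at_X (W.map_foot hu) k)
    exact sm_coord (h.sm_am hP hu h1) j

theorem sm_lX (F : Facts e) (hD : 0 < D) (hB : InjGE e D) (hdiam : ∀ p q : M, dist p q ≤ D)
    (hP : ∀ x y : M, dist x y = D → finrank ℝ (H775.Pl e D x y) = l + 1) :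
    SmM (dUT E M) (lX e D P) :=
  P.smM_mat (fun h => W.map_foot h) ⟨fun hu ha => at_prL F hD hB hdiam hP hu ha⟩

theorem lX_idem (v : UT E M) : lX e D P v * lX e D P v = lX e D P v := by
  rw [lX, P.mat_mul]
  congr 1
  exact LinearMap.ext fun a => prL_of_mem (prL_mem D v a)

/-- the projector of the tautological line -/
def nX (P : PF E M K) (v : UT E M) : Matrix (Fin K) (Fin K) ℝ :=
  Matrix.vecMulVec (P.em (foot v) (vec' v)) (P.em (foot v) (vec' v))

theorem sm_tv (i : Fin K) : SmF (dUT E M) (fun v => P.em (foot v) (vec' v) i) :=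
  SmF.of fun {E'} _ _ _ {u x} hu => P.sm_em (f := fun s => foot (u s)) (a := fun s => vec' (u s)) hu i

theorem sm_nX : SmM (dUT E M) (nX P) := fun i j => (sm_tv P i).mul (sm_tv P j)

theorem em_unit (v : UT E M) :
    ∑ i, P.em (foot v) (vec' v) i * P.em (foot v) (vec' v) i = 1 := by
  rw [← P.ip_eq, ip_vec']

theorem nX_idem (v : UT E M) : nX P v * nX P v = nX P v := by
  rw [nX, Matrix.vecMulVec_mul_vecMulVec]
  ext i j
  simp only [Matrix.vecMulVec_apply, dotProduct, em_unit, one_smul]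

theorem lX_nX (v : UT E M) : lX e D P v * nX P v = 0 := by
  rw [nX, Matrix.mul_vecMulVec, lX, P.mat_mulVec]
  have h1 : prLL e D v (vec' v) = 0 := prL_self D v
  rw [h1]
  have h2 : P.em (foot v) (0 : E) = 0 := by
    have h3 := P.em_smul (foot v) 0 (0 : E)
    rwa [zero_smul, zero_smul] at h3
  rw [h2, Matrix.zero_vecMulVec]

theorem lX_symm (v : UT E M) : (lX e D P v)ᵀ = lX e D P v :=
  P.mat_transpose _ _ fun a b => ip_prL D v a b

theorem nX_lX (v : UT E M) : nX P v * lX e D P v = 0 := by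
  have h1 := congrArg Matrix.transpose (lX_nX (e := e) (D := D) P v)
  rw [Matrix.transpose_mul, lX_symm, nX, Matrix.transpose_vecMulVec, Matrix.transpose_zero] at h1
  exact h1

theorem pU_eq (v : UT E M) : pU e D P v = lX e D P v + nX P v := by
  ext i j
  change ip (foot v) (P.v i (foot v)) (prP e D v (P.v j (foot v))) =
    ip (foot v) (P.v i (foot v)) (prL e D v (P.v j (foot v))) + _
  rw [prP_eq, ip_add_right', ip_smul_right', add_comm]
  congr 1
  rw [nX, Matrix.vecMulVec_apply, PF.em, PF.em, ip_comm' (foot v) (vec' v), mul_comm]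

/-- the class forms of `ξ` -/
def xcl (h : Fam F hD hB hdiam l X δ ε) (k : ℕ) : Form (dUT E M) :=
  sF k (cR (pX F D X δ ε) (pX_smooth h))

include hP in
/-- **the class forms of `ξ` and of the planes** -/
theorem exact_ucl (G : Geo e D l) {k : ℕ} (hk : k ≠ 0) :
    ∃ η : Form (dUT E M), ucl G P k = xcl h k + η.d := by
  have h1 := exact_iso (pX_smooth h) (sm_lX P F hD hB hdiam hP) (sm_aX hP h P) (sm_bX hP h P)
    (pX_idem h) (lX_idem P) (aX_bX hP h P) (bX_aX hP h P) k
  obtain ⟨η₁, h1⟩ := h1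
  obtain ⟨η₂, h2⟩ := exact_add (sm_pU G P) (sm_lX P F hD hB hdiam hP) (sm_nX P) (lX_idem P)
    (nX_idem P) (lX_nX P) (nX_lX P) (pU_eq P) k
  refine ⟨η₁ + η₂, ?_⟩
  have h3 : sF k (cR (nX P) (sm_nX P)) = 0 :=
    sF_line_zero (sm_tv P) (em_unit P) _ (fun _ => rfl) hk
  rw [ucl, h2, h3, h1, xcl, Form.d_add]
  abel

end

end Vale.Agent.P231.S3C
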